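import Vale.Agent.P214.MathlibUsed
import Vale.Agent.P214.Defs
attribute [-instance] ProperSMul.toContinuousSMul IsTopologicalTorsor.toContinuousSMul IdemSemiring.toCanonicallyOrderedAdd IdemSemiring.toMulLeftMono IdemSemiring.toMulRightMono AddQuantale.instAddLeftMono AddQuantale.instAddRightMono Quantale.instMulLeftMono Quantale.instMulRightMono FiniteDimensional.rclike_to_real IsScalarTower.complexToReal FiniteDimensional.complexToReal

set_option linter.all false

section

section

/-! Profile functions: `prof s = (max (1 - s) 0)^2`, `kap u = 1/(1+u^2)`. -/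

open Set Filter Topology MeasureTheory

namespace Vale.Agent.P214

/-- the cut-off profile `(1-s)_+^2` -/
noncomputable def prof (s : ℝ) : ℝ := (max (1 - s) 0) ^ 2

/-- minus the derivative of the profile -/
noncomputable def dprof (s : ℝ) : ℝ := 2 * max (1 - s) 0

lemma prof_nonneg (s : ℝ) : 0 ≤ prof s := sq_nonneg _

lemma dprof_nonneg (s : ℝ) : 0 ≤ dprof s := by
  unfold dprof; positivity

lemma prof_of_one_le {s : ℝ} (h : 1 ≤ s) : prof s = 0 := by
  unfold prof; rw [max_eq_right (by linarith)]; simp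

lemma dprof_of_one_le {s : ℝ} (h : 1 ≤ s) : dprof s = 0 := by
  unfold dprof; rw [max_eq_right (by linarith)]; simp

lemma prof_le_one {s : ℝ} (h : 0 ≤ s) : prof s ≤ 1 := by
  unfold prof
  have h1 : max (1 - s) 0 ≤ 1 := max_le (by linarith) (by norm_num)
  have h0 : 0 ≤ max (1 - s) 0 := le_max_right _ _
  nlinarith

lemma dprof_le_two {s : ℝ} (h : 0 ≤ s) : dprof s ≤ 2 := by
  unfold dprof
  have h1 : max (1 - s) 0 ≤ 1 := max_le (by linarith) (by norm_num)
  linarith

lemma le_prof {s t : ℝ} (h : s ≤ t) (ht : t ≤ 1) : (1 - t) ^ 2 ≤ prof s := by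
  unfold prof
  have h1 : 1 - t ≤ max (1 - s) 0 := le_trans (by linarith) (le_max_left _ _)
  have h0 : 0 ≤ 1 - t := by linarith
  gcongr

lemma le_dprof {s t : ℝ} (h : s ≤ t) : 2 * (1 - t) ≤ dprof s := by
  unfold dprof
  have h1 : 1 - t ≤ max (1 - s) 0 := le_trans (by linarith) (le_max_left _ _)
  linarith

lemma continuous_prof : Continuous prof := by
  unfold prof; fun_prop

lemma continuous_dprof : Continuous dprof := by
  unfold dprof; fun_prop

lemma hasDerivAt_prof (s : ℝ) : HasDerivAt prof (-dprof s) s := by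
  rcases lt_trichotomy s 1 with h | h | h
  · have h1 : HasDerivAt (fun s : ℝ => (1 - s) ^ 2) (-dprof s) s := by
      have := ((hasDerivAt_id s).const_sub 1).pow 2
      refine this.congr_deriv ?_
      unfold dprof; rw [max_eq_left (by linarith)]; simp
    refine h1.congr_of_eventuallyEq ?_
    filter_upwards [Iio_mem_nhds h] with u hu
    unfold prof; rw [max_eq_left (by linarith [mem_Iio.mp hu])]
  · subst h
    have h0 : dprof 1 = 0 := dprof_of_one_le le_rfl
    rw [h0, neg_zero]
    rw [hasDerivAt_iff_isLittleO]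
    have hb : (fun x' => prof x' - prof 1 - (x' - 1) • (0:ℝ)) =O[𝓝 1] fun x' => (x' - 1) ^ 2 := by
      refine Asymptotics.IsBigO.of_bound 1 (Eventually.of_forall fun u => ?_)
      rw [prof_of_one_le le_rfl]
      simp only [sub_zero, smul_zero, Real.norm_eq_abs, one_mul]
      unfold prof
      rw [abs_of_nonneg (sq_nonneg _), abs_of_nonneg (sq_nonneg _)]
      rcases le_total (1 - u) 0 with hu | hu
      · rw [max_eq_right hu]; nlinarith [sq_nonneg (u - 1)]
      · rw [max_eq_left hu]; nlinarith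
    refine hb.trans_isLittleO ?_
    have : Tendsto (fun x : ℝ => x - 1) (𝓝 1) (𝓝 0) := by
      have h : Continuous fun x : ℝ => x - 1 := by fun_prop
      simpa using h.tendsto 1
    exact (Asymptotics.isLittleO_pow_id one_lt_two).comp_tendsto this
  · have h1 : HasDerivAt (fun _ : ℝ => (0:ℝ)) (-dprof s) s := by
      rw [dprof_of_one_le h.le, neg_zero]; exact hasDerivAt_const _ _
    refine h1.congr_of_eventuallyEq ?_
    filter_upwards [Ioi_mem_nhds h] with u hu
    exact prof_of_one_le (mem_Ioi.mp hu).le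

lemma contDiff_prof : ContDiff ℝ 1 prof := by
  rw [contDiff_one_iff_deriv]
  refine ⟨fun s => (hasDerivAt_prof s).differentiableAt, ?_⟩
  have : deriv prof = fun s => -dprof s := funext fun s => (hasDerivAt_prof s).deriv
  rw [this]; exact continuous_dprof.neg

/-- slab kernel -/
noncomputable def kap (u : ℝ) : ℝ := (1 + u ^ 2)⁻¹

lemma kap_pos (u : ℝ) : 0 < kap u := by unfold kap; positivity

lemma kap_le_one (u : ℝ) : kap u ≤ 1 := by
  unfold kap; exact inv_le_one_of_one_le₀ (by nlinarith [sq_nonneg u])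

lemma hasDerivAt_kap (u : ℝ) : HasDerivAt kap (-(2 * u) / (1 + u ^ 2) ^ 2) u := by
  have h : HasDerivAt (fun u : ℝ => 1 + u ^ 2) (2 * u) u := by
    simpa using ((hasDerivAt_id u).pow 2).const_add 1
  exact h.inv (by positivity)

lemma contDiff_kap : ContDiff ℝ 1 kap := by
  unfold kap
  exact (contDiff_const.add (contDiff_id.pow 2)).inv fun u => by positivity

lemma abs_deriv_kap_le (u : ℝ) : |(-(2 * u) / (1 + u ^ 2) ^ 2)| ≤ 1 := by
  have h1 : (0:ℝ) < (1 + u ^ 2) ^ 2 := by positivity
  rw [abs_div, abs_of_pos h1, div_le_one h1, abs_neg, abs_mul, abs_of_pos (by norm_num : (0:ℝ) < 2)]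
  have h2 : 2 * |u| ≤ 1 + u ^ 2 := by
    nlinarith [sq_nonneg (|u| - 1), sq_abs u]
  nlinarith [sq_nonneg u]

lemma kap_ge {u : ℝ} (h : |u| ≤ 1 / 2) : 4 / 5 ≤ kap u := by
  unfold kap
  have h2 : u ^ 2 ≤ 1 / 4 := by
    have := sq_le_sq' (by linarith [abs_nonneg u] : -(1/2 : ℝ) ≤ |u|) h
    rw [sq_abs] at this; linarith
  rw [div_le_iff₀ (by norm_num), inv_mul_eq_div, le_div_iff₀ (by positivity)]
  linarith

end Vale.Agent.P214
end
end

section

section

/-! Local stationarity data and the radial identity. -/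

open Set Filter Topology MeasureTheory Metric
open scoped RealInnerProductSpace

namespace Vale.Agent.P214

set_option linter.unusedSectionVars false

lemma aesm_clm_apply {X F G : Type*} [MeasurableSpace X] [NormedAddCommGroup F] [NormedSpace ℝ F]
    [NormedAddCommGroup G] [NormedSpace ℝ G] {ν : Measure X} {A : X → F →L[ℝ] G} {w : X → F}
    (hA : AEStronglyMeasurable A ν) (hw : AEStronglyMeasurable w ν) :
    AEStronglyMeasurable (fun y => A y (w y)) ν :=
  isBoundedBilinearMap_apply.continuous.comp_aestronglyMeasurable (hA.prodMk hw)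

variable {E : Type*} [NormedAddCommGroup E] [InnerProductSpace ℝ E] [FiniteDimensional ℝ E]
  [MeasurableSpace E] [BorelSpace E]

/-- local stationarity data on an open set `O`, finite measure `ν`, tangential projections `P` -/
structure LocStat (m : ℕ) (O : Set E) (ν : Measure E) (P : E → E →L[ℝ] E) : Prop where
  isOpen : IsOpen O
  meas : AEStronglyMeasurable P ν
  proj : ∀ᵐ y ∂ν, ∃ T : Submodule ℝ E, Module.finrank ℝ T = m ∧ P y = T.starProjection
  stat : ∀ (f : E → ℝ) (v : E), ContDiff ℝ 1 f → HasCompactSupport f → tsupport f ⊆ O →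
    ∫ y, fderiv ℝ f y (P y v) ∂ν = 0

variable {m : ℕ} {O : Set E} {ν : Measure E} {P : E → E →L[ℝ] E}

lemma LocStat.norm_le (h : LocStat m O ν P) : ∀ᵐ y ∂ν, ‖P y‖ ≤ 1 := by
  filter_upwards [h.proj] with y hy
  obtain ⟨T, -, hT⟩ := hy
  rw [hT]; exact T.starProjection_norm_le

/-- trace of a projection -/
lemma sum_inner_proj (T : Submodule ℝ E) {ι : Type*} [Fintype ι] (b : OrthonormalBasis ι ℝ E) :
    ∑ k, ⟪b k, T.starProjection (b k)⟫ = Module.finrank ℝ T := by
  have h1 := LinearMap.trace_eq_sum_inner (T.starProjection : E →ₗ[ℝ] E) b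
  have h2 : LinearMap.IsProj T (T.starProjection : E →ₗ[ℝ] E) :=
    { map_mem := fun x => T.starProjection_apply_mem x
      map_id := fun x hx => by simpa using (Submodule.starProjection_eq_self_iff).2 hx }
  have h3 := h2.trace
  rw [h3] at h1
  simpa using h1.symm

/-- integrability of the basic integrand -/
lemma LocStat.integrable_fderiv [IsFiniteMeasure ν] (h : LocStat m O ν P) {f : E → ℝ}
    (hf : ContDiff ℝ 1 f) (hc : HasCompactSupport f) {w : E → E} (hw : Continuous w) :
    Integrable (fun y => fderiv ℝ f y (P y (w y))) ν := by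
  have hcont : Continuous (fderiv ℝ f) := hf.continuous_fderiv (by norm_num)
  have hcs : HasCompactSupport (fderiv ℝ f) := hc.fderiv (𝕜 := ℝ)
  have hmeas : AEStronglyMeasurable (fun y => fderiv ℝ f y (P y (w y))) ν := by
    have h1 : AEStronglyMeasurable (fun y => P y (w y)) ν :=
      aesm_clm_apply h.meas hw.aestronglyMeasurable
    exact aesm_clm_apply hcont.aestronglyMeasurable h1
  -- bound
  have hprod : Continuous fun y => ‖fderiv ℝ f y‖ * ‖w y‖ := by fun_prop
  have hprodc : HasCompactSupport fun y => ‖fderiv ℝ f y‖ * ‖w y‖ := by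
    refine HasCompactSupport.mul_right ?_
    exact hcs.norm
  obtain ⟨C, hC⟩ := hprod.bounded_above_of_compact_support hprodc
  refine Integrable.mono' (integrable_const C) hmeas ?_
  filter_upwards [h.norm_le] with y hy
  calc ‖fderiv ℝ f y (P y (w y))‖ ≤ ‖fderiv ℝ f y‖ * ‖P y (w y)‖ := (fderiv ℝ f y).le_opNorm _
    _ ≤ ‖fderiv ℝ f y‖ * (1 * ‖w y‖) := by
        gcongr
        exact (P y).le_of_opNorm_le hy _
    _ ≤ C := by
        rw [one_mul]
        have := hC y
        rwa [Real.norm_of_nonneg (by positivity)] at this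

/-- the radial identity: stationarity tested with `h(y)(y-x)` -/
lemma LocStat.radial [IsFiniteMeasure ν] (h : LocStat m O ν P) (x : E) {f : E → ℝ}
    (hf : ContDiff ℝ 1 f) (hc : HasCompactSupport f) (hs : tsupport f ⊆ O) :
    ∫ y, ((m : ℝ) * f y + fderiv ℝ f y (P y (y - x))) ∂ν = 0 := by
  classical
  set b := stdOrthonormalBasis ℝ E with hb
  -- test functions
  set F : Fin (Module.finrank ℝ E) → E → ℝ := fun k y => f y * ⟪b k, y - x⟫ with hF
  have hlin : ∀ k, ContDiff ℝ 1 fun y : E => ⟪b k, y - x⟫ := fun k =>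
    contDiff_const.inner ℝ (contDiff_id.sub contDiff_const)
  have hFc : ∀ k, ContDiff ℝ 1 (F k) := fun k => hf.mul (hlin k)
  have hFs : ∀ k, HasCompactSupport (F k) := fun k => hc.mul_right
  have hFt : ∀ k, tsupport (F k) ⊆ O := fun k =>
    (closure_mono (Function.support_mul_subset_left _ _)).trans hs
  have hder : ∀ k y w, fderiv ℝ (F k) y w = fderiv ℝ f y w * ⟪b k, y - x⟫ + f y * ⟪b k, w⟫ := by
    intro k y w
    have h1 : HasFDerivAt f (fderiv ℝ f y) y := (hf.differentiable (by norm_num) y).hasFDerivAt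
    have h2 : HasFDerivAt (fun y : E => ⟪b k, y - x⟫) (innerSL ℝ (b k)) y := by
      have := (innerSL ℝ (b k)).hasFDerivAt (x := y - x)
      have h3 : HasFDerivAt (fun y : E => y - x) (ContinuousLinearMap.id ℝ E) y :=
        (hasFDerivAt_id y).sub_const x
      exact this.comp y h3
    have h4 := h1.mul h2
    have h5 : fderiv ℝ (F k) y = f y • innerSL ℝ (b k) + ⟪b k, y - x⟫ • fderiv ℝ f y := h4.fderiv
    rw [h5]
    simp only [_root_.add_apply, _root_.smul_apply, innerSL_apply_apply,
      smul_eq_mul]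
    ring
  have hstat : ∀ k, ∫ y, fderiv ℝ (F k) y (P y (b k)) ∂ν = 0 := fun k =>
    h.stat (F k) (b k) (hFc k) (hFs k) (hFt k)
  have hint : ∀ k, Integrable (fun y => fderiv ℝ (F k) y (P y (b k))) ν := fun k =>
    h.integrable_fderiv (hFc k) (hFs k) continuous_const
  have hsum : ∫ y, ∑ k, fderiv ℝ (F k) y (P y (b k)) ∂ν = 0 := by
    rw [integral_finsetSum _ fun k _ => hint k]
    exact Finset.sum_eq_zero fun k _ => hstat k
  rw [← hsum]
  refine integral_congr_ae ?_
  filter_upwards [h.proj] with y hy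
  obtain ⟨T, hT, hPT⟩ := hy
  simp only [hder]
  rw [Finset.sum_add_distrib, ← Finset.mul_sum, hPT, sum_inner_proj T b, hT]
  have h6 : ∑ k, fderiv ℝ f y (T.starProjection (b k)) * ⟪b k, y - x⟫
      = fderiv ℝ f y (T.starProjection (y - x)) := by
    conv_rhs => rw [← b.sum_repr' (y - x)]
    simp only [map_sum, map_smul, smul_eq_mul]
    exact Finset.sum_congr rfl fun k _ => by ring
  rw [h6]; ring

end Vale.Agent.P214
end
end

section

section

/-! Weighted monotonicity. -/

open Set Filter Topology MeasureTheory Metric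
open scoped RealInnerProductSpace

namespace Vale.Agent.P214

set_option linter.unusedSectionVars false

variable {E : Type*} [NormedAddCommGroup E] [InnerProductSpace ℝ E] [FiniteDimensional ℝ E]
  [MeasurableSpace E] [BorelSpace E]

/-- cut-off at scale `r` around `x` -/
noncomputable def cut (x : E) (r : ℝ) (y : E) : ℝ := prof (‖y - x‖ ^ 2 / r ^ 2)

noncomputable def dcut (x : E) (r : ℝ) (y : E) : ℝ := dprof (‖y - x‖ ^ 2 / r ^ 2)

variable {x y : E} {r : ℝ}

lemma cut_nonneg (x : E) (r : ℝ) (y : E) : 0 ≤ cut x r y := prof_nonneg _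

lemma cut_le_one (x : E) (r : ℝ) (y : E) : cut x r y ≤ 1 := prof_le_one (by positivity)

lemma dcut_nonneg (x : E) (r : ℝ) (y : E) : 0 ≤ dcut x r y := dprof_nonneg _

lemma dcut_le_two (x : E) (r : ℝ) (y : E) : dcut x r y ≤ 2 := dprof_le_two (by positivity)

lemma one_le_of_le (hr : 0 < r) (h : r ≤ ‖y - x‖) : 1 ≤ ‖y - x‖ ^ 2 / r ^ 2 := by
  rw [one_le_div (by positivity)]; gcongr

lemma cut_eq_zero (hr : 0 < r) (h : r ≤ ‖y - x‖) : cut x r y = 0 :=
  prof_of_one_le (one_le_of_le hr h)

lemma dcut_eq_zero (hr : 0 < r) (h : r ≤ ‖y - x‖) : dcut x r y = 0 :=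
  dprof_of_one_le (one_le_of_le hr h)

lemma cut_ge (hr : 0 < r) (h : ‖y - x‖ ≤ r / 2) : 9 / 16 ≤ cut x r y := by
  have h1 : ‖y - x‖ ^ 2 / r ^ 2 ≤ 1 / 4 := by
    rw [div_le_iff₀ (by positivity)]
    have := pow_le_pow_left₀ (norm_nonneg _) h 2
    nlinarith
  have := le_prof h1 (by norm_num)
  unfold cut; norm_num at this ⊢; exact this

lemma dcut_ge (hr : 0 < r) (h : ‖y - x‖ ≤ r / 2) : 1 ≤ dcut x r y := by
  have h1 : ‖y - x‖ ^ 2 / r ^ 2 ≤ 1 / 2 := by
    rw [div_le_iff₀ (by positivity)]
    have := pow_le_pow_left₀ (norm_nonneg _) h 2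
    nlinarith [sq_nonneg r]
  have := le_dprof h1
  unfold dcut; norm_num at this ⊢; exact this

lemma continuous_cut (x : E) (r : ℝ) : Continuous (cut x r) := by
  unfold cut; exact continuous_prof.comp (by fun_prop)

lemma continuous_dcut (x : E) (r : ℝ) : Continuous (dcut x r) := by
  unfold dcut; exact continuous_dprof.comp (by fun_prop)

lemma contDiff_cut (x : E) (r : ℝ) : ContDiff ℝ 1 (cut x r) := by
  unfold cut
  exact contDiff_prof.comp (((contDiff_id.sub contDiff_const).norm_sq ℝ).div_const _)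

lemma support_cut (hr : 0 < r) : Function.support (cut x r) ⊆ ball x r := by
  intro y hy
  rw [Function.mem_support] at hy
  rw [mem_ball, dist_eq_norm]
  by_contra h
  exact hy (cut_eq_zero hr (not_lt.mp h))

lemma tsupport_cut (hr : 0 < r) : tsupport (cut x r) ⊆ closedBall x r :=
  (closure_mono (support_cut hr)).trans closure_ball_subset_closedBall

lemma hasCompactSupport_cut (hr : 0 < r) : HasCompactSupport (cut x r) :=
  HasCompactSupport.of_support_subset_isCompact (isCompact_closedBall x r)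
    ((support_cut hr).trans ball_subset_closedBall)

lemma hasFDerivAt_cut (x : E) (r : ℝ) (y : E) :
    HasFDerivAt (cut x r) ((-(dcut x r y) * (2 / r ^ 2)) • innerSL ℝ (y - x)) y := by
  have h1 : HasFDerivAt (fun y : E => ‖y - x‖ ^ 2) ((2 : ℝ) • innerSL ℝ (y - x)) y := by
    have h := (hasStrictFDerivAt_norm_sq (y - x)).hasFDerivAt
    have h3 : HasFDerivAt (fun y : E => y - x) (ContinuousLinearMap.id ℝ E) y :=
      (hasFDerivAt_id y).sub_const x
    have h4 := h.comp y h3
    refine h4.congr_fderiv ?_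
    ext w; simp
  have h2 : HasFDerivAt (fun y : E => ‖y - x‖ ^ 2 / r ^ 2)
      ((2 / r ^ 2) • innerSL ℝ (y - x)) y := by
    have := h1.mul_const ((r ^ 2)⁻¹)
    refine (this.congr_of_eventuallyEq ?_).congr_fderiv ?_
    · exact Eventually.of_forall fun z => by simp [div_eq_mul_inv]
    · ext w; simp [div_eq_mul_inv]; ring
  have h3 := (hasDerivAt_prof (‖y - x‖ ^ 2 / r ^ 2)).comp_hasFDerivAt y h2
  refine h3.congr_fderiv ?_
  ext w; simp [dcut]; ring

lemma fderiv_cut (x : E) (r : ℝ) (y w : E) :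
    fderiv ℝ (cut x r) y w = -(dcut x r y) * (2 / r ^ 2) * ⟪y - x, w⟫ := by
  rw [(hasFDerivAt_cut x r y).fderiv]
  simp only [_root_.smul_apply, innerSL_apply_apply, smul_eq_mul]

lemma abs_fderiv_cut_le (hr : 0 < r) (x y w : E) :
    |fderiv ℝ (cut x r) y w| ≤ 4 / r * ‖w‖ := by
  rw [fderiv_cut]
  by_cases h : r ≤ ‖y - x‖
  · rw [dcut_eq_zero hr h]; simp; positivity
  · have h1 : |⟪y - x, w⟫| ≤ ‖y - x‖ * ‖w‖ := abs_real_inner_le_norm _ _
    have h2 : ‖y - x‖ ≤ r := (not_le.mp h).le
    have h3 := dcut_le_two x r y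
    have h4 := dcut_nonneg x r y
    rw [abs_mul, abs_mul, abs_neg, abs_of_nonneg h4, abs_of_pos (by positivity : (0:ℝ) < 2 / r ^ 2)]
    calc dcut x r y * (2 / r ^ 2) * |⟪y - x, w⟫| ≤ 2 * (2 / r ^ 2) * (r * ‖w‖) := by
          gcongr
          exact h1.trans (by gcongr)
      _ = 4 / r * ‖w‖ := by field_simp; ring

variable {m : ℕ} {O : Set E} {ν : Measure E} {P : E → E →L[ℝ] E}

/-- weighted mass at scale `r` -/
noncomputable def wmass (ν : Measure E) (x : E) (w : E → ℝ) (r : ℝ) : ℝ :=
  ∫ y, cut x r y * w y ∂ν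

/-- the tilt term -/
noncomputable def tiltTerm (ν : Measure E) (P : E → E →L[ℝ] E) (x : E) (w : E → ℝ) (r : ℝ) : ℝ :=
  ∫ y, dcut x r y * w y * ‖(y - x) - P y (y - x)‖ ^ 2 ∂ν

/-- the weight derivative term -/
noncomputable def gradTerm (ν : Measure E) (P : E → E →L[ℝ] E) (x : E) (w : E → ℝ) (r : ℝ) : ℝ :=
  ∫ y, cut x r y * fderiv ℝ w y (P y (y - x)) ∂ν

/-- Continuous function times dcut is integrable -/
lemma integrable_of_ball [IsFiniteMeasure ν] {f : E → ℝ} (hf : Continuous f) (_hr : 0 < r)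
    (hs : ∀ y, r ≤ ‖y - x‖ → f y = 0) : Integrable f ν := by
  have hc : HasCompactSupport f := by
    refine HasCompactSupport.of_support_subset_isCompact (isCompact_closedBall x r) ?_
    intro y hy
    rw [mem_closedBall, dist_eq_norm]
    by_contra h
    exact hy (hs y (not_le.mp h).le)
  exact hf.integrable_of_hasCompactSupport hc

lemma hasDerivAt_wmass [IsFiniteMeasure ν] {w : E → ℝ} (hw : Continuous w) (hr : 0 < r) :
    HasDerivAt (wmass ν x w) (∫ y, dcut x r y * (2 * ‖y - x‖ ^ 2 / r ^ 3) * w y ∂ν) r := by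
  have hs : Ioo (r / 2) (2 * r) ∈ 𝓝 r := Ioo_mem_nhds (by linarith) (by linarith)
  obtain ⟨C, hC⟩ := (isCompact_closedBall x (2 * r)).exists_bound_of_continuousOn hw.continuousOn
  have hC0 : 0 ≤ C := by
    have := hC x (mem_closedBall_self (by linarith))
    exact (norm_nonneg _).trans this
  have key := hasDerivAt_integral_of_dominated_loc_of_deriv_le (μ := ν) (𝕜 := ℝ)
    (F := fun r y => cut x r y * w y)
    (F' := fun r y => dcut x r y * (2 * ‖y - x‖ ^ 2 / r ^ 3) * w y) (x₀ := r)
    (s := Ioo (r / 2) (2 * r)) (bound := fun _ => 2 * (2 * (2 * r) ^ 2 / (r / 2) ^ 3) * C)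
    hs ?_ ?_ ?_ ?_ ?_ ?_
  · exact key.2
  · exact Eventually.of_forall fun s => ((continuous_cut x s).mul hw).aestronglyMeasurable
  · refine integrable_of_ball (x := x) ((continuous_cut x r).mul hw) hr fun y hy => ?_
    rw [cut_eq_zero hr hy, zero_mul]
  · have : Continuous fun y => dcut x r y * (2 * ‖y - x‖ ^ 2 / r ^ 3) * w y := by
      have := continuous_dcut x r
      fun_prop
    exact this.aestronglyMeasurable
  · refine Eventually.of_forall fun y s hs => ?_
    have hs0 : 0 < s := by linarith [hs.1]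
    by_cases h : s ≤ ‖y - x‖
    · rw [dcut_eq_zero hs0 h]; simp; positivity
    · have h2 : ‖y - x‖ ≤ 2 * r := by linarith [hs.2, not_le.mp h]
      have h3 := dcut_le_two x s y
      have h4 := dcut_nonneg x s y
      have h5 : ‖w y‖ ≤ C := hC y (by rw [mem_closedBall, dist_eq_norm]; exact h2)
      rw [norm_mul, norm_mul, Real.norm_of_nonneg h4, Real.norm_of_nonneg (by positivity)]
      have h6 : r / 2 ≤ s := hs.1.le
      gcongr
  · exact integrable_const _
  · refine Eventually.of_forall fun y s hs => ?_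
    have hs0 : 0 < s := by linarith [hs.1]
    have h1 : HasDerivAt (fun s : ℝ => ‖y - x‖ ^ 2 / s ^ 2) (-(2 * ‖y - x‖ ^ 2 / s ^ 3)) s := by
      have h := (hasDerivAt_pow 2 s).inv (by positivity)
      have h' := h.const_mul (‖y - x‖ ^ 2)
      refine (h'.congr_of_eventuallyEq ?_).congr_deriv ?_
      · exact Eventually.of_forall fun z => by simp [div_eq_mul_inv]
      · simp; field_simp
    have h2 := (hasDerivAt_prof (‖y - x‖ ^ 2 / s ^ 2)).comp s h1
    have h3 := h2.mul_const (w y)
    refine h3.congr_deriv ?_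
    unfold dcut; ring

/-- **Weighted monotonicity identity.** -/
lemma LocStat.mono_identity [IsFiniteMeasure ν] (h : LocStat m O ν P) {w : E → ℝ}
    (hw : ContDiff ℝ 1 w) (hr : 0 < r) (hball : closedBall x r ⊆ O) :
    r * (∫ y, dcut x r y * (2 * ‖y - x‖ ^ 2 / r ^ 3) * w y ∂ν) - m * wmass ν x w r
      = 2 / r ^ 2 * tiltTerm ν P x w r + gradTerm ν P x w r := by
  have hf : ContDiff ℝ 1 fun y => cut x r y * w y := (contDiff_cut x r).mul hw
  have hc : HasCompactSupport fun y => cut x r y * w y := (hasCompactSupport_cut hr).mul_right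
  have hs : tsupport (fun y => cut x r y * w y) ⊆ O :=
    ((closure_mono (Function.support_mul_subset_left _ _)).trans (tsupport_cut hr)).trans hball
  have key := h.radial x hf hc hs
  have hder : ∀ y v, fderiv ℝ (fun y => cut x r y * w y) y v
      = cut x r y * fderiv ℝ w y v - dcut x r y * (2 / r ^ 2) * ⟪y - x, v⟫ * w y := by
    intro y v
    have h1 := hasFDerivAt_cut x r y
    have h2 : HasFDerivAt w (fderiv ℝ w y) y := (hw.differentiable (by norm_num) y).hasFDerivAt
    have h3 := (h1.mul h2).fderiv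
    have h4 : fderiv ℝ (fun y => cut x r y * w y) y = cut x r y • fderiv ℝ w y +
      w y • ((-(dcut x r y) * (2 / r ^ 2)) • innerSL ℝ (y - x)) := h3
    rw [h4]
    simp only [_root_.add_apply, _root_.smul_apply, innerSL_apply_apply, smul_eq_mul]
    ring
  -- integrability of the pieces
  have hcw : Integrable (fun y => cut x r y * w y) ν :=
    integrable_of_ball (x := x) ((continuous_cut x r).mul hw.continuous) hr fun y hy => by
      rw [cut_eq_zero hr hy, zero_mul]
  have hdc : Integrable (fun y => dcut x r y * (2 * ‖y - x‖ ^ 2 / r ^ 3) * w y) ν := by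
    refine integrable_of_ball (x := x) ?_ hr fun y hy => by
      rw [dcut_eq_zero hr hy, zero_mul, zero_mul]
    have h1 := continuous_dcut x r
    have h2 := hw.continuous
    fun_prop
  have hgradM : AEStronglyMeasurable (fun y => cut x r y * fderiv ℝ w y (P y (y - x))) ν := by
    refine (continuous_cut x r).aestronglyMeasurable.mul ?_
    refine aesm_clm_apply (hw.continuous_fderiv (by norm_num)).aestronglyMeasurable ?_
    exact aesm_clm_apply h.meas (by fun_prop : Continuous fun y => y - x).aestronglyMeasurable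
  have hgrad : Integrable (fun y => cut x r y * fderiv ℝ w y (P y (y - x))) ν := by
    have hb : Integrable (fun y => cut x r y * (‖fderiv ℝ w y‖ * ‖y - x‖)) ν := by
      refine integrable_of_ball (x := x) ?_ hr fun y hy => by rw [cut_eq_zero hr hy, zero_mul]
      have h1 := continuous_cut x r
      have h2 := hw.continuous_fderiv (by norm_num : (1 : WithTop ℕ∞) ≠ 0)
      fun_prop
    refine hb.mono' hgradM ?_
    filter_upwards [h.norm_le] with y hy
    rw [norm_mul, Real.norm_of_nonneg (cut_nonneg x r y)]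
    have hc0 := cut_nonneg x r y
    gcongr
    calc ‖fderiv ℝ w y (P y (y - x))‖ ≤ ‖fderiv ℝ w y‖ * ‖P y (y - x)‖ :=
          (fderiv ℝ w y).le_opNorm _
      _ ≤ ‖fderiv ℝ w y‖ * ‖y - x‖ := by
          gcongr
          simpa using (P y).le_of_opNorm_le hy (y - x)
  have htiltM : AEStronglyMeasurable
      (fun y => dcut x r y * w y * ‖(y - x) - P y (y - x)‖ ^ 2) ν := by
    have hid : AEStronglyMeasurable (fun y : E => y - x) ν :=
      (by fun_prop : Continuous fun y : E => y - x).aestronglyMeasurable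
    refine (((continuous_dcut x r).mul hw.continuous).aestronglyMeasurable).mul ?_
    exact ((hid.sub (aesm_clm_apply h.meas hid)).norm).pow 2
  have htilt : Integrable (fun y => dcut x r y * w y * ‖(y - x) - P y (y - x)‖ ^ 2) ν := by
    have hb : Integrable (fun y => dcut x r y * (‖w y‖ * (2 * ‖y - x‖) ^ 2)) ν := by
      refine integrable_of_ball (x := x) ?_ hr fun y hy => by rw [dcut_eq_zero hr hy, zero_mul]
      have h1 := continuous_dcut x r
      have h2 := hw.continuous
      fun_prop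
    refine hb.mono' htiltM ?_
    filter_upwards [h.norm_le] with y hy
    rw [norm_mul, norm_mul, Real.norm_of_nonneg (dcut_nonneg x r y), mul_assoc]
    have hc0 := dcut_nonneg x r y
    gcongr
    rw [Real.norm_of_nonneg (by positivity)]
    gcongr
    calc ‖(y - x) - P y (y - x)‖ ≤ ‖y - x‖ + ‖P y (y - x)‖ := norm_sub_le _ _
      _ ≤ ‖y - x‖ + ‖y - x‖ := by
          gcongr
          simpa using (P y).le_of_opNorm_le hy (y - x)
      _ = 2 * ‖y - x‖ := by ring
  -- combine
  unfold wmass tiltTerm gradTerm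
  have e1 : r * (∫ y, dcut x r y * (2 * ‖y - x‖ ^ 2 / r ^ 3) * w y ∂ν)
      - m * (∫ y, cut x r y * w y ∂ν)
      - (2 / r ^ 2 * (∫ y, dcut x r y * w y * ‖(y - x) - P y (y - x)‖ ^ 2 ∂ν)
        + ∫ y, cut x r y * fderiv ℝ w y (P y (y - x)) ∂ν)
      = -∫ y, ((m : ℝ) * (cut x r y * w y)
        + fderiv ℝ (fun y => cut x r y * w y) y (P y (y - x))) ∂ν := by
    rw [← integral_const_mul, ← integral_const_mul, ← integral_const_mul, ← integral_sub,
      ← integral_add, ← integral_sub, ← integral_neg]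
    · refine integral_congr_ae ?_
      filter_upwards [h.proj] with y hy
      obtain ⟨T, -, hPT⟩ := hy
      rw [hder, hPT]
      have h1 : ⟪y - x, T.starProjection (y - x)⟫ = ‖y - x‖ ^ 2
          - ‖(y - x) - T.starProjection (y - x)‖ ^ 2 := by
        have h2 := T.norm_sq_eq_add_norm_sq_starProjection (y - x)
        have h3 : Tᗮ.starProjection (y - x) = (y - x) - T.starProjection (y - x) := by
          rw [T.starProjection_orthogonal']; simp
        rw [h3] at h2
        have h4 : ⟪y - x, T.starProjection (y - x)⟫ = ‖T.starProjection (y - x)‖ ^ 2 := by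
          have h5 : ⟪(y - x) - T.starProjection (y - x), T.starProjection (y - x)⟫ = (0:ℝ) :=
            T.starProjection_inner_eq_zero _ _ (T.starProjection_apply_mem _)
          rw [inner_sub_left, real_inner_self_eq_norm_sq] at h5
          linarith
        rw [h4]; linarith
      rw [h1]
      field_simp
      ring
    · exact ((hdc.const_mul r).sub (hcw.const_mul _))
    · exact (htilt.const_mul _).add hgrad
    · exact htilt.const_mul _
    · exact hgrad
    · exact hdc.const_mul r
    · exact hcw.const_mul _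
  rw [key] at e1
  linarith

end Vale.Agent.P214
end
end

section

section

/-! Consequences of the weighted monotonicity identity. -/

open Set Filter Topology MeasureTheory Metric
open scoped RealInnerProductSpace

namespace Vale.Agent.P214

set_option linter.unusedSectionVars false

variable {E : Type*} [NormedAddCommGroup E] [InnerProductSpace ℝ E] [FiniteDimensional ℝ E]
  [MeasurableSpace E] [BorelSpace E]

variable {x y : E} {r : ℝ} {m : ℕ} {O : Set E} {ν : Measure E} {P : E → E →L[ℝ] E}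

lemma LocStat.hasDerivAt_ratio [IsFiniteMeasure ν] (h : LocStat m O ν P) {w : E → ℝ}
    (hw : ContDiff ℝ 1 w) (hr : 0 < r) (hball : closedBall x r ⊆ O) :
    HasDerivAt (fun s => wmass ν x w s / s ^ m)
      ((2 / r ^ 2 * tiltTerm ν P x w r + gradTerm ν P x w r) / r ^ (m + 1)) r := by
  have h1 := hasDerivAt_wmass (ν := ν) (x := x) hw.continuous hr
  have h2 := hasDerivAt_pow m r
  have h3 := h1.div h2 (by positivity)
  refine h3.congr_deriv ?_
  rw [← h.mono_identity hw hr hball]
  generalize (∫ y, dcut x r y * (2 * ‖y - x‖ ^ 2 / r ^ 3) * w y ∂ν) = A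
  generalize wmass ν x w r = B
  rcases Nat.eq_zero_or_pos m with rfl | hm
  · simp; field_simp
  · have : r ^ m = r ^ (m - 1) * r := by rw [← pow_succ]; congr 1; omega
    have h5 : r ^ (m - 1) * r ^ 2 = r ^ (m + 1) := by rw [← pow_add]; congr 1; omega
    rw [pow_succ, this]
    field_simp
    rw [← h5]; ring

lemma tiltTerm_nonneg {w : E → ℝ} (hw : ∀ y, 0 ≤ w y) : 0 ≤ tiltTerm ν P x w r :=
  integral_nonneg fun y => by
    have := dcut_nonneg x r y
    have := hw y
    positivity

/-- growth of weighted ratios from a lower bound on the gradient term -/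
lemma LocStat.ratio_growth [IsFiniteMeasure ν] (h : LocStat m O ν P) {w : E → ℝ}
    (hw : ContDiff ℝ 1 w) (hw0 : ∀ y, 0 ≤ w y) {r₁ r₂ : ℝ} (h1 : 0 < r₁) (h12 : r₁ ≤ r₂)
    (hball : closedBall x r₂ ⊆ O) {G : ℝ} (hG0 : 0 ≤ G)
    (hG : ∀ s ∈ Icc r₁ r₂, -G ≤ gradTerm ν P x w s) :
    wmass ν x w r₁ / r₁ ^ m - G * (r₂ - r₁) / r₁ ^ (m + 1) ≤ wmass ν x w r₂ / r₂ ^ m := by
  have hd : ∀ s ∈ Icc r₁ r₂, HasDerivAt (fun s => wmass ν x w s / s ^ m)
      ((2 / s ^ 2 * tiltTerm ν P x w s + gradTerm ν P x w s) / s ^ (m + 1)) s := fun s hs =>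
    h.hasDerivAt_ratio hw (h1.trans_le hs.1) ((closedBall_subset_closedBall hs.2).trans hball)
  have key := Convex.mul_sub_le_image_sub_of_le_deriv (convex_Icc r₁ r₂)
    (f := fun s => wmass ν x w s / s ^ m) (C := -G / r₁ ^ (m + 1))
    (fun s hs => (hd s hs).continuousAt.continuousWithinAt)
    (fun s hs => (hd s (interior_subset hs)).differentiableAt.differentiableWithinAt)
    (fun s hs => by
      have hs' := interior_subset hs
      have hs0 : 0 < s := h1.trans_le hs'.1
      rw [(hd s hs').deriv]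
      have ht := tiltTerm_nonneg (ν := ν) (P := P) (x := x) (r := s) hw0
      have hg := hG s hs'
      calc -G / r₁ ^ (m + 1) ≤ -G / s ^ (m + 1) := by
            rw [neg_div, neg_div, neg_le_neg_iff]
            have := hs'.1
            gcongr
        _ ≤ _ := by
            gcongr
            have : 0 ≤ 2 / s ^ 2 * tiltTerm ν P x w s := by positivity
            linarith)
    r₁ ⟨le_rfl, h12⟩ r₂ ⟨h12, le_rfl⟩ h12
  have : -G / r₁ ^ (m + 1) * (r₂ - r₁) = -(G * (r₂ - r₁) / r₁ ^ (m + 1)) := by ring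
  linarith

/-- the unweighted smoothed mass ratio -/
noncomputable def ratio (m : ℕ) (ν : Measure E) (x : E) (r : ℝ) : ℝ :=
  (∫ y, cut x r y ∂ν) / r ^ m

lemma wmass_one : wmass ν x (fun _ => 1) r = ∫ y, cut x r y ∂ν := by
  unfold wmass; simp

lemma gradTerm_one : gradTerm ν P x (fun _ => 1) r = 0 := by
  unfold gradTerm; simp

lemma LocStat.ratio_mono [IsFiniteMeasure ν] (h : LocStat m O ν P) {r₁ r₂ : ℝ} (h1 : 0 < r₁)
    (h12 : r₁ ≤ r₂) (hball : closedBall x r₂ ⊆ O) : ratio m ν x r₁ ≤ ratio m ν x r₂ := by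
  have := h.ratio_growth (w := fun _ => 1) contDiff_const (fun _ => zero_le_one) h1 h12 hball
    (G := 0) le_rfl (fun s _ => by rw [gradTerm_one]; simp)
  simp only [wmass_one] at this
  unfold ratio; simpa using this

lemma ratio_nonneg (hr : 0 < r) : 0 ≤ ratio m ν x r := by
  unfold ratio
  have : 0 ≤ ∫ y, cut x r y ∂ν := integral_nonneg fun y => cut_nonneg x r y
  positivity

/-- ball masses are controlled by the smoothed mass -/
lemma measureReal_ball_le [IsFiniteMeasure ν] (hr : 0 < r) :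
    ν.real (closedBall x r) ≤ 4 * ∫ y, cut x (2 * r) y ∂ν := by
  have hint : Integrable (fun y => cut x (2 * r) y) ν :=
    integrable_of_ball (x := x) (continuous_cut x (2 * r)) (by linarith : (0:ℝ) < 2 * r)
      fun y hy => cut_eq_zero (by linarith) hy
  have h1 : ∫ y in closedBall x r, (1 / 4 : ℝ) ∂ν ≤ ∫ y, cut x (2 * r) y ∂ν := by
    calc ∫ y in closedBall x r, (1 / 4 : ℝ) ∂ν
        ≤ ∫ y in closedBall x r, cut x (2 * r) y ∂ν := by
          refine setIntegral_mono_on (integrable_const _).integrableOn hint.integrableOn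
            measurableSet_closedBall fun y hy => ?_
          rw [mem_closedBall, dist_eq_norm] at hy
          have := cut_ge (x := x) (y := y) (r := 2 * r) (by linarith) (by linarith)
          linarith
      _ ≤ ∫ y, cut x (2 * r) y ∂ν := setIntegral_le_integral hint
          (Eventually.of_forall fun y => cut_nonneg x _ y)
  rw [setIntegral_const, smul_eq_mul] at h1
  linarith

lemma cut_integral_le [IsFiniteMeasure ν] (hr : 0 < r) :
    ∫ y, cut x r y ∂ν ≤ ν.real (ball x r) := by
  have h1 : ∫ y, cut x r y ∂ν = ∫ y in ball x r, cut x r y ∂ν := by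
    rw [setIntegral_eq_integral_of_forall_compl_eq_zero]
    intro y hy
    rw [mem_ball, dist_eq_norm, not_lt] at hy
    exact cut_eq_zero hr hy
  rw [h1]
  calc ∫ y in ball x r, cut x r y ∂ν ≤ ∫ _y in ball x r, (1:ℝ) ∂ν := by
        refine setIntegral_mono_on ?_ (integrable_const _).integrableOn measurableSet_ball
          fun y _ => cut_le_one x r y
        exact (integrable_of_ball (x := x) (continuous_cut x r) hr
          fun y hy => cut_eq_zero hr hy).integrableOn
    _ = ν.real (ball x r) := by rw [setIntegral_const]; simp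

/-- continuity in the centre of the smoothed mass -/
lemma continuous_cut_integral [IsFiniteMeasure ν] (r : ℝ) :
    Continuous fun x : E => ∫ y, cut x r y ∂ν := by
  refine continuous_of_dominated (F := fun x y => cut x r y) (bound := fun _ => (1:ℝ)) ?_ ?_ ?_ ?_
  · exact fun x => (continuous_cut x r).aestronglyMeasurable
  · refine fun x => Eventually.of_forall fun y => ?_
    rw [Real.norm_of_nonneg (cut_nonneg x r y)]; exact cut_le_one x r y
  · exact integrable_const _
  · refine Eventually.of_forall fun y => ?_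
    unfold cut
    exact continuous_prof.comp (by fun_prop)

/-- quantitative tilt control by the monotonicity deficit -/
lemma LocStat.deficit [IsFiniteMeasure ν] (h : LocStat m O ν P) (hr : 0 < r)
    (hball : closedBall x (2 * r) ⊆ O) :
    ∫ y in closedBall x (r / 2), ‖(y - x) - P y (y - x)‖ ^ 2 ∂ν
      ≤ (2 * r) ^ (m + 3) / (2 * r) * (ratio m ν x (2 * r) - ratio m ν x r) := by
  have hd : ∀ s ∈ Icc r (2 * r), HasDerivAt (fun s => wmass ν x (fun _ => 1) s / s ^ m)
      ((2 / s ^ 2 * tiltTerm ν P x (fun _ => 1) s + gradTerm ν P x (fun _ => 1) s)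
        / s ^ (m + 1)) s := fun s hs =>
    h.hasDerivAt_ratio contDiff_const (hr.trans_le hs.1)
      ((closedBall_subset_closedBall hs.2).trans hball)
  set D := ∫ y in closedBall x (r / 2), ‖(y - x) - P y (y - x)‖ ^ 2 ∂ν with hD
  have hDnn : 0 ≤ D := integral_nonneg fun y => by positivity
  -- measurability and integrability of the tilt integrand
  have hid : AEStronglyMeasurable (fun y : E => y - x) ν :=
    (by fun_prop : Continuous fun y : E => y - x).aestronglyMeasurable
  have hM : AEStronglyMeasurable (fun y => ‖(y - x) - P y (y - x)‖ ^ 2) ν :=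
    ((hid.sub (aesm_clm_apply h.meas hid)).norm).pow 2
  have hbd : ∀ᵐ y ∂ν, ‖(y - x) - P y (y - x)‖ ≤ 2 * ‖y - x‖ := by
    filter_upwards [h.norm_le] with y hy
    calc ‖(y - x) - P y (y - x)‖ ≤ ‖y - x‖ + ‖P y (y - x)‖ := norm_sub_le _ _
      _ ≤ ‖y - x‖ + ‖y - x‖ := by
          gcongr
          simpa using (P y).le_of_opNorm_le hy (y - x)
      _ = 2 * ‖y - x‖ := by ring
  have htilt : ∀ s, 0 < s →
      Integrable (fun y => dcut x s y * 1 * ‖(y - x) - P y (y - x)‖ ^ 2) ν := by
    intro s hs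
    have hb : Integrable (fun y => dcut x s y * (2 * ‖y - x‖) ^ 2) ν := by
      refine integrable_of_ball (x := x) ?_ hs fun y hy => by rw [dcut_eq_zero hs hy, zero_mul]
      have h1 := continuous_dcut x s
      fun_prop
    refine hb.mono' ?_ ?_
    · simp only [mul_one]; exact (continuous_dcut x s).aestronglyMeasurable.mul hM
    · filter_upwards [hbd] with y hy
      rw [mul_one, norm_mul, Real.norm_of_nonneg (dcut_nonneg x s y),
        Real.norm_of_nonneg (by positivity)]
      have hc0 := dcut_nonneg x s y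
      gcongr
  have hDs : ∀ s ∈ Icc r (2 * r), D ≤ tiltTerm ν P x (fun _ => 1) s := by
    intro s hs
    have hs0 : 0 < s := hr.trans_le hs.1
    unfold tiltTerm
    calc D ≤ ∫ y in closedBall x (r / 2), dcut x s y * 1 * ‖(y - x) - P y (y - x)‖ ^ 2 ∂ν := by
          have hnn : 0 ≤ᵐ[ν.restrict (closedBall x (r / 2))]
            fun y => ‖(y - x) - P y (y - x)‖ ^ 2 := Eventually.of_forall fun y => by positivity
          refine integral_mono_of_nonneg hnn ((htilt s hs0).integrableOn) ?_
          refine (ae_restrict_iff' measurableSet_closedBall).2 (Eventually.of_forall fun y hy => ?_)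
          rw [mem_closedBall, dist_eq_norm] at hy
          have h1 := dcut_ge (x := x) (y := y) hs0 (by linarith [hs.1])
          simp only [mul_one]
          nlinarith [sq_nonneg ‖(y - x) - P y (y - x)‖]
      _ ≤ ∫ y, dcut x s y * 1 * ‖(y - x) - P y (y - x)‖ ^ 2 ∂ν := by
          refine setIntegral_le_integral (htilt s hs0) (Eventually.of_forall fun y => ?_)
          have := dcut_nonneg x s y
          simp only [Pi.zero_apply]; positivity
  have key := Convex.mul_sub_le_image_sub_of_le_deriv (convex_Icc r (2 * r))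
    (f := fun s => wmass ν x (fun _ => 1) s / s ^ m) (C := 2 * D / (2 * r) ^ (m + 3))
    (fun s hs => (hd s hs).continuousAt.continuousWithinAt)
    (fun s hs => (hd s (interior_subset hs)).differentiableAt.differentiableWithinAt)
    (fun s hs => by
      have hs' := interior_subset hs
      have hs0 : 0 < s := hr.trans_le hs'.1
      rw [(hd s hs').deriv, gradTerm_one, add_zero]
      have h1 := hDs s hs'
      calc 2 * D / (2 * r) ^ (m + 3) ≤ 2 * D / s ^ (m + 3) := by
            have := hs'.2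
            gcongr
        _ ≤ 2 * tiltTerm ν P x (fun _ => 1) s / s ^ (m + 3) := by gcongr
        _ = 2 / s ^ 2 * tiltTerm ν P x (fun _ => 1) s / s ^ (m + 1) := by
            field_simp; ring)
    r ⟨le_rfl, by linarith⟩ (2 * r) ⟨by linarith, le_rfl⟩ (by linarith)
  simp only [wmass_one] at key
  have key' : 2 * D / (2 * r) ^ (m + 3) * r ≤ ratio m ν x (2 * r) - ratio m ν x r := by
    unfold ratio
    calc 2 * D / (2 * r) ^ (m + 3) * r = 2 * D / (2 * r) ^ (m + 3) * (2 * r - r) := by ring
      _ ≤ _ := key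
  have h2r : (0:ℝ) < 2 * r := by linarith
  have : D = (2 * r) ^ (m + 3) / (2 * r) * (2 * D / (2 * r) ^ (m + 3) * r) := by
    field_simp
  rw [this]
  gcongr

end Vale.Agent.P214
end
end

section

section

/-! Density lower bounds, slab lower bounds. -/

open Set Filter Topology MeasureTheory Metric
open scoped RealInnerProductSpace

namespace Vale.Agent.P214

set_option linter.unusedSectionVars false

variable {E : Type*} [NormedAddCommGroup E] [InnerProductSpace ℝ E] [FiniteDimensional ℝ E]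
  [MeasurableSpace E] [BorelSpace E]

variable {x y : E} {r : ℝ} {m : ℕ} {O : Set E} {ν : Measure E} {P : E → E →L[ℝ] E}

/-- lower density bound almost everywhere, in smoothed form -/
def DensLow (m : ℕ) (O : Set E) (ν : Measure E) (c : ℝ) : Prop :=
  ∀ᵐ y ∂ν, y ∈ O → ∀ c' < c, ∃ᶠ r in 𝓝[>] (0:ℝ), c' ≤ ratio m ν y r

lemma LocStat.ratio_ge_ae [IsFiniteMeasure ν] (h : LocStat m O ν P) {c : ℝ}
    (hd : DensLow m O ν c) :
    ∀ᵐ y ∂ν, y ∈ O → ∀ r, 0 < r → closedBall y r ⊆ O → c ≤ ratio m ν y r := by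
  filter_upwards [hd] with y hy hyO r hr hball
  refine le_of_forall_lt fun c' hc' => ?_
  obtain ⟨c'', h1, h2⟩ := exists_between hc'
  have h3 := hy hyO c'' h2
  have h4 : ∀ᶠ s in 𝓝[>] (0:ℝ), s ∈ Ioc (0:ℝ) r := Ioc_mem_nhdsGT hr
  obtain ⟨s, hs, hs'⟩ := (h3.and_eventually h4).exists
  exact h1.trans_le (hs.trans (h.ratio_mono hs'.1 hs'.2 hball))

/-- smoothed density is at least `c` at every support point -/
lemma LocStat.ratio_ge [IsFiniteMeasure ν] (h : LocStat m O ν P) {c : ℝ}
    (hd : DensLow m O ν c) (hy : y ∈ ν.support) (hr : 0 < r) (hball : closedBall y r ⊆ O) :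
    c ≤ ratio m ν y r := by
  -- first for smaller radii
  have key : ∀ r', 0 < r' → r' < r → c ≤ ratio m ν y r' := by
    intro r' hr' hlt
    by_contra hcon
    rw [not_le] at hcon
    have hcont : Continuous fun z : E => ratio m ν z r' := by
      unfold ratio; exact (continuous_cut_integral r').div_const _
    have hU1 : {z | ratio m ν z r' < c} ∈ 𝓝 y := (isOpen_lt hcont continuous_const).mem_nhds hcon
    have hU2 : ball y (r - r') ∈ 𝓝 y := ball_mem_nhds y (by linarith)
    have hpos := (Measure.mem_support_iff_forall y).1 hy _ (inter_mem hU1 hU2)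
    have hne : ∃ᵐ z ∂ν, z ∈ {z | ratio m ν z r' < c} ∩ ball y (r - r') := by
      rw [frequently_ae_mem_iff]; exact hpos.ne'
    obtain ⟨z, hz, hz'⟩ := (hne.and_eventually (h.ratio_ge_ae hd)).exists
    have hzb : closedBall z r' ⊆ closedBall y r := by
      refine closedBall_subset_closedBall' ?_
      have := mem_ball.1 hz.2
      linarith
    have hzO : z ∈ O := hball (hzb (mem_closedBall_self hr'.le))
    exact absurd (hz' hzO r' hr' (hzb.trans hball)) (not_le.2 hz.1)
  have h2 : 0 < r / 2 := by linarith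
  exact (key (r / 2) h2 (by linarith)).trans
    (h.ratio_mono h2 (by linarith) hball)

/-- The bad set: the tangential projection differs from `Q`. -/
def bad (P : E → E →L[ℝ] E) (Q : E →L[ℝ] E) : Set E := {y | P y ≠ Q}

/-- pointwise bound of the gradient term in terms of the bad mass -/
lemma LocStat.gradTerm_ge [IsFiniteMeasure ν] (h : LocStat m O ν P) {Q : E →L[ℝ] E}
    {w : E → ℝ} (hw : ContDiff ℝ 1 w) {K : ℝ} (hK0 : 0 ≤ K)
    (hK : ∀ y v, |fderiv ℝ w y v| ≤ K * ‖v‖) (hQ : ∀ y v, fderiv ℝ w y (Q v) = 0)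
    (hr : 0 < r) : -(K * r * ν.real (bad P Q ∩ ball x r)) ≤ gradTerm ν P x w r := by
  unfold gradTerm
  -- replace bad by a measurable hull
  set B := toMeasurable ν (bad P Q ∩ ball x r) with hB
  have hBm : MeasurableSet B := measurableSet_toMeasurable _ _
  have hBr : ν.real (bad P Q ∩ ball x r) = ν.real B := by
    simp only [Measure.real, hB, measure_toMeasurable]
  rw [hBr]
  have hcomp : ∫ y, B.indicator (fun _ => -(K * r)) y ∂ν = -(K * r * ν.real B) := by
    rw [integral_indicator hBm, setIntegral_const]; simp; ring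
  rw [← hcomp]
  have hint2 : Integrable (B.indicator fun _ => -(K * r)) ν :=
    (integrable_const _).indicator hBm
  have hgradM : AEStronglyMeasurable (fun y => cut x r y * fderiv ℝ w y (P y (y - x))) ν := by
    refine (continuous_cut x r).aestronglyMeasurable.mul ?_
    refine aesm_clm_apply (hw.continuous_fderiv (by norm_num)).aestronglyMeasurable ?_
    exact aesm_clm_apply h.meas (by fun_prop : Continuous fun y => y - x).aestronglyMeasurable
  have hbound : ∀ᵐ y ∂ν, |cut x r y * fderiv ℝ w y (P y (y - x))| ≤ B.indicator (fun _ => K * r) y := by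
    filter_upwards [h.norm_le] with y hy
    by_cases hyr : r ≤ ‖y - x‖
    · rw [cut_eq_zero hr hyr]; simp
      exact indicator_nonneg (fun _ _ => by positivity) _
    · have hyb : y ∈ ball x r := by rw [mem_ball, dist_eq_norm]; exact not_le.1 hyr
      by_cases hyB : P y = Q
      · rw [hyB, hQ]; simp
        exact indicator_nonneg (fun _ _ => by positivity) _
      · have hmem : y ∈ B := subset_toMeasurable _ _ ⟨hyB, hyb⟩
        rw [indicator_of_mem hmem, abs_mul, abs_of_nonneg (cut_nonneg x r y)]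
        have h1 := hK y (P y (y - x))
        have h2 : ‖P y (y - x)‖ ≤ ‖y - x‖ := by simpa using (P y).le_of_opNorm_le hy (y - x)
        have h3 := cut_le_one x r y
        have h4 := cut_nonneg x r y
        calc cut x r y * |fderiv ℝ w y (P y (y - x))| ≤ 1 * (K * ‖P y (y - x)‖) := by gcongr
          _ ≤ K * r := by
              rw [one_mul]
              gcongr
              exact h2.trans (not_le.1 hyr).le
  have hint1 : Integrable (fun y => cut x r y * fderiv ℝ w y (P y (y - x))) ν := by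
    refine ((integrable_const (K * r)).indicator hBm).mono' hgradM ?_
    filter_upwards [hbound] with y hy
    exact hy
  refine integral_mono_ae hint2 hint1 ?_
  filter_upwards [hbound] with y hy
  have h5 : B.indicator (fun _ => -(K * r)) y = -B.indicator (fun _ => K * r) y := by
    by_cases hyB : y ∈ B
    · simp [hyB]
    · simp [hyB]
  rw [h5]
  exact neg_le_of_abs_le hy

/-- slab weight -/
noncomputable def slab (e : E) (t s : ℝ) (z : E) : ℝ := kap ((⟪e, z⟫ - t) / s)

lemma contDiff_slab (e : E) (t s : ℝ) : ContDiff ℝ 1 (slab e t s) := by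
  unfold slab
  exact contDiff_kap.comp (((contDiff_const.inner ℝ contDiff_id).sub contDiff_const).div_const _)

lemma slab_nonneg (e : E) (t s : ℝ) (z : E) : 0 ≤ slab e t s z := (kap_pos _).le

lemma slab_le_one (e : E) (t s : ℝ) (z : E) : slab e t s z ≤ 1 := kap_le_one _

lemma fderiv_slab (e : E) (t s : ℝ) (z v : E) : fderiv ℝ (slab e t s) z v
    = (-(2 * ((⟪e, z⟫ - t) / s)) / (1 + ((⟪e, z⟫ - t) / s) ^ 2) ^ 2) * (⟪e, v⟫ / s) := by
  have h1 : HasFDerivAt (fun z : E => (⟪e, z⟫ - t) / s) (s⁻¹ • innerSL ℝ e) z := by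
    have h := ((innerSL ℝ e).hasFDerivAt (x := z)).sub_const t
    have h' := h.mul_const (s⁻¹)
    refine (h'.congr_of_eventuallyEq ?_)
    exact Eventually.of_forall fun z => by simp [div_eq_mul_inv]
  have h2 := (hasDerivAt_kap ((⟪e, z⟫ - t) / s)).comp_hasFDerivAt z h1
  have h3 : fderiv ℝ (slab e t s) z = _ := h2.fderiv
  rw [h3]
  simp only [_root_.smul_apply, innerSL_apply_apply, smul_eq_mul]
  ring

lemma abs_fderiv_slab_le {e : E} (he : ‖e‖ = 1) (t : ℝ) {s : ℝ} (hs : 0 < s) (z v : E) :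
    |fderiv ℝ (slab e t s) z v| ≤ 1 / s * ‖v‖ := by
  rw [fderiv_slab, abs_mul, abs_div (⟪e, v⟫), abs_of_pos hs]
  have h1 := abs_deriv_kap_le ((⟪e, z⟫ - t) / s)
  have h2 : |⟪e, v⟫| ≤ ‖v‖ := by
    have := abs_real_inner_le_norm e v
    rwa [he, one_mul] at this
  calc _ ≤ 1 * (‖v‖ / s) := by gcongr
    _ = 1 / s * ‖v‖ := by ring

/-- **Slab lower bound.** If `y` is a support point, `e` a unit vector orthogonal to the range
of `Q`, and the bad mass in `ball y r` is small, then the slab through `y` orthogonal to `e` of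
thickness `s` carries a definite amount of mass. -/
lemma LocStat.slab_lower [IsFiniteMeasure ν] (h : LocStat m O ν P) {c : ℝ}
    (hd : DensLow m O ν c) (hy : y ∈ ν.support) (hr : 0 < r) (hball : closedBall y r ⊆ O)
    {Q : E →L[ℝ] E} {e : E} (he : ‖e‖ = 1) (heQ : ∀ v, ⟪e, Q v⟫ = 0)
    {s : ℝ} (hs : 0 < s) (hsr : s ≤ r)
    (hb : ν.real (bad P Q ∩ ball y r) * r ^ 2 / (s * (s / 2) ^ (m + 1)) ≤ 3 / 10 * c) :
    c / 2 * r ^ m ≤ ∫ z in ball y r, slab e ⟪e, y⟫ s z ∂ν := by
  set b := ν.real (bad P Q ∩ ball y r) with hbdef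
  have hb0 : 0 ≤ b := measureReal_nonneg
  have hs2 : 0 < s / 2 := by linarith
  have hw := contDiff_slab e ⟪e, y⟫ s
  have hgrow := h.ratio_growth (x := y) hw (slab_nonneg e _ s) hs2 (by linarith : s / 2 ≤ r) hball
    (G := 1 / s * r * b) (by positivity) (fun σ hσ => by
      have hσ0 : 0 < σ := hs2.trans_le hσ.1
      have h1 := h.gradTerm_ge (x := y) (Q := Q) hw (K := 1 / s) (by positivity)
        (abs_fderiv_slab_le he _ hs) (fun z v => by rw [fderiv_slab, heQ]; simp) hσ0
      refine le_trans ?_ h1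
      rw [neg_le_neg_iff]
      have h2 : ν.real (bad P Q ∩ ball y σ) ≤ b :=
        measureReal_mono (inter_subset_inter_right _ (ball_subset_ball hσ.2))
      have := hσ.2
      gcongr)
  -- small scale lower bound
  have hsmall : 4 / 5 * c ≤ wmass ν y (slab e ⟪e, y⟫ s) (s / 2) / (s / 2) ^ m := by
    have h1 := h.ratio_ge hd hy hs2 ((closedBall_subset_closedBall (by linarith)).trans hball)
    have h2 : 4 / 5 * (∫ z, cut y (s / 2) z ∂ν) ≤ wmass ν y (slab e ⟪e, y⟫ s) (s / 2) := by
      unfold wmass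
      rw [← integral_const_mul]
      have hi1 : Integrable (fun z => cut y (s / 2) z) ν :=
        integrable_of_ball (x := y) (continuous_cut y _) hs2 fun z hz => cut_eq_zero hs2 hz
      have hi2 : Integrable (fun z => cut y (s / 2) z * slab e ⟪e, y⟫ s z) ν :=
        integrable_of_ball (x := y) ((continuous_cut y _).mul hw.continuous) hs2
          fun z hz => by rw [cut_eq_zero hs2 hz, zero_mul]
      refine integral_mono (hi1.const_mul _) hi2 fun z => ?_
      simp only
      by_cases hz : s / 2 ≤ ‖z - y‖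
      · rw [cut_eq_zero hs2 hz]; simp
      · have h3 : |(⟪e, z⟫ - ⟪e, y⟫) / s| ≤ 1 / 2 := by
          rw [← inner_sub_right, abs_div, abs_of_pos hs, div_le_iff₀ hs]
          have := abs_real_inner_le_norm e (z - y)
          rw [he, one_mul] at this
          linarith [not_le.1 hz]
        have h4 := kap_ge h3
        have h5 := cut_nonneg y (s / 2) z
        unfold slab
        nlinarith
    unfold ratio at h1
    rw [le_div_iff₀ (by positivity)] at h1 ⊢
    nlinarith
  have hlast : wmass ν y (slab e ⟪e, y⟫ s) r ≤ ∫ z in ball y r, slab e ⟪e, y⟫ s z ∂ν := by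
    unfold wmass
    have hi2 : Integrable (fun z => cut y r z * slab e ⟪e, y⟫ s z) ν :=
      integrable_of_ball (x := y) ((continuous_cut y _).mul hw.continuous) hr
        fun z hz => by rw [cut_eq_zero hr hz, zero_mul]
    have h1 : ∫ z, cut y r z * slab e ⟪e, y⟫ s z ∂ν
        = ∫ z in ball y r, cut y r z * slab e ⟪e, y⟫ s z ∂ν := by
      rw [setIntegral_eq_integral_of_forall_compl_eq_zero]
      intro z hz
      rw [mem_ball, dist_eq_norm, not_lt] at hz
      rw [cut_eq_zero hr hz, zero_mul]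
    rw [h1]
    refine setIntegral_mono_on hi2.integrableOn ?_ measurableSet_ball fun z _ => ?_
    · refine Integrable.integrableOn ?_
      refine (integrable_const (1:ℝ)).mono' hw.continuous.aestronglyMeasurable ?_
      refine Eventually.of_forall fun z => ?_
      rw [Real.norm_of_nonneg (slab_nonneg _ _ _ _)]; exact slab_le_one _ _ _ _
    · have := cut_le_one y r z
      have := slab_nonneg e ⟪e, y⟫ s z
      nlinarith
  have herr : 1 / s * r * b * (r - s / 2) / (s / 2) ^ (m + 1) ≤ 3 / 10 * c := by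
    refine le_trans ?_ hb
    have h1 : r - s / 2 ≤ r := by linarith
    have h2 : 0 ≤ r - s / 2 := by linarith
    calc 1 / s * r * b * (r - s / 2) / (s / 2) ^ (m + 1)
        ≤ 1 / s * r * b * r / (s / 2) ^ (m + 1) := by gcongr
      _ = b * r ^ 2 / (s * (s / 2) ^ (m + 1)) := by field_simp
  have hfin : c / 2 ≤ wmass ν y (slab e ⟪e, y⟫ s) r / r ^ m := by linarith
  rw [le_div_iff₀ (by positivity)] at hfin
  exact hfin.trans hlast

end Vale.Agent.P214
end
end

section

section

/-! Decay of the bad mass. -/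

open Set Filter Topology MeasureTheory Metric
open scoped RealInnerProductSpace

namespace Vale.Agent.P214

set_option linter.unusedSectionVars false

variable {E : Type*} [NormedAddCommGroup E] [InnerProductSpace ℝ E] [FiniteDimensional ℝ E]
  [MeasurableSpace E] [BorelSpace E]

variable {x y : E} {r : ℝ} {m : ℕ} {O : Set E} {ν : Measure E} {P : E → E →L[ℝ] E}

/-- integrated slab mass as a function of the height -/
noncomputable def slabMass (ν : Measure E) (e : E) (s t : ℝ) : ℝ := ∫ z, slab e t s z ∂ν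

/-- the primitive of `slabMass` -/
noncomputable def slabPrim (ν : Measure E) (e : E) (s t : ℝ) : ℝ :=
  ∫ z, s * Real.arctan ((t - ⟪e, z⟫) / s) ∂ν

lemma slab_eq (e : E) (t s : ℝ) (z : E) : slab e t s z = (1 + ((t - ⟪e, z⟫) / s) ^ 2)⁻¹ := by
  unfold slab kap; congr 2; ring

lemma slabMass_nonneg (ν : Measure E) (e : E) (s t : ℝ) : 0 ≤ slabMass ν e s t :=
  integral_nonneg fun _ => slab_nonneg _ _ _ _

lemma integrable_slab [IsFiniteMeasure ν] (e : E) (t s : ℝ) : Integrable (slab e t s) ν := by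
  refine (integrable_const (1:ℝ)).mono' (contDiff_slab e t s).continuous.aestronglyMeasurable ?_
  refine Eventually.of_forall fun z => ?_
  rw [Real.norm_of_nonneg (slab_nonneg _ _ _ _)]; exact slab_le_one _ _ _ _

lemma continuous_slabMass [IsFiniteMeasure ν] (e : E) (s : ℝ) :
    Continuous (slabMass ν e s) := by
  unfold slabMass
  refine continuous_of_dominated (bound := fun _ => (1:ℝ)) ?_ ?_ (integrable_const _) ?_
  · exact fun t => (contDiff_slab e t s).continuous.aestronglyMeasurable
  · refine fun t => Eventually.of_forall fun z => ?_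
    rw [Real.norm_of_nonneg (slab_nonneg _ _ _ _)]; exact slab_le_one _ _ _ _
  · refine Eventually.of_forall fun z => ?_
    unfold slab
    exact contDiff_kap.continuous.comp (by fun_prop)

lemma hasDerivAt_slabPrim [IsFiniteMeasure ν] (e : E) {s : ℝ} (hs : 0 < s) (t : ℝ) :
    HasDerivAt (slabPrim ν e s) (slabMass ν e s t) t := by
  have hcont : ∀ t, Continuous fun z : E => s * Real.arctan ((t - ⟪e, z⟫) / s) := fun t =>
    continuous_const.mul (Real.continuous_arctan.comp (by fun_prop))
  have key := hasDerivAt_integral_of_dominated_loc_of_deriv_le (μ := ν) (𝕜 := ℝ)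
    (F := fun t z => s * Real.arctan ((t - ⟪e, z⟫) / s)) (F' := fun t z => slab e t s z)
    (x₀ := t) (s := univ) (bound := fun _ => (1:ℝ)) univ_mem ?_ ?_ ?_ ?_ ?_ ?_
  · exact key.2
  · exact Eventually.of_forall fun t => (hcont t).aestronglyMeasurable
  · refine (integrable_const (s * (Real.pi / 2))).mono' (hcont t).aestronglyMeasurable ?_
    refine Eventually.of_forall fun z => ?_
    rw [norm_mul, Real.norm_of_nonneg hs.le]
    gcongr
    rw [Real.norm_eq_abs, abs_le]
    exact ⟨(Real.neg_pi_div_two_lt_arctan _).le, (Real.arctan_lt_pi_div_two _).le⟩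
  · exact (contDiff_slab e t s).continuous.aestronglyMeasurable
  · refine Eventually.of_forall fun z u _ => ?_
    rw [Real.norm_of_nonneg (slab_nonneg _ _ _ _)]; exact slab_le_one _ _ _ _
  · exact integrable_const _
  · refine Eventually.of_forall fun z u _ => ?_
    have h1 : HasDerivAt (fun u : ℝ => (u - ⟪e, z⟫) / s) (1 / s) u := by
      simpa using ((hasDerivAt_id u).sub_const ⟪e, z⟫).div_const s
    have h2 := (h1.arctan).const_mul s
    refine h2.congr_deriv ?_
    rw [slab_eq]; field_simp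

lemma contDiff_slabPrim [IsFiniteMeasure ν] (e : E) {s : ℝ} (hs : 0 < s) :
    ContDiff ℝ 1 (slabPrim ν e s) := by
  rw [contDiff_one_iff_deriv]
  refine ⟨fun t => (hasDerivAt_slabPrim e hs t).differentiableAt, ?_⟩
  have : deriv (slabPrim ν e s) = slabMass ν e s :=
    funext fun t => (hasDerivAt_slabPrim e hs t).deriv
  rw [this]; exact continuous_slabMass e s

lemma abs_slabPrim_le [IsFiniteMeasure ν] (e : E) {s : ℝ} (hs : 0 < s) (t : ℝ) :
    |slabPrim ν e s t| ≤ 2 * s * ν.real univ := by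
  unfold slabPrim
  rw [← Real.norm_eq_abs]
  refine (norm_integral_le_of_norm_le_const (C := 2 * s) ?_)
  refine Eventually.of_forall fun z => ?_
  rw [norm_mul, Real.norm_of_nonneg hs.le, mul_comm]
  gcongr
  rw [Real.norm_eq_abs, abs_le]
  have h1 := Real.neg_pi_div_two_lt_arctan ((t - ⟪e, z⟫) / s)
  have h2 := Real.arctan_lt_pi_div_two ((t - ⟪e, z⟫) / s)
  have h3 := Real.pi_le_four
  constructor <;> linarith

lemma nullMeasurableSet_bad (h : AEStronglyMeasurable P ν) (Q : E →L[ℝ] E) :
    NullMeasurableSet (bad P Q) ν := by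
  have h1 : NullMeasurableSet {y | P y = Q} ν :=
    h.nullMeasurableSet_eq_fun aestronglyMeasurable_const
  exact h1.compl

/-- **Caccioppoli-type decay of the bad mass.** -/
lemma LocStat.bad_decay [IsFiniteMeasure ν] (h : LocStat m O ν P) {c : ℝ} (hc : 0 < c)
    (hd : DensLow m O ν c) (hr : 0 < r) (hball : closedBall x (2 * r) ⊆ O)
    {Q : E →L[ℝ] E} {ι : Type*} [Fintype ι] {e : ι → E} (he : ∀ k, ‖e k‖ = 1)
    (heQ : ∀ k v, ⟪e k, Q v⟫ = 0) (hQe : ∀ k, Q (e k) = 0)
    {s : ℝ} (hs : 0 < s) (hsr : s ≤ r)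
    (hb : ν.real (bad P Q ∩ ball x (2 * r)) * r ^ 2 / (s * (s / 2) ^ (m + 1)) ≤ 3 / 10 * c)
    {c₀ : ℝ} (hc₀ : ∀ᵐ z ∂ν, z ∈ bad P Q → c₀ ≤ ∑ k, ⟪e k, P z (e k)⟫)
    {M : ℝ} (hM : ν.real (ball x (2 * r)) ≤ M * r ^ m) (hc₀0 : 0 ≤ c₀) :
    9 / 16 * c₀ * ν.real (bad P Q ∩ closedBall x (r / 2))
      ≤ Fintype.card ι * (16 * M / c) * (s / r) * ν.real (bad P Q ∩ ball x r) := by
  classical
  set ν' := ν.restrict (ball x (2 * r)) with hν'
  set A := 2 / (c * r ^ m) with hA
  have hA0 : 0 < A := by positivity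
  have hbadm : NullMeasurableSet (bad P Q) ν := nullMeasurableSet_bad h.meas Q
  -- test functions
  set ψ : ι → ℝ → ℝ := fun k t => A * slabPrim ν' (e k) s t with hψ
  have hψd : ∀ k t, HasDerivAt (ψ k) (A * slabMass ν' (e k) s t) t := fun k t =>
    (hasDerivAt_slabPrim (e k) hs t).const_mul A
  have hψc : ∀ k, ContDiff ℝ 1 (ψ k) := fun k => contDiff_const.mul (contDiff_slabPrim (e k) hs)
  have hψb : ∀ k t, |ψ k t| ≤ 4 * M * s / c := by
    intro k t
    rw [hψ, abs_mul, abs_of_pos hA0]
    have h1 := abs_slabPrim_le (ν := ν') (e k) hs t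
    have h2 : ν'.real univ ≤ M * r ^ m := by
      rw [hν', measureReal_restrict_apply_univ]; exact hM
    calc A * |slabPrim ν' (e k) s t| ≤ A * (2 * s * (M * r ^ m)) := by gcongr; exact h1.trans (by gcongr)
      _ = 4 * M * s / c := by rw [hA]; field_simp; ring
  have hψ1 : ∀ k, ∀ y ∈ ν.support, y ∈ ball x r → 1 ≤ A * slabMass ν' (e k) s ⟪e k, y⟫ := by
    intro k y hy hyb
    have hyb' : closedBall y r ⊆ closedBall x (2 * r) := by
      refine closedBall_subset_closedBall' ?_
      have := mem_ball.1 hyb; linarith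
    have hyb'' : ball y r ⊆ ball x (2 * r) := by
      refine ball_subset_ball' ?_
      have := mem_ball.1 hyb; linarith
    have h1 := h.slab_lower hd hy hr (hyb'.trans hball) (he k) (heQ k) hs hsr (by
      refine le_trans ?_ hb
      have h2 : ν.real (bad P Q ∩ ball y r) ≤ ν.real (bad P Q ∩ ball x (2 * r)) :=
        measureReal_mono (inter_subset_inter_right _ hyb'')
      gcongr)
    have h3 : ∫ z in ball y r, slab (e k) ⟪e k, y⟫ s z ∂ν ≤ slabMass ν' (e k) s ⟪e k, y⟫ := by
      unfold slabMass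
      refine setIntegral_mono_set (integrable_slab _ _ _).integrableOn
        (Eventually.of_forall fun z => slab_nonneg _ _ _ _) ?_
      exact Eventually.of_forall fun z hz => hyb'' hz
    calc (1:ℝ) = A * (c / 2 * r ^ m) := by rw [hA]; field_simp
      _ ≤ _ := by gcongr; exact h1.trans h3
  have hψ0 : ∀ k t, 0 ≤ A * slabMass ν' (e k) s t := fun k t =>
    mul_nonneg hA0.le (slabMass_nonneg _ _ _ _)
  set f : ι → E → ℝ := fun k y => cut x r y * ψ k ⟪e k, y⟫ with hf
  have hlin : ∀ k, ContDiff ℝ 1 fun y : E => ψ k ⟪e k, y⟫ := fun k =>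
    (hψc k).comp (contDiff_const.inner ℝ contDiff_id)
  have hfc : ∀ k, ContDiff ℝ 1 (f k) := fun k => (contDiff_cut x r).mul (hlin k)
  have hfs : ∀ k, HasCompactSupport (f k) := fun k => (hasCompactSupport_cut hr).mul_right
  have hft : ∀ k, tsupport (f k) ⊆ O := fun k =>
    (((closure_mono (Function.support_mul_subset_left _ _)).trans (tsupport_cut hr)).trans
      (closedBall_subset_closedBall (by linarith))).trans hball
  have hder : ∀ k y v, fderiv ℝ (f k) y v = cut x r y * (A * slabMass ν' (e k) s ⟪e k, y⟫) * ⟪e k, v⟫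
      + ψ k ⟪e k, y⟫ * fderiv ℝ (cut x r) y v := by
    intro k y v
    have h1 := (hasFDerivAt_cut x r y)
    have h2 : HasFDerivAt (fun y : E => ψ k ⟪e k, y⟫)
        ((A * slabMass ν' (e k) s ⟪e k, y⟫) • innerSL ℝ (e k)) y :=
      (hψd k ⟪e k, y⟫).comp_hasFDerivAt y (innerSL ℝ (e k)).hasFDerivAt
    have h3 : fderiv ℝ (f k) y = _ := (h1.mul h2).fderiv
    rw [h3, h1.fderiv]
    simp only [_root_.add_apply, _root_.smul_apply, innerSL_apply_apply, smul_eq_mul]
    ring
  have hstat : ∀ k, ∫ y, fderiv ℝ (f k) y (P y (e k)) ∂ν = 0 := fun k =>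
    h.stat (f k) (e k) (hfc k) (hfs k) (hft k)
  have hint : ∀ k, Integrable (fun y => fderiv ℝ (f k) y (P y (e k))) ν := fun k =>
    h.integrable_fderiv (hfc k) (hfs k) continuous_const
  have hsum : ∫ y, ∑ k, fderiv ℝ (f k) y (P y (e k)) ∂ν = 0 := by
    rw [integral_finsetSum _ fun k _ => hint k]
    exact Finset.sum_eq_zero fun k _ => hstat k
  have hsumint : Integrable (fun y => ∑ k, fderiv ℝ (f k) y (P y (e k))) ν :=
    integrable_finsetSum _ fun k _ => hint k
  -- pointwise lower bound for the sum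
  set N : ℝ := (Fintype.card ι : ℝ) with hN
  set C₁ : ℝ := N * (4 * M * s / c) * (4 / r) with hC₁
  have hM0 : 0 ≤ M := by
    have h1 : 0 ≤ M * r ^ m := measureReal_nonneg.trans hM
    by_contra hneg
    rw [not_le] at hneg
    have : M * r ^ m < 0 := mul_neg_of_neg_of_pos hneg (by positivity)
    linarith
  have hC₁0 : 0 ≤ C₁ := by positivity
  have hlow : ∀ᵐ y ∂ν, (bad P Q ∩ closedBall x (r / 2)).indicator (fun _ => 9 / 16 * c₀) y
      - (bad P Q ∩ ball x r).indicator (fun _ => C₁) y
      ≤ ∑ k, fderiv ℝ (f k) y (P y (e k)) := by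
    filter_upwards [h.norm_le, h.proj, hc₀, Measure.support_mem_ae (μ := ν)] with y hy1 hyP hyc hysupp
    obtain ⟨T, -, hPT⟩ := hyP
    by_cases hyB : y ∈ bad P Q
    · by_cases hyr : y ∈ ball x r
      · -- in the bad set within the ball
        have hin : ∀ k, 0 ≤ ⟪e k, P y (e k)⟫ := fun k => by
          rw [hPT, real_inner_comm]
          exact T.re_inner_starProjection_nonneg (e k)
        have h1 : ∑ k, cut x r y * ⟪e k, P y (e k)⟫
            ≤ ∑ k, cut x r y * (A * slabMass ν' (e k) s ⟪e k, y⟫) * ⟪e k, P y (e k)⟫ := by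
          refine Finset.sum_le_sum fun k _ => ?_
          have h2 := hψ1 k y hysupp hyr
          have h3 := cut_nonneg x r y
          have h4 := hin k
          have h5 : cut x r y * 1 ≤ cut x r y * (A * slabMass ν' (e k) s ⟪e k, y⟫) := by gcongr
          rw [mul_one] at h5
          gcongr
        have h6 : |∑ k, ψ k ⟪e k, y⟫ * fderiv ℝ (cut x r) y (P y (e k))| ≤ C₁ := by
          calc |∑ k, ψ k ⟪e k, y⟫ * fderiv ℝ (cut x r) y (P y (e k))|
              ≤ ∑ k, |ψ k ⟪e k, y⟫ * fderiv ℝ (cut x r) y (P y (e k))| :=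
                Finset.abs_sum_le_sum_abs _ _
            _ ≤ ∑ _k : ι, (4 * M * s / c) * (4 / r) := by
                refine Finset.sum_le_sum fun k _ => ?_
                rw [abs_mul]
                have h7 := abs_fderiv_cut_le hr x y (P y (e k))
                have h8 : ‖P y (e k)‖ ≤ 1 := by
                  simpa [he k] using (P y).le_of_opNorm_le hy1 (e k)
                have h9 := hψb k ⟪e k, y⟫
                gcongr
                calc _ ≤ 4 / r * ‖P y (e k)‖ := h7
                  _ ≤ 4 / r * 1 := by gcongr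
                  _ = 4 / r := mul_one _
            _ = C₁ := by rw [Finset.sum_const, hC₁, hN]; simp; ring
        have h10 := (abs_le.1 h6).1
        simp only [hder]
        rw [Finset.sum_add_distrib]
        rw [indicator_of_mem (show y ∈ bad P Q ∩ ball x r from ⟨hyB, hyr⟩)]
        have h11 : (bad P Q ∩ closedBall x (r / 2)).indicator (fun _ => 9 / 16 * c₀) y
            ≤ ∑ k, cut x r y * ⟪e k, P y (e k)⟫ := by
          rw [← Finset.mul_sum]
          have h12 := hyc hyB
          have h13 := cut_nonneg x r y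
          by_cases hyr2 : y ∈ closedBall x (r / 2)
          · rw [indicator_of_mem (show y ∈ bad P Q ∩ closedBall x (r / 2) from ⟨hyB, hyr2⟩)]
            rw [mem_closedBall, dist_eq_norm] at hyr2
            have h14 := cut_ge hr hyr2
            gcongr
          · rw [indicator_of_notMem (fun hcon => hyr2 hcon.2)]
            exact mul_nonneg h13 (Finset.sum_nonneg fun k _ => hin k)
        linarith
      · -- outside the ball everything vanishes
        have hyr' : r ≤ ‖y - x‖ := by rw [mem_ball, dist_eq_norm, not_lt] at hyr; exact hyr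
        have hn1 : y ∉ bad P Q ∩ closedBall x (r / 2) := by
          intro hcon
          have := hcon.2
          rw [mem_closedBall, dist_eq_norm] at this
          linarith
        have hn2 : y ∉ bad P Q ∩ ball x r := fun hcon => hyr hcon.2
        rw [indicator_of_notMem hn1, indicator_of_notMem hn2]
        simp only [hder, cut_eq_zero hr hyr', fderiv_cut, dcut_eq_zero hr hyr']
        simp
    · have hyQ : P y = Q := by simpa [bad] using hyB
      rw [indicator_of_notMem (fun hcon => hyB hcon.1), indicator_of_notMem (fun hcon => hyB hcon.1)]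
      simp only [hder, hyQ, hQe]
      simp
  have hnm1 : NullMeasurableSet (bad P Q ∩ closedBall x (r / 2)) ν :=
    hbadm.inter measurableSet_closedBall.nullMeasurableSet
  have hnm2 : NullMeasurableSet (bad P Q ∩ ball x r) ν :=
    hbadm.inter measurableSet_ball.nullMeasurableSet
  have hi1 : Integrable ((bad P Q ∩ closedBall x (r / 2)).indicator (fun _ => 9 / 16 * c₀)) ν :=
    (integrable_const _).indicator₀ hnm1
  have hi2 : Integrable ((bad P Q ∩ ball x r).indicator (fun _ => C₁)) ν :=
    (integrable_const _).indicator₀ hnm2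
  have hineq := integral_mono_ae (hi1.sub hi2) hsumint hlow
  rw [hsum, integral_sub' hi1 hi2, integral_indicator₀ hnm1, integral_indicator₀ hnm2,
    setIntegral_const, setIntegral_const, smul_eq_mul, smul_eq_mul] at hineq
  have : Fintype.card ι * (16 * M / c) * (s / r) * ν.real (bad P Q ∩ ball x r)
      = ν.real (bad P Q ∩ ball x r) * C₁ := by
    rw [hC₁, hN]; ring
  rw [this]
  linarith

end Vale.Agent.P214
end
end

section

section

/-! Iteration: the bad mass vanishes. -/

open Set Filter Topology MeasureTheory Metric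
open scoped RealInnerProductSpace ENNReal

namespace Vale.Agent.P214

set_option linter.unusedSectionVars false

variable {E : Type*} [NormedAddCommGroup E] [InnerProductSpace ℝ E] [FiniteDimensional ℝ E]
  [MeasurableSpace E] [BorelSpace E]

variable {x y : E} {r : ℝ} {m : ℕ} {O : Set E} {ν : Measure E} {P : E → E →L[ℝ] E}

/-- the smallness scale factor -/
noncomputable def sig (m N : ℕ) (c c₀ M : ℝ) : ℝ :=
  min 1 (9 * c₀ * c / (512 * (N + 1) * (M + 1) * 4 ^ m))

/-- the smallness threshold for the bad mass -/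
noncomputable def kapp (m N : ℕ) (c c₀ M : ℝ) : ℝ :=
  3 / 10 * c * (sig m N c c₀ M * (sig m N c c₀ M / 2) ^ (m + 1)) / 2 ^ m

lemma sig_pos {N : ℕ} {c c₀ M : ℝ} (hc : 0 < c) (hc₀ : 0 < c₀) (hM : 0 ≤ M) :
    0 < sig m N c c₀ M := by
  unfold sig
  refine lt_min one_pos ?_
  positivity

lemma kapp_pos {N : ℕ} {c c₀ M : ℝ} (hc : 0 < c) (hc₀ : 0 < c₀) (hM : 0 ≤ M) :
    0 < kapp m N c c₀ M := by
  have := sig_pos (m := m) (N := N) hc hc₀ hM
  unfold kapp; positivity

/-- one step of the iteration -/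
lemma LocStat.one_step [IsFiniteMeasure ν] (h : LocStat m O ν P) {c : ℝ} (hc : 0 < c)
    (hd : DensLow m O ν c) (hr : 0 < r) (hball : closedBall x (2 * r) ⊆ O)
    {Q : E →L[ℝ] E} {ι : Type*} [Fintype ι] {e : ι → E} (he : ∀ k, ‖e k‖ = 1)
    (heQ : ∀ k v, ⟪e k, Q v⟫ = 0) (hQe : ∀ k, Q (e k) = 0)
    {c₀ : ℝ} (hc₀ : ∀ᵐ z ∂ν, z ∈ bad P Q → c₀ ≤ ∑ k, ⟪e k, P z (e k)⟫) (hc₀0 : 0 < c₀)
    {M : ℝ} (hM0 : 0 ≤ M) (hM : ν.real (ball x (2 * r)) ≤ M * r ^ m)
    (hb : ν.real (bad P Q ∩ ball x (2 * r)) ≤ kapp m (Fintype.card ι) c c₀ M * (2 * r) ^ m) :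
    ν.real (bad P Q ∩ ball x (2 * r / 4))
      ≤ 1 / (2 * 4 ^ m) * ν.real (bad P Q ∩ ball x (2 * r)) := by
  set N := Fintype.card ι with hN
  set σ := sig m N c c₀ M with hσ
  have hσ0 : 0 < σ := sig_pos hc hc₀0 hM0
  have hσ1 : σ ≤ 1 := min_le_left _ _
  have hσ2 : σ ≤ 9 * c₀ * c / (512 * (N + 1) * (M + 1) * 4 ^ m) := min_le_right _ _
  have hs : 0 < σ * r := by positivity
  have hsr : σ * r ≤ r := by nlinarith
  have hb' : ν.real (bad P Q ∩ ball x (2 * r)) * r ^ 2 / ((σ * r) * (σ * r / 2) ^ (m + 1))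
      ≤ 3 / 10 * c := by
    rw [div_le_iff₀ (by positivity)]
    calc ν.real (bad P Q ∩ ball x (2 * r)) * r ^ 2
        ≤ kapp m N c c₀ M * (2 * r) ^ m * r ^ 2 := by gcongr
      _ = 3 / 10 * c * (σ * r * (σ * r / 2) ^ (m + 1)) := by
          unfold kapp
          rw [← hσ, mul_pow, div_pow, div_pow, mul_pow]
          field_simp
          ring
  have key := h.bad_decay hc hd hr hball he heQ hQe hs hsr hb' hc₀ hM hc₀0.le
  have h1 : ν.real (bad P Q ∩ ball x (2 * r / 4)) ≤ ν.real (bad P Q ∩ closedBall x (r / 2)) := by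
    refine measureReal_mono (inter_subset_inter_right _ ?_)
    have : 2 * r / 4 = r / 2 := by ring
    rw [this]; exact ball_subset_closedBall
  have h2 : ν.real (bad P Q ∩ ball x r) ≤ ν.real (bad P Q ∩ ball x (2 * r)) :=
    measureReal_mono (inter_subset_inter_right _ (ball_subset_ball (by linarith)))
  set b := ν.real (bad P Q ∩ ball x (2 * r)) with hbdef
  have hb0 : 0 ≤ b := measureReal_nonneg
  have h3 : (N : ℝ) * (16 * M / c) * (σ * r / r) * ν.real (bad P Q ∩ ball x r)
      ≤ 9 / 16 * c₀ * (1 / (2 * 4 ^ m)) * b := by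
    have h4 : σ * r / r = σ := by field_simp
    rw [h4]
    have h5 : (N : ℝ) * (16 * M / c) * σ ≤ 9 / 16 * c₀ * (1 / (2 * 4 ^ m)) := by
      calc (N : ℝ) * (16 * M / c) * σ
          ≤ (N : ℝ) * (16 * M / c) * (9 * c₀ * c / (512 * (N + 1) * (M + 1) * 4 ^ m)) := by gcongr
        _ = (N * M / ((N + 1) * (M + 1))) * (9 / 16 * c₀ * (1 / (2 * 4 ^ m))) := by
            field_simp; ring
        _ ≤ 1 * (9 / 16 * c₀ * (1 / (2 * 4 ^ m))) := by
            gcongr
            rw [div_le_one (by positivity)]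
            have : (0:ℝ) ≤ N := Nat.cast_nonneg _
            nlinarith
        _ = _ := one_mul _
    calc (N : ℝ) * (16 * M / c) * σ * ν.real (bad P Q ∩ ball x r)
        ≤ (9 / 16 * c₀ * (1 / (2 * 4 ^ m))) * b := by gcongr
      _ = _ := by ring
  have h6 : 9 / 16 * c₀ * ν.real (bad P Q ∩ closedBall x (r / 2))
      ≤ 9 / 16 * c₀ * (1 / (2 * 4 ^ m) * b) := by
    calc _ ≤ _ := key
      _ ≤ _ := h3
      _ = _ := by ring
  have h7 : ν.real (bad P Q ∩ closedBall x (r / 2)) ≤ 1 / (2 * 4 ^ m) * b :=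
    le_of_mul_le_mul_left h6 (by positivity)
  exact h1.trans h7

/-- iteration -/
lemma LocStat.iterate [IsFiniteMeasure ν] (h : LocStat m O ν P) {c : ℝ} (hc : 0 < c)
    (hd : DensLow m O ν c) (hr : 0 < r) (hball : closedBall x (2 * r) ⊆ O)
    {Q : E →L[ℝ] E} {ι : Type*} [Fintype ι] {e : ι → E} (he : ∀ k, ‖e k‖ = 1)
    (heQ : ∀ k v, ⟪e k, Q v⟫ = 0) (hQe : ∀ k, Q (e k) = 0)
    {c₀ : ℝ} (hc₀ : ∀ᵐ z ∂ν, z ∈ bad P Q → c₀ ≤ ∑ k, ⟪e k, P z (e k)⟫) (hc₀0 : 0 < c₀)
    {M : ℝ} (hM0 : 0 ≤ M) (hM : ∀ s, 0 < s → s ≤ r → ν.real (ball x (2 * s)) ≤ M * s ^ m)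
    (hb : ν.real (bad P Q ∩ ball x (2 * r)) ≤ kapp m (Fintype.card ι) c c₀ M * (2 * r) ^ m)
    (j : ℕ) :
    ν.real (bad P Q ∩ ball x (2 * r / 4 ^ j))
      ≤ (1 / (2 * 4 ^ m)) ^ j * (kapp m (Fintype.card ι) c c₀ M * (2 * r) ^ m) := by
  have hκ : 0 < kapp m (Fintype.card ι) c c₀ M := kapp_pos hc hc₀0 hM0
  induction j with
  | zero => simpa using hb
  | succ j ih =>
    have h4 : (1:ℝ) ≤ 4 ^ j := one_le_pow₀ (by norm_num)
    have hrj : 0 < r / 4 ^ j := by positivity
    have hrj' : r / 4 ^ j ≤ r := div_le_self hr.le h4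
    have e1 : 2 * (r / 4 ^ j) = 2 * r / 4 ^ j := by ring
    have e2 : 2 * (r / 4 ^ j) / 4 = 2 * r / 4 ^ (j + 1) := by rw [pow_succ]; field_simp
    have hstep := h.one_step hc hd hrj (x := x)
      ((closedBall_subset_closedBall (by linarith)).trans hball) he heQ hQe hc₀ hc₀0 hM0
      (hM _ hrj hrj') (by
        rw [e1]
        refine ih.trans ?_
        have h5 : (1 / (2 * 4 ^ m) : ℝ) ^ j ≤ (1 / 4 ^ m) ^ j := by
          gcongr
          have : (0:ℝ) < 4 ^ m := by positivity
          linarith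
        calc (1 / (2 * 4 ^ m) : ℝ) ^ j * (kapp m (Fintype.card ι) c c₀ M * (2 * r) ^ m)
            ≤ (1 / 4 ^ m) ^ j * (kapp m (Fintype.card ι) c c₀ M * (2 * r) ^ m) := by gcongr
          _ = kapp m (Fintype.card ι) c c₀ M * (2 * r / 4 ^ j) ^ m := by
              rw [div_pow (2 * r), ← pow_mul, mul_comm j m, pow_mul, div_pow, one_pow]
              ring)
    rw [e1, show 2 * r / 4 ^ j / 4 = 2 * r / 4 ^ (j + 1) by rw [pow_succ]; field_simp] at hstep
    calc ν.real (bad P Q ∩ ball x (2 * r / 4 ^ (j + 1)))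
        ≤ 1 / (2 * 4 ^ m) * ν.real (bad P Q ∩ ball x (2 * r / 4 ^ j)) := hstep
      _ ≤ 1 / (2 * 4 ^ m) * ((1 / (2 * 4 ^ m)) ^ j
            * (kapp m (Fintype.card ι) c c₀ M * (2 * r) ^ m)) := by gcongr
      _ = _ := by rw [pow_succ]; ring

/-- ball masses are at least `c r^m` at support points -/
lemma LocStat.ball_lower [IsFiniteMeasure ν] (h : LocStat m O ν P) {c : ℝ}
    (hd : DensLow m O ν c) (hy : y ∈ ν.support) (hr : 0 < r) (hball : closedBall y r ⊆ O) :
    c * r ^ m ≤ ν.real (ball y r) := by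
  have h1 := h.ratio_ge hd hy hr hball
  have h2 := cut_integral_le (ν := ν) (x := y) hr
  unfold ratio at h1
  rw [le_div_iff₀ (by positivity)] at h1
  exact h1.trans h2

/-- **Vanishing of the bad mass.** -/
lemma LocStat.bad_null [IsFiniteMeasure ν] (h : LocStat m O ν P) {c : ℝ} (hc : 0 < c)
    (hd : DensLow m O ν c) (hr : 0 < r) {S : Set E} (hball : ∀ x ∈ S, closedBall x (2 * r) ⊆ O)
    {Q : E →L[ℝ] E} {ι : Type*} [Fintype ι] {e : ι → E} (he : ∀ k, ‖e k‖ = 1)
    (heQ : ∀ k v, ⟪e k, Q v⟫ = 0) (hQe : ∀ k, Q (e k) = 0)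
    {c₀ : ℝ} (hc₀ : ∀ᵐ z ∂ν, z ∈ bad P Q → c₀ ≤ ∑ k, ⟪e k, P z (e k)⟫) (hc₀0 : 0 < c₀)
    {M : ℝ} (hM0 : 0 ≤ M)
    (hM : ∀ x ∈ S, ∀ s, 0 < s → s ≤ r → ν.real (ball x (2 * s)) ≤ M * s ^ m)
    (hb : ∀ x ∈ S, ν.real (bad P Q ∩ ball x (2 * r))
      ≤ kapp m (Fintype.card ι) c c₀ M * (2 * r) ^ m) :
    ν (bad P Q ∩ S) = 0 := by
  by_contra hne
  have hbes := Besicovitch.ae_tendsto_measure_inter_div ν (bad P Q)
  have hbes' : ∀ᵐ x ∂ν, x ∈ bad P Q →
      Tendsto (fun r => ν (bad P Q ∩ closedBall x r) / ν (closedBall x r)) (𝓝[>] 0) (𝓝 1) :=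
    (ae_restrict_iff'₀ (nullMeasurableSet_bad h.meas Q)).1 hbes
  have hfr : ∃ᵐ x ∂ν, x ∈ bad P Q ∩ S := by
    rw [frequently_ae_mem_iff]; exact hne
  obtain ⟨x, ⟨hxB, hxS⟩, hx1, hxsupp⟩ :=
    (hfr.and_eventually (hbes'.and (Measure.support_mem_ae (μ := ν)))).exists
  have hlim := hx1 hxB
  set κ := kapp m (Fintype.card ι) c c₀ M with hκdef
  have hκ : 0 < κ := kapp_pos hc hc₀0 hM0
  -- sequence of radii
  set ρ : ℕ → ℝ := fun j => 2 * r / 4 ^ j / 2 with hρ
  have hρ0 : ∀ j, 0 < ρ j := fun j => by positivity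
  have hρlim : Tendsto ρ atTop (𝓝[>] 0) := by
    rw [tendsto_nhdsWithin_iff]
    refine ⟨?_, Eventually.of_forall hρ0⟩
    have h1 : Tendsto (fun j : ℕ => ((1:ℝ) / 4) ^ j) atTop (𝓝 0) :=
      tendsto_pow_atTop_nhds_zero_of_lt_one (by norm_num) (by norm_num)
    have h2 := h1.const_mul r
    rw [mul_zero] at h2
    refine h2.congr fun j => ?_
    rw [hρ]; simp only [div_pow, one_pow]; field_simp
  have hlim2 := hlim.comp hρlim
  -- but the ratio tends to zero
  have hup : ∀ j, ν (bad P Q ∩ closedBall x (ρ j)) / ν (closedBall x (ρ j))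
      ≤ ENNReal.ofReal ((1 / 2) ^ j * (κ * 2 ^ m / c)) := by
    intro j
    have h1 := h.iterate (x := x) hc hd hr (hball x hxS) he heQ hQe hc₀ hc₀0 hM0 (hM x hxS)
      (hb x hxS) j
    rw [← hκdef] at h1
    have h4 : (1:ℝ) ≤ 4 ^ j := one_le_pow₀ (by norm_num)
    have hρr : ρ j ≤ r := by
      rw [hρ]; simp only
      rw [div_div, div_le_iff₀ (by positivity)]; nlinarith
    have h2 : c * (ρ j) ^ m ≤ ν.real (closedBall x (ρ j)) :=
      (h.ball_lower hd hxsupp (hρ0 j)
        ((closedBall_subset_closedBall (by linarith)).trans (hball x hxS))).trans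
        (measureReal_mono ball_subset_closedBall)
    have h3 : ν.real (bad P Q ∩ closedBall x (ρ j))
        ≤ (1 / (2 * 4 ^ m)) ^ j * (κ * (2 * r) ^ m) := by
      refine (measureReal_mono (inter_subset_inter_right _ ?_)).trans h1
      refine closedBall_subset_ball ?_
      rw [hρ]; simp only
      have : 0 < 2 * r / 4 ^ j := by positivity
      linarith
    have hpos : 0 < ν.real (closedBall x (ρ j)) := lt_of_lt_of_le (by have := hρ0 j; positivity) h2
    have e1 : ν (bad P Q ∩ closedBall x (ρ j))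
        = ENNReal.ofReal (ν.real (bad P Q ∩ closedBall x (ρ j))) :=
      (ofReal_measureReal).symm
    have e2 : ν (closedBall x (ρ j)) = ENNReal.ofReal (ν.real (closedBall x (ρ j))) :=
      (ofReal_measureReal).symm
    rw [e1, e2, ← ENNReal.ofReal_div_of_pos hpos]
    refine ENNReal.ofReal_le_ofReal ?_
    rw [div_le_iff₀ hpos]
    calc ν.real (bad P Q ∩ closedBall x (ρ j)) ≤ (1 / (2 * 4 ^ m)) ^ j * (κ * (2 * r) ^ m) := h3
      _ = (1 / 2) ^ j * (κ * 2 ^ m / c) * (c * (ρ j) ^ m) := by
          rw [hρ]; simp only [div_pow, mul_pow, one_pow]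
          rw [← pow_mul, ← pow_mul, mul_comm m j]
          field_simp
      _ ≤ _ := by gcongr
  have hzero : Tendsto (fun j : ℕ => ENNReal.ofReal ((1 / 2) ^ j * (κ * 2 ^ m / c))) atTop
      (𝓝 0) := by
    have h1 : Tendsto (fun j : ℕ => ((1:ℝ) / 2) ^ j * (κ * 2 ^ m / c)) atTop (𝓝 (0 * _)) :=
      (tendsto_pow_atTop_nhds_zero_of_lt_one (by norm_num) (by norm_num)).mul_const _
    rw [zero_mul] at h1
    have h2 := (ENNReal.continuous_ofReal.tendsto 0).comp h1
    have h3 : ENNReal.ofReal 0 = 0 := ENNReal.ofReal_zero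
    rw [h3] at h2
    exact h2
  have h0 : Tendsto (fun j => ν (bad P Q ∩ closedBall x (ρ j)) / ν (closedBall x (ρ j))) atTop
      (𝓝 0) := tendsto_of_tendsto_of_tendsto_of_le_of_le tendsto_const_nhds hzero
        (fun _ => zero_le) hup
  exact zero_ne_one (tendsto_nhds_unique h0 hlim2)

end Vale.Agent.P214
end
end

section

section

/-! Linear algebra of orthogonal projections. -/

open Set Filter Topology MeasureTheory Metric
open scoped RealInnerProductSpace

namespace Vale.Agent.P214

set_option linter.unusedSectionVars false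

variable {E : Type*} [NormedAddCommGroup E] [InnerProductSpace ℝ E] [FiniteDimensional ℝ E]
  [MeasurableSpace E] [BorelSpace E]

/-- operator norm is bounded by the Hilbert–Schmidt norm -/
lemma norm_sq_le_sum {ι : Type*} [Fintype ι] (b : OrthonormalBasis ι ℝ E) (A : E →L[ℝ] E) :
    ‖A‖ ^ 2 ≤ ∑ i, ‖A (b i)‖ ^ 2 := by
  have hS : 0 ≤ ∑ i, ‖A (b i)‖ ^ 2 := Finset.sum_nonneg fun _ _ => by positivity
  have h1 : ‖A‖ ≤ Real.sqrt (∑ i, ‖A (b i)‖ ^ 2) := by
    refine A.opNorm_le_bound (Real.sqrt_nonneg _) fun v => ?_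
    have h2 : A v = ∑ i, ⟪b i, v⟫ • A (b i) := by
      conv_lhs => rw [← b.sum_repr' v]
      simp only [map_sum, map_smul]
    rw [h2]
    calc ‖∑ i, ⟪b i, v⟫ • A (b i)‖ ≤ ∑ i, ‖⟪b i, v⟫ • A (b i)‖ := norm_sum_le _ _
      _ = ∑ i, ‖A (b i)‖ * ‖⟪b i, v⟫‖ :=
          Finset.sum_congr rfl fun i _ => by rw [norm_smul, mul_comm]
      _ ≤ Real.sqrt (∑ i, ‖A (b i)‖ ^ 2) * Real.sqrt (∑ i, ‖⟪b i, v⟫‖ ^ 2) :=
          Real.sum_mul_le_sqrt_mul_sqrt _ _ _
      _ = Real.sqrt (∑ i, ‖A (b i)‖ ^ 2) * ‖v‖ := by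
          rw [b.sum_sq_norm_inner_right v, Real.sqrt_sq (norm_nonneg _)]
  calc ‖A‖ ^ 2 ≤ Real.sqrt (∑ i, ‖A (b i)‖ ^ 2) ^ 2 := by gcongr
    _ = _ := Real.sq_sqrt hS

/-- the tilt identity: for planes of the same dimension -/
lemma half_norm_sq_le {m : ℕ} {T T₀ : Submodule ℝ E} (hT : Module.finrank ℝ T = m)
    (hT₀ : Module.finrank ℝ T₀ = m) {κ : Type*} [Fintype κ]
    (e : OrthonormalBasis κ ℝ T₀ᗮ) :
    ‖T.starProjection - T₀.starProjection‖ ^ 2 / 2
      ≤ ∑ k, ⟪(e k : E), T.starProjection (e k : E)⟫ := by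
  set b := stdOrthonormalBasis ℝ E with hb
  set P := T.starProjection with hP
  set Q := T₀.starProjection with hQ
  have h1 := norm_sq_le_sum b (P - Q)
  -- projections are self-adjoint idempotents
  have hPP : ∀ v, ⟪P v, P v⟫ = ⟪v, P v⟫ := fun v => by
    rw [hP, Submodule.inner_starProjection_left_eq_right,
      (Submodule.starProjection_eq_self_iff).2 (T.starProjection_apply_mem v)]
  have hQQ : ∀ v, ⟪Q v, Q v⟫ = ⟪v, Q v⟫ := fun v => by
    rw [hQ, Submodule.inner_starProjection_left_eq_right,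
      (Submodule.starProjection_eq_self_iff).2 (T₀.starProjection_apply_mem v)]
  -- complement
  have hcomp : ∀ v, v - Q v = ∑ k, ⟪(e k : E), v⟫ • (e k : E) := by
    intro v
    have h2 : v - Q v = T₀ᗮ.starProjection v := by
      have := T₀.starProjection_add_starProjection_orthogonal v
      rw [← this]; simp [hQ]
    rw [h2]
    have h3 := e.sum_repr' (T₀ᗮ.orthogonalProjectionOnto v)
    have h4 : T₀ᗮ.starProjection v = ((T₀ᗮ.orthogonalProjectionOnto v : T₀ᗮ) : E) := rfl
    rw [h4, ← h3]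
    simp only [Submodule.coe_sum, Submodule.coe_smul, Submodule.coe_inner]
    refine Finset.sum_congr rfl fun k _ => ?_
    congr 1
    have h5 : ⟪(e k : E), T₀ᗮ.starProjection v⟫ = ⟪(e k : E), v⟫ := by
      rw [← Submodule.inner_starProjection_left_eq_right,
        (Submodule.starProjection_eq_self_iff).2 (e k).2]
    simpa using h5
  have hterm : ∀ v, ‖(P - Q) v‖ ^ 2 = ⟪v, Q v⟫ - ⟪v, P v⟫
      + 2 * ∑ k, ⟪v, (e k : E)⟫ * ⟪P v, (e k : E)⟫ := by
    intro v
    have h2 : Q v = v - ∑ k, ⟪(e k : E), v⟫ • (e k : E) := by rw [← hcomp]; abel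
    have h3 : ⟪P v, Q v⟫ = ⟪v, P v⟫ - ∑ k, ⟪v, (e k : E)⟫ * ⟪P v, (e k : E)⟫ := by
      rw [h2, inner_sub_right, inner_sum, real_inner_comm]
      congr 1
      refine Finset.sum_congr rfl fun k _ => ?_
      rw [inner_smul_right, real_inner_comm v]
    rw [_root_.sub_apply, ← real_inner_self_eq_norm_sq, inner_sub_sub_self]
    simp only [real_inner_comm (P v) (Q v)]
    rw [hPP, hQQ, h3]; ring
  have hsum : ∑ i, ‖(P - Q) (b i)‖ ^ 2 = 2 * ∑ k, ⟪(e k : E), P (e k : E)⟫ := by
    simp only [hterm]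
    rw [Finset.sum_add_distrib, Finset.sum_sub_distrib, hP, hQ, sum_inner_proj, sum_inner_proj,
      hT, hT₀, sub_self, zero_add, ← Finset.mul_sum, Finset.sum_comm]
    congr 1
    refine Finset.sum_congr rfl fun k _ => ?_
    have h4 : ∀ i, ⟪b i, (e k : E)⟫ * ⟪T.starProjection (b i), (e k : E)⟫
        = ⟪(e k : E), b i⟫ * ⟪b i, T.starProjection (e k : E)⟫ := fun i => by
      rw [Submodule.inner_starProjection_left_eq_right, real_inner_comm (b i)]
    simp only [h4]
    exact b.sum_inner_mul_inner _ _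
  rw [hsum] at h1
  linarith

end Vale.Agent.P214
end
end

section

section

open MeasureTheory Set Filter Topology
open scoped ENNReal NNReal

namespace Vale.Agent.P214

variable {E : Type*} [NormedAddCommGroup E] [InnerProductSpace ℝ E] [FiniteDimensional ℝ E]

lemma ediam_cb_le {X : Type*} [PseudoMetricSpace X] (y : X) {t : ℝ} (ht : 0 ≤ t) :
    Metric.ediam (Metric.closedBall y t) ≤ ENNReal.ofReal (2 * t) := by
  rw [← Metric.closedEBall_ofReal ht]
  refine Metric.ediam_closedEBall_le.trans (le_of_eq ?_)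
  rw [ENNReal.ofReal_mul (by norm_num)]
  norm_num

/-- A set `A` is `(d, rho)`-flat below scale `r0`. -/
def FlatAt (d : ℕ) (rho : ℝ) (r0 : ℝ) (A : Set E) : Prop :=
  ∀ x ∈ A, ∀ r : ℝ, 0 < r → r ≤ r0 →
    ∃ L : Submodule ℝ E, Module.finrank ℝ L ≤ d ∧
      ∀ y ∈ A, dist y x ≤ r → ‖(y - x) - L.starProjection (y - x)‖ ≤ rho * r

/-- number of cells -/
noncomputable def cellNum (d : ℕ) (rho : ℝ) : ℕ := (2 * ⌈((d : ℝ) + 1) / rho⌉₊ + 1) ^ d

lemma cellNum_le (d : ℕ) {rho : ℝ} (h0 : 0 < rho) (h1 : rho ≤ 1) :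
    (cellNum d rho : ℝ) ≤ ((2 * d + 5) / rho) ^ d := by
  unfold cellNum
  push_cast
  apply pow_le_pow_left₀ (by positivity)
  have h2 : (⌈((d : ℝ) + 1) / rho⌉₊ : ℝ) < ((d : ℝ) + 1) / rho + 1 :=
    Nat.ceil_lt_add_one (by positivity)
  have h3 : (1 : ℝ) ≤ 1 / rho := by
    rw [le_div_iff₀ h0]; linarith
  have h4 : (2 * (d : ℝ) + 5) / rho = 2 * (((d : ℝ) + 1) / rho) + 3 * (1 / rho) := by
    field_simp; ring
  rw [h4]
  linarith

/-- One covering step. -/
lemma cover_step (d : ℕ) {rho : ℝ} (h0 : 0 < rho) {r0 : ℝ} {A : Set E}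
    (hA : FlatAt d rho r0 A) {x : E} (hx : x ∈ A) {r : ℝ} (hr : 0 < r) (hr0 : r ≤ r0) :
    ∃ F : Finset E, (F : Set E) ⊆ A ∧ F.card ≤ cellNum d rho ∧
      A ∩ Metric.closedBall x r ⊆ ⋃ y ∈ F, Metric.closedBall y (3 * rho * r) := by
  classical
  obtain ⟨L, hL, hflat⟩ := hA x hx r hr hr0
  set k := Module.finrank ℝ L with hk
  let b : OrthonormalBasis (Fin k) ℝ L := stdOrthonormalBasis ℝ L
  set M : ℕ := ⌈((d : ℝ) + 1) / rho⌉₊ with hM
  set δ : ℝ := rho / ((d : ℝ) + 1) with hδ
  have hd1 : (0 : ℝ) < (d : ℝ) + 1 := by positivity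
  have hδ0 : 0 < δ := by positivity
  -- coordinates
  let co : E → Fin d → ℝ := fun y i =>
    if h : (i : ℕ) < k then b.repr (L.orthogonalProjectionOnto (y - x)) ⟨i, h⟩ else 0
  let Idx := Fin d → (Finset.Icc (-(M : ℤ)) (M : ℤ))
  let c0 : E → Fin d → ℤ := fun y i => ⌊co y i / (δ * r)⌋
  -- coordinates are bounded
  have hco : ∀ y, dist y x ≤ r → ∀ i, |co y i| ≤ r := by
    intro y hy i
    simp only [co]
    split_ifs with h
    · have h1 : ‖b.repr (L.orthogonalProjectionOnto (y - x)) ⟨i, h⟩‖ ≤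
          ‖b.repr (L.orthogonalProjectionOnto (y - x))‖ := PiLp.norm_apply_le _ _
      rw [LinearIsometryEquiv.norm_map] at h1
      have h2 : ‖L.orthogonalProjectionOnto (y - x)‖ ≤ ‖y - x‖ :=
        L.norm_orthogonalProjectionOnto_apply_le _
      rw [dist_eq_norm] at hy
      rw [← Real.norm_eq_abs]
      linarith
    · simpa using hr.le
  have hc0 : ∀ y, dist y x ≤ r → ∀ i, c0 y i ∈ Finset.Icc (-(M : ℤ)) (M : ℤ) := by
    intro y hy i
    have h1 := hco y hy i
    have hMle : ((d : ℝ) + 1) / rho ≤ M := Nat.le_ceil _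
    have h2 : |co y i / (δ * r)| ≤ M := by
      rw [abs_div, abs_of_pos (show 0 < δ * r by positivity), div_le_iff₀ (by positivity)]
      have h3 : r ≤ ((d : ℝ) + 1) / rho * (δ * r) := by
        rw [hδ]; field_simp; exact le_refl _
      calc |co y i| ≤ r := h1
        _ ≤ ((d : ℝ) + 1) / rho * (δ * r) := h3
        _ ≤ M * (δ * r) := by gcongr
    rw [abs_le] at h2
    rw [Finset.mem_Icc]
    constructor
    · rw [Int.le_floor]; push_cast; exact h2.1
    · have : (⌊co y i / (δ * r)⌋ : ℝ) ≤ (M : ℤ) := (Int.floor_le _).trans (by push_cast; exact h2.2)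
      exact_mod_cast this
  -- same cell implies close
  have hclose : ∀ y ∈ A, dist y x ≤ r → ∀ y' ∈ A, dist y' x ≤ r → c0 y = c0 y' →
      dist y y' ≤ 3 * rho * r := by
    intro y hy hyx y' hy' hyx' hcc
    have e1 := hflat y hy hyx
    have e2 := hflat y' hy' hyx'
    have e3 : ‖L.starProjection (y - x) - L.starProjection (y' - x)‖ ≤ rho * r := by
      have h1 : L.starProjection (y - x) - L.starProjection (y' - x)
          = ((L.orthogonalProjectionOnto (y - x) - L.orthogonalProjectionOnto (y' - x) : L) : E) := by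
        simp only [Submodule.starProjection_apply, Submodule.coe_sub]
      rw [h1]
      have h1' : ‖((L.orthogonalProjectionOnto (y - x) - L.orthogonalProjectionOnto (y' - x) : L) : E)‖
          = ‖b.repr (L.orthogonalProjectionOnto (y - x) - L.orthogonalProjectionOnto (y' - x))‖ := by
        rw [b.repr.norm_map]; rfl
      rw [h1', map_sub, EuclideanSpace.norm_eq]
      have h2 : ∀ i : Fin k, ‖(b.repr (L.orthogonalProjectionOnto (y - x)) -
          b.repr (L.orthogonalProjectionOnto (y' - x))) i‖ ≤ δ * r := by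
        intro i
        have hid : (i : ℕ) < d := lt_of_lt_of_le i.2 hL
        have h3 := congrFun hcc ⟨i, hid⟩
        have h4 : co y ⟨i, hid⟩ = b.repr (L.orthogonalProjectionOnto (y - x)) i := by
          simp [co]
        have h5 : co y' ⟨i, hid⟩ = b.repr (L.orthogonalProjectionOnto (y' - x)) i := by
          simp [co]
        have h6 := Int.abs_sub_lt_one_of_floor_eq_floor h3
        rw [h4, h5, ← sub_div, abs_div, abs_of_pos (show 0 < δ * r by positivity),
          div_lt_one (by positivity)] at h6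
        rw [PiLp.sub_apply, Real.norm_eq_abs]
        exact h6.le
      have h7 : ∑ i : Fin k, ‖(b.repr (L.orthogonalProjectionOnto (y - x)) -
          b.repr (L.orthogonalProjectionOnto (y' - x))) i‖ ^ 2 ≤ (k * (δ * r)) ^ 2 := by
        calc ∑ i : Fin k, ‖(b.repr (L.orthogonalProjectionOnto (y - x)) -
          b.repr (L.orthogonalProjectionOnto (y' - x))) i‖ ^ 2
            ≤ ∑ _i : Fin k, (δ * r) ^ 2 := by
              apply Finset.sum_le_sum
              intro i _
              exact pow_le_pow_left₀ (norm_nonneg _) (h2 i) 2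
          _ = k * (δ * r) ^ 2 := by simp
          _ ≤ (k * (δ * r)) ^ 2 := by
              have h8 : (k : ℝ) ≤ (k : ℝ) ^ 2 := by
                exact_mod_cast Nat.le_self_pow (by norm_num) k
              calc (k : ℝ) * (δ * r) ^ 2 ≤ (k : ℝ) ^ 2 * (δ * r) ^ 2 :=
                    mul_le_mul_of_nonneg_right h8 (by positivity)
                _ = (k * (δ * r)) ^ 2 := by ring
      calc √(∑ i : Fin k, ‖(b.repr (L.orthogonalProjectionOnto (y - x)) -
          b.repr (L.orthogonalProjectionOnto (y' - x))) i‖ ^ 2)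
          ≤ √((k * (δ * r)) ^ 2) := Real.sqrt_le_sqrt h7
        _ = k * (δ * r) := Real.sqrt_sq (by positivity)
        _ ≤ (d + 1) * (δ * r) := by
            have : (k : ℝ) ≤ d := by exact_mod_cast hL
            have hpos : 0 ≤ δ * r := by positivity
            nlinarith
        _ = rho * r := by rw [hδ]; field_simp
    have e4 : y - y' = ((y - x) - L.starProjection (y - x)) -
        ((y' - x) - L.starProjection (y' - x)) +
        (L.starProjection (y - x) - L.starProjection (y' - x)) := by abel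
    rw [dist_eq_norm, e4]
    calc _ ≤ ‖((y - x) - L.starProjection (y - x)) -
        ((y' - x) - L.starProjection (y' - x))‖ +
        ‖L.starProjection (y - x) - L.starProjection (y' - x)‖ := norm_add_le _ _
      _ ≤ (‖(y - x) - L.starProjection (y - x)‖ + ‖(y' - x) - L.starProjection (y' - x)‖) +
        ‖L.starProjection (y - x) - L.starProjection (y' - x)‖ := by
          have := norm_sub_le ((y - x) - L.starProjection (y - x))
            ((y' - x) - L.starProjection (y' - x))
          linarith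
      _ ≤ 3 * rho * r := by linarith
  -- choose representatives
  let g : Idx → E := fun idx =>
    if h : ∃ y ∈ A, dist y x ≤ r ∧ c0 y = fun i => (idx i : ℤ) then h.choose else x
  refine ⟨Finset.univ.image g, ?_, ?_, ?_⟩
  · intro z hz
    simp only [Finset.coe_image, Finset.coe_univ, image_univ, mem_range] at hz
    obtain ⟨idx, rfl⟩ := hz
    simp only [g]
    split_ifs with h
    · exact h.choose_spec.1
    · exact hx
  · calc (Finset.univ.image g).card ≤ (Finset.univ : Finset Idx).card := Finset.card_image_le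
      _ = cellNum d rho := by
        simp only [Idx, Finset.card_univ, Fintype.card_pi, Fintype.card_coe, Finset.prod_const,
          Fintype.card_fin, cellNum, Int.card_Icc]
        congr 1
        rw [← hM]
        omega
  · intro y hy
    obtain ⟨hyA, hyx⟩ := hy
    rw [Metric.mem_closedBall] at hyx
    let idx : Idx := fun i => ⟨c0 y i, hc0 y hyx i⟩
    have hex : ∃ y' ∈ A, dist y' x ≤ r ∧ c0 y' = fun i => (idx i : ℤ) := ⟨y, hyA, hyx, rfl⟩
    have hg : g idx = hex.choose := by simp only [g]; rw [dif_pos hex]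
    obtain ⟨p1, p2, p3⟩ := hex.choose_spec
    rw [mem_iUnion₂]
    refine ⟨g idx, Finset.mem_image_of_mem _ (Finset.mem_univ _), ?_⟩
    rw [Metric.mem_closedBall, hg]
    exact hclose y hyA hyx _ p1 p2 (by rw [p3])

/-- Iterated covering. -/
lemma cover_iter (d : ℕ) {rho : ℝ} (h0 : 0 < rho) (h1 : 3 * rho ≤ 1) {r0 : ℝ} {A : Set E}
    (hA : FlatAt d rho r0 A) {x : E} (hx : x ∈ A) {r : ℝ} (hr : 0 < r) (hr0 : r ≤ r0) (k : ℕ) :
    ∃ F : Finset E, (F : Set E) ⊆ A ∧ F.card ≤ cellNum d rho ^ k ∧
      A ∩ Metric.closedBall x r ⊆ ⋃ y ∈ F, Metric.closedBall y ((3 * rho) ^ k * r) := by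
  classical
  induction k with
  | zero =>
    refine ⟨{x}, by simpa using hx, by simp, ?_⟩
    intro y hy
    simpa using hy.2
  | succ k ih =>
    obtain ⟨F, hFA, hFc, hFcov⟩ := ih
    have hrk : 0 < (3 * rho) ^ k * r := by positivity
    have hrk0 : (3 * rho) ^ k * r ≤ r0 := by
      have : (3 * rho) ^ k ≤ 1 := pow_le_one₀ (by positivity) h1
      nlinarith
    have hstep : ∀ y : E, ∃ G : Finset E, (G : Set E) ⊆ A ∧ G.card ≤ cellNum d rho ∧
        (y ∈ A → A ∩ Metric.closedBall y ((3 * rho) ^ k * r) ⊆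
          ⋃ z ∈ G, Metric.closedBall z (3 * rho * ((3 * rho) ^ k * r))) := by
      intro y
      by_cases hy : y ∈ A
      · obtain ⟨G, h1, h2, h3⟩ := cover_step d h0 hA hy hrk hrk0
        exact ⟨G, h1, h2, fun _ => h3⟩
      · exact ⟨∅, by simp, by simp, fun h => absurd h hy⟩
    choose G hG1 hG2 hG3 using hstep
    refine ⟨F.biUnion G, ?_, ?_, ?_⟩
    · intro z hz
      simp only [Finset.coe_biUnion, mem_iUnion] at hz
      obtain ⟨y, hy, hz⟩ := hz
      exact hG1 y hz
    · calc (F.biUnion G).card ≤ F.card * cellNum d rho :=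
            Finset.card_biUnion_le_card_mul _ _ _ (fun y _ => hG2 y)
        _ ≤ cellNum d rho ^ k * cellNum d rho := Nat.mul_le_mul_right _ hFc
        _ = cellNum d rho ^ (k + 1) := (pow_succ _ _).symm
    · intro z hz
      have h2 := hFcov hz
      rw [mem_iUnion₂] at h2
      obtain ⟨y, hyF, hzy⟩ := h2
      have h3 := hG3 y (hFA hyF) ⟨hz.1, hzy⟩
      rw [mem_iUnion₂] at h3 ⊢
      obtain ⟨w, hw, hzw⟩ := h3
      refine ⟨w, Finset.mem_biUnion.2 ⟨y, hyF, hw⟩, ?_⟩
      have : (3 * rho) ^ (k + 1) * r = 3 * rho * ((3 * rho) ^ k * r) := by ring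
      rw [this]
      exact hzw

/-- The local measure estimate. -/
lemma hausdorff_zero_local [MeasurableSpace E] [BorelSpace E] (d : ℕ) {rho s : ℝ} (h0 : 0 < rho)
    (h1 : 3 * rho < 1) (hs : 0 ≤ s)
    (hlt : (cellNum d rho : ℝ) * (3 * rho) ^ s < 1) {r0 : ℝ} {A : Set E}
    (hA : FlatAt d rho r0 A) {x : E} (hx : x ∈ A) {r : ℝ} (hr : 0 < r) (hr0 : r ≤ r0) :
    μH[s] (A ∩ Metric.closedBall x r) = 0 := by
  classical
  choose F hFA hFc hFcov using fun k => cover_iter d h0 h1.le hA hx hr hr0 k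
  have hq0 : 0 ≤ (cellNum d rho : ℝ) * (3 * rho) ^ s := by positivity
  have key := Measure.hausdorffMeasure_le_liminf_sum (l := (atTop : Filter ℕ))
    (ι := fun k => (F k)) s (A ∩ Metric.closedBall x r)
    (fun k => ENNReal.ofReal (2 * ((3 * rho) ^ k * r)))
    (by
      have : Tendsto (fun k : ℕ => 2 * ((3 * rho) ^ k * r)) atTop (𝓝 (2 * (0 * r))) :=
        ((tendsto_pow_atTop_nhds_zero_of_lt_one (by positivity) h1).mul_const r).const_mul 2
      have h2 := ENNReal.tendsto_ofReal this
      simpa using h2)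
    (fun k y => Metric.closedBall (y : E) ((3 * rho) ^ k * r))
    (Eventually.of_forall fun k y => by
      exact ediam_cb_le (y : E) (by positivity))
    (Eventually.of_forall fun k => by
      intro z hz
      have := hFcov k hz
      rw [mem_iUnion₂] at this
      obtain ⟨y, hy, hz⟩ := this
      exact mem_iUnion.2 ⟨⟨y, hy⟩, hz⟩)
  have hbound : ∀ k : ℕ, (∑ y : F k, Metric.ediam (Metric.closedBall (y : E)
      ((3 * rho) ^ k * r)) ^ s) ≤
      ENNReal.ofReal (((cellNum d rho : ℝ) * (3 * rho) ^ s) ^ k * (2 * r) ^ s) := by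
    intro k
    calc (∑ y : F k, Metric.ediam (Metric.closedBall (y : E) ((3 * rho) ^ k * r)) ^ s)
        ≤ ∑ _y : F k, ENNReal.ofReal ((2 * ((3 * rho) ^ k * r)) ^ s) := by
          apply Finset.sum_le_sum
          intro y _
          rw [← ENNReal.ofReal_rpow_of_nonneg (by positivity) hs]
          exact ENNReal.rpow_le_rpow (ediam_cb_le (y : E) (by positivity)) hs
      _ = (F k).card * ENNReal.ofReal ((2 * ((3 * rho) ^ k * r)) ^ s) := by
          simp
      _ ≤ ENNReal.ofReal ((cellNum d rho : ℝ) ^ k) *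
            ENNReal.ofReal ((2 * ((3 * rho) ^ k * r)) ^ s) := by
          gcongr
          rw [← ENNReal.ofReal_natCast]
          apply ENNReal.ofReal_le_ofReal
          exact_mod_cast hFc k
      _ = ENNReal.ofReal (((cellNum d rho : ℝ) * (3 * rho) ^ s) ^ k * (2 * r) ^ s) := by
          rw [← ENNReal.ofReal_mul (by positivity)]
          congr 1
          have e1 : 2 * ((3 * rho) ^ k * r) = (3 * rho) ^ k * (2 * r) := by ring
          have e2 : ((3 * rho) ^ k) ^ s = ((3 * rho) ^ s) ^ k :=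
            (Real.rpow_pow_comm (by positivity) s k).symm
          rw [e1, Real.mul_rpow (by positivity) (by positivity), e2, mul_pow]
          ring
  have hlim : Tendsto (fun k : ℕ => ENNReal.ofReal
      (((cellNum d rho : ℝ) * (3 * rho) ^ s) ^ k * (2 * r) ^ s)) atTop (𝓝 0) := by
    have h2 := ((tendsto_pow_atTop_nhds_zero_of_lt_one hq0 hlt).mul_const ((2 * r) ^ s))
    have h3 := ENNReal.tendsto_ofReal h2
    simpa using h3
  have h4 : liminf (fun k : ℕ => ∑ y : F k, Metric.ediam (Metric.closedBall (y : E)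
      ((3 * rho) ^ k * r)) ^ s) atTop ≤ 0 := by
    calc _ ≤ liminf (fun k : ℕ => ENNReal.ofReal
      (((cellNum d rho : ℝ) * (3 * rho) ^ s) ^ k * (2 * r) ^ s)) atTop :=
          liminf_le_liminf (Eventually.of_forall hbound)
      _ = 0 := hlim.liminf_eq
  exact le_antisymm (key.trans h4) bot_le

/-- Flat sets with small constants are null. -/
lemma hausdorff_zero_of_flat [MeasurableSpace E] [BorelSpace E] (d : ℕ) {rho s : ℝ} (h0 : 0 < rho)
    (h1 : 3 * rho < 1) (hs : 0 ≤ s)
    (hlt : (cellNum d rho : ℝ) * (3 * rho) ^ s < 1) {r0 : ℝ} (hr0 : 0 < r0) {A : Set E}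
    (hA : FlatAt d rho r0 A) : μH[s] A = 0 := by
  obtain ⟨t, htA, htc, htcov⟩ := TopologicalSpace.countable_cover_nhdsWithin
    (s := A) (f := fun x => Metric.closedBall x r0)
    (fun x _ => mem_nhdsWithin_of_mem_nhds (Metric.closedBall_mem_nhds x hr0))
  have h2 : A ⊆ ⋃ x ∈ t, A ∩ Metric.closedBall x r0 := by
    intro y hy
    have := htcov hy
    rw [mem_iUnion₂] at this ⊢
    obtain ⟨x, hx, hyx⟩ := this
    exact ⟨x, hx, hy, hyx⟩
  refine measure_mono_null h2 ?_
  rw [measure_biUnion_null_iff htc]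
  intro x hx
  exact hausdorff_zero_local d h0 h1 hs hlt hA (htA hx) hr0 le_rfl

/-- For `s > d` there is `rho` such that `(d, rho)`-flat sets are `H^s`-null. -/
theorem exists_rho (d : ℕ) {s : ℝ} (hs : (d : ℝ) < s) :
    ∃ rho : ℝ, 0 < rho ∧ 3 * rho < 1 ∧ (cellNum d rho : ℝ) * (3 * rho) ^ s < 1 := by
  have hs0 : 0 < s := lt_of_le_of_lt (Nat.cast_nonneg d) hs
  have hlim : Tendsto (fun rho : ℝ => (2 * (d : ℝ) + 5) ^ d * 3 ^ s * rho ^ (s - d))
      (𝓝[>] 0) (𝓝 0) := by
    have h1 : Tendsto (fun rho : ℝ => rho ^ (s - d)) (𝓝[>] 0) (𝓝 (0 ^ (s - (d : ℝ)))) := by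
      apply Tendsto.mono_left _ nhdsWithin_le_nhds
      exact (Real.continuousAt_rpow_const 0 (s - d) (Or.inr (by linarith))).tendsto
    rw [Real.zero_rpow (by linarith)] at h1
    have h2 := h1.const_mul ((2 * (d : ℝ) + 5) ^ d * 3 ^ s)
    simpa using h2
  have h3 : ∀ᶠ rho in 𝓝[>] (0 : ℝ), (2 * (d : ℝ) + 5) ^ d * 3 ^ s * rho ^ (s - d) < 1 :=
    hlim.eventually_lt_const one_pos
  have h4 : ∀ᶠ rho in 𝓝[>] (0 : ℝ), 3 * rho < 1 := by
    have : ∀ᶠ rho in 𝓝 (0 : ℝ), 3 * rho < 1 := by
      have hc : ContinuousAt (fun rho : ℝ => 3 * rho) 0 := by fun_prop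
      exact hc.eventually_lt_const (by norm_num)
    exact this.filter_mono nhdsWithin_le_nhds
  obtain ⟨rho, ⟨h5, h6⟩, h7⟩ := ((h3.and h4).and self_mem_nhdsWithin).exists
  have h7' : 0 < rho := h7
  refine ⟨rho, h7', h6, lt_of_le_of_lt ?_ h5⟩
  calc (cellNum d rho : ℝ) * (3 * rho) ^ s ≤ ((2 * d + 5) / rho) ^ d * (3 * rho) ^ s := by
        gcongr
        exact cellNum_le d h7' (by linarith)
    _ = (2 * (d : ℝ) + 5) ^ d * 3 ^ s * rho ^ (s - d) := by
        rw [Real.mul_rpow (by norm_num) h7'.le, div_pow, Real.rpow_sub h7', Real.rpow_natCast]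
        field_simp

/-- **Covering lemma**: a set which for every `rho` is a countable union of sets that are
`(d, rho)`-flat at all small scales has Hausdorff dimension at most `d`. -/
theorem dimH_le_of_flat (A : Set E) (d : ℕ)
    (H : ∀ rho : ℝ, 0 < rho → rho < 1 → ∃ Aj : ℕ → Set E, A ⊆ ⋃ j, Aj j ∧
      ∀ j, ∃ r0 : ℝ, 0 < r0 ∧ FlatAt d rho r0 (Aj j)) : dimH A ≤ d := by
  borelize E
  refine le_of_forall_gt_imp_ge_of_dense (fun b hb => ?_)
  obtain ⟨s, hs1, hs2⟩ := ENNReal.lt_iff_exists_nnreal_btwn.1 hb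
  have hds : (d : ℝ) < s := by
    have : ((d : ℝ≥0) : ℝ≥0∞) < (s : ℝ≥0∞) := by simpa using hs1
    have h2 := ENNReal.coe_lt_coe.1 this
    exact_mod_cast h2
  obtain ⟨rho, h0, h1, h2⟩ := exists_rho d hds
  obtain ⟨Aj, hcov, hAj⟩ := H rho h0 (by linarith)
  have hzero : μH[(s : ℝ)] A = 0 := by
    refine measure_mono_null hcov ?_
    rw [measure_iUnion_null_iff]
    intro j
    obtain ⟨r0, hr0, hfl⟩ := hAj j
    exact hausdorff_zero_of_flat d h0 h1 s.2 h2 hr0 hfl
  have h3 : dimH A ≤ s := dimH_le_of_hausdorffMeasure_ne_top (by rw [hzero]; simp)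
  exact h3.trans hs2.le

end Vale.Agent.P214
end
end

section

section

/-! Cone splitting and the dimension bound. -/

open Set Filter Topology MeasureTheory Metric
open scoped RealInnerProductSpace ENNReal

namespace Vale.Agent.P214

set_option linter.unusedSectionVars false

variable {E : Type*} [NormedAddCommGroup E] [InnerProductSpace ℝ E] [FiniteDimensional ℝ E]
  [MeasurableSpace E] [BorelSpace E]

variable {x y : E} {r : ℝ} {m : ℕ} {O : Set E} {ν : Measure E} {P : E → E →L[ℝ] E}

lemma LocStat.integrableOn_tilt [IsFiniteMeasure ν] (h : LocStat m O ν P) (x z : E) (ρ : ℝ) :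
    IntegrableOn (fun y => ‖(y - x) - P y (y - x)‖ ^ 2) (closedBall z ρ) ν := by
  have hid : AEStronglyMeasurable (fun y : E => y - x) ν :=
    (by fun_prop : Continuous fun y : E => y - x).aestronglyMeasurable
  have hM : AEStronglyMeasurable (fun y => ‖(y - x) - P y (y - x)‖ ^ 2) ν :=
    ((hid.sub (aesm_clm_apply h.meas hid)).norm).pow 2
  have hbd : ∀ᵐ y ∂ν, ‖(y - x) - P y (y - x)‖ ≤ 2 * ‖y - x‖ := by
    filter_upwards [h.norm_le] with y hy
    calc ‖(y - x) - P y (y - x)‖ ≤ ‖y - x‖ + ‖P y (y - x)‖ := norm_sub_le _ _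
      _ ≤ ‖y - x‖ + ‖y - x‖ := by
          gcongr
          simpa using (P y).le_of_opNorm_le hy (y - x)
      _ = 2 * ‖y - x‖ := by ring
  refine Integrable.mono' (g := fun _ => (2 * (ρ + ‖z - x‖)) ^ 2) (integrable_const _)
    hM.restrict ?_
  filter_upwards [ae_restrict_of_ae hbd, ae_restrict_mem measurableSet_closedBall] with y hy hyb
  rw [Real.norm_of_nonneg (by positivity)]
  rw [mem_closedBall, dist_eq_norm] at hyb
  have h1 : ‖y - x‖ ≤ ρ + ‖z - x‖ := by
    calc ‖y - x‖ = ‖(y - z) + (z - x)‖ := by congr 1; abel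
      _ ≤ ‖y - z‖ + ‖z - x‖ := norm_add_le _ _
      _ ≤ _ := by gcongr
  have h2 : ‖(y - x) - P y (y - x)‖ ≤ 2 * (ρ + ‖z - x‖) := hy.trans (by gcongr)
  exact pow_le_pow_left₀ (norm_nonneg _) h2 2

end Vale.Agent.P214
end
end

section

section

/-! Local epsilon-regularity: small bad mass vanishes. -/

open Set Filter Topology MeasureTheory Metric
open scoped RealInnerProductSpace ENNReal

namespace Vale.Agent.P214

set_option linter.unusedSectionVars false

variable {E : Type*} [NormedAddCommGroup E] [InnerProductSpace ℝ E] [FiniteDimensional ℝ E]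
  [MeasurableSpace E] [BorelSpace E]

variable {x y : E} {r : ℝ} {m : ℕ} {O : Set E} {ν : Measure E} {P : E → E →L[ℝ] E}

/-- the mass bound coming from monotonicity -/
lemma LocStat.mass_bound [IsFiniteMeasure ν] (h : LocStat m O ν P) {r₁ s : ℝ} (hs : 0 < s)
    (hsr : 4 * s ≤ r₁) (hball : closedBall x r₁ ⊆ O) :
    ν.real (ball x (2 * s)) ≤ 4 ^ (m + 1) * ν.real univ / r₁ ^ m * s ^ m := by
  have hr₁ : 0 < r₁ := by linarith
  have h1 : ν.real (ball x (2 * s)) ≤ 4 * ∫ y, cut x (4 * s) y ∂ν := by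
    refine (measureReal_mono ball_subset_closedBall).trans ?_
    have := measureReal_ball_le (ν := ν) (x := x) (r := 2 * s) (by linarith)
    rwa [show 2 * (2 * s) = 4 * s by ring] at this
  have h2 : ratio m ν x (4 * s) ≤ ratio m ν x r₁ := h.ratio_mono (by linarith) hsr hball
  have h3 : ratio m ν x r₁ ≤ ν.real univ / r₁ ^ m := by
    unfold ratio
    have := cut_integral_le (ν := ν) (x := x) hr₁
    have h4 : ν.real (ball x r₁) ≤ ν.real univ := measureReal_mono (subset_univ _)
    gcongr
    exact this.trans h4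
  have h4 : ∫ y, cut x (4 * s) y ∂ν = ratio m ν x (4 * s) * (4 * s) ^ m := by
    unfold ratio; field_simp
  rw [h4] at h1
  calc ν.real (ball x (2 * s)) ≤ 4 * (ratio m ν x (4 * s) * (4 * s) ^ m) := h1
    _ ≤ 4 * ((ν.real univ / r₁ ^ m) * (4 * s) ^ m) := by
        have := h2.trans h3
        gcongr
    _ = _ := by rw [mul_pow, pow_succ]; ring

/-- small bad mass vanishes -/
lemma LocStat.eps_reg [IsFiniteMeasure ν] (h : LocStat m O ν P) {c : ℝ} (hc : 0 < c)
    (hd : DensLow m O ν c) {r₁ : ℝ} (hball : closedBall x (2 * r₁) ⊆ O)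
    (hr : 0 < r) (hr₁ : 4 * r ≤ r₁) {T₀ : Submodule ℝ E} (hT₀ : Module.finrank ℝ T₀ = m)
    {δ : ℝ} (hδ : 0 < δ)
    (hgap : ∀ᵐ z ∂ν, z ∈ bad P T₀.starProjection → δ ≤ ‖P z - T₀.starProjection‖)
    (hb : ν.real (bad P T₀.starProjection ∩ ball x (4 * r))
      ≤ kapp m (Module.finrank ℝ E - m) c (δ ^ 2 / 2) (4 ^ (m + 1) * ν.real univ / r₁ ^ m)
        * (2 * r) ^ m) :
    ν (bad P T₀.starProjection ∩ ball x (2 * r)) = 0 := by
  set Q := T₀.starProjection with hQ
  set e := stdOrthonormalBasis ℝ T₀ᗮ with he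
  have hcard : Fintype.card (Fin (Module.finrank ℝ T₀ᗮ)) = Module.finrank ℝ E - m := by
    rw [Fintype.card_fin, ← hT₀]
    have := T₀.finrank_add_finrank_orthogonal
    omega
  have hr₁0 : 0 < r₁ := by linarith
  refine h.bad_null hc hd hr (S := ball x (2 * r)) ?_ (e := fun k => (e k : E)) ?_ ?_ ?_
    (c₀ := δ ^ 2 / 2) ?_ (by positivity)
    (M := 4 ^ (m + 1) * ν.real univ / r₁ ^ m) (by positivity) ?_ ?_
  · intro x' hx'
    refine (closedBall_subset_closedBall' ?_).trans hball
    rw [mem_ball] at hx'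
    linarith
  · intro k
    have h1 : ‖e k‖ = 1 := e.orthonormal.1 k
    exact h1
  · intro k v
    exact Submodule.inner_left_of_mem_orthogonal (T₀.starProjection_apply_mem v) (e k).2
  · intro k
    exact (Submodule.starProjection_apply_eq_zero_iff T₀).2 (e k).2
  · filter_upwards [hgap, h.proj] with z hz hz' hzb
    obtain ⟨T, hT, hPT⟩ := hz'
    have h1 := half_norm_sq_le hT hT₀ e
    rw [← hPT] at h1
    have h2 := hz hzb
    refine le_trans ?_ h1
    gcongr
  · intro x' hx' s hs hsr
    refine h.mass_bound hs (by linarith) ?_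
    refine (closedBall_subset_closedBall' ?_).trans hball
    rw [mem_ball] at hx'
    linarith
  · intro x' hx'
    rw [hcard]
    refine le_trans (measureReal_mono (inter_subset_inter_right _ (ball_subset_ball' ?_))) hb
    rw [mem_ball] at hx'
    linarith

end Vale.Agent.P214
end
end

section

section

/-! Approximate continuity of the tangent planes. -/

open Set Filter Topology MeasureTheory Metric
open scoped RealInnerProductSpace ENNReal

namespace Vale.Agent.P214

set_option linter.unusedSectionVars false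

variable {E : Type*} [NormedAddCommGroup E] [InnerProductSpace ℝ E] [FiniteDimensional ℝ E]
  [MeasurableSpace E] [BorelSpace E]

variable {x y : E} {r : ℝ} {m : ℕ} {O : Set E} {ν : Measure E} {P : E → E →L[ℝ] E}

lemma LocStat.integrable [IsFiniteMeasure ν] (h : LocStat m O ν P) : Integrable P ν :=
  (integrable_const (1:ℝ)).mono' h.meas h.norm_le

lemma LocStat.integrableOn_tiltsq [IsFiniteMeasure ν] (h : LocStat m O ν P) (Q : E →L[ℝ] E)
    (A : Set E) : IntegrableOn (fun z => ‖P z - Q‖ ^ 2) A ν := by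
  have hM : AEStronglyMeasurable (fun z => ‖P z - Q‖ ^ 2) ν :=
    ((h.meas.sub aestronglyMeasurable_const).norm).pow 2
  refine Integrable.integrableOn ?_
  refine (integrable_const ((1 + ‖Q‖) ^ 2)).mono' hM ?_
  filter_upwards [h.norm_le] with z hz
  rw [Real.norm_of_nonneg (by positivity)]
  have h1 : ‖P z - Q‖ ≤ 1 + ‖Q‖ := (norm_sub_le _ _).trans (by gcongr)
  exact pow_le_pow_left₀ (norm_nonneg _) h1 2

/-- the tangent planes are approximately continuous almost everywhere -/
lemma LocStat.approx_cont [IsFiniteMeasure ν] (h : LocStat m O ν P) :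
    ∀ᵐ x ∂ν, x ∈ O → ∀ ε > 0, ∀ᶠ s in 𝓝[>] (0:ℝ),
      ∫ y in ball x s, ‖P y - P x‖ ^ 2 ∂ν ≤ ε * s ^ m := by
  have h1 := (Besicovitch.vitaliFamily ν).ae_tendsto_average_norm_sub
    h.integrable.locallyIntegrable
  filter_upwards [h1, h.norm_le] with x hx hPx hxO ε hε
  have h2 := hx.comp (Besicovitch.tendsto_filterAt ν x)
  -- mass bound
  obtain ⟨r₁, hr₁, hball⟩ : ∃ r₁ > 0, closedBall x r₁ ⊆ O :=
    nhds_basis_closedBall.mem_iff.1 (h.isOpen.mem_nhds hxO)
  set M := 4 ^ (m + 1) * ν.real univ / r₁ ^ m + 1 with hM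
  have hM0 : 0 < M := by positivity
  have h3 := h2.eventually (gt_mem_nhds (show 0 < ε / (2 * M) by positivity))
  have h4 : ∀ᶠ s in 𝓝[>] (0:ℝ), s ∈ Ioc (0:ℝ) (r₁ / 4) := Ioc_mem_nhdsGT (by positivity)
  filter_upwards [h3, h4] with s hs hs4
  have hs0 : 0 < s := hs4.1
  have hmass : ν.real (closedBall x s) ≤ M * s ^ m := by
    have h5 := h.mass_bound (x := x) hs0 (by linarith [hs4.2] : 4 * s ≤ r₁) hball
    have h6 : ν.real (closedBall x s) ≤ ν.real (ball x (2 * s)) :=
      measureReal_mono (closedBall_subset_ball (by linarith))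
    have h7 : 0 ≤ s ^ m := by positivity
    rw [hM]; nlinarith
  have hint2 : IntegrableOn (fun y => ‖P y - P x‖) (closedBall x s) ν :=
    ((h.integrable.sub (integrable_const (P x))).norm).integrableOn
  have h5 : ∫ y in ball x s, ‖P y - P x‖ ^ 2 ∂ν ≤ 2 * ∫ y in closedBall x s, ‖P y - P x‖ ∂ν := by
    calc ∫ y in ball x s, ‖P y - P x‖ ^ 2 ∂ν
        ≤ ∫ y in closedBall x s, ‖P y - P x‖ ^ 2 ∂ν :=
          setIntegral_mono_set (h.integrableOn_tiltsq _ _)
            (Eventually.of_forall fun y => by simp only [Pi.zero_apply]; positivity)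
            (Eventually.of_forall ball_subset_closedBall)
      _ ≤ ∫ y in closedBall x s, 2 * ‖P y - P x‖ ∂ν := by
          refine integral_mono_ae (h.integrableOn_tiltsq _ _) (hint2.const_mul 2) ?_
          filter_upwards [ae_restrict_of_ae h.norm_le] with y hy
          have h6 : ‖P y - P x‖ ≤ 2 := (norm_sub_le _ _).trans (by linarith)
          have h7 : 0 ≤ ‖P y - P x‖ := norm_nonneg _
          show ‖P y - P x‖ ^ 2 ≤ 2 * ‖P y - P x‖
          nlinarith
      _ = _ := integral_const_mul _ _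
  have h6 : ∫ y in closedBall x s, ‖P y - P x‖ ∂ν ≤ ε / 2 * s ^ m := by
    have h7 : (⨍ y in closedBall x s, ‖P y - P x‖ ∂ν) < ε / (2 * M) := hs
    rw [setAverage_eq, smul_eq_mul] at h7
    rcases eq_or_lt_of_le (measureReal_nonneg (μ := ν) (s := closedBall x s)) with h0 | h0
    · have h8 : ν (closedBall x s) = 0 := by
        rw [← measureReal_eq_zero_iff]; exact h0.symm
      rw [Measure.restrict_eq_zero.2 h8, integral_zero_measure]
      positivity
    · rw [inv_mul_lt_iff₀ h0] at h7
      calc _ ≤ ν.real (closedBall x s) * (ε / (2 * M)) := h7.le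
        _ ≤ M * s ^ m * (ε / (2 * M)) := by gcongr
        _ = ε / 2 * s ^ m := by field_simp
  calc _ ≤ _ := h5
    _ ≤ 2 * (ε / 2 * s ^ m) := by gcongr
    _ = ε * s ^ m := by ring

end Vale.Agent.P214
end
end

section

section

/-! More linear algebra: second form of the tilt identity, compactness of planes, spectral
lemma. -/

open Set Filter Topology MeasureTheory Metric
open scoped RealInnerProductSpace

namespace Vale.Agent.P214

set_option linter.unusedSectionVars false

variable {E : Type*} [NormedAddCommGroup E] [InnerProductSpace ℝ E] [FiniteDimensional ℝ E]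
  [MeasurableSpace E] [BorelSpace E]

/-- the tilt identity, second form -/
lemma half_norm_sq_le' {m : ℕ} {T T₀ : Submodule ℝ E} (hT : Module.finrank ℝ T = m)
    (hT₀ : Module.finrank ℝ T₀ = m) {κ : Type*} [Fintype κ]
    (t : OrthonormalBasis κ ℝ T₀) :
    ‖T.starProjection - T₀.starProjection‖ ^ 2 / 2
      ≤ ∑ k, ‖(t k : E) - T.starProjection (t k : E)‖ ^ 2 := by
  set b := stdOrthonormalBasis ℝ E with hb
  set P := T.starProjection with hP
  set Q := T₀.starProjection with hQ
  have h1 := norm_sq_le_sum b (P - Q)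
  have hPP : ∀ v, ⟪P v, P v⟫ = ⟪v, P v⟫ := fun v => by
    rw [hP, Submodule.inner_starProjection_left_eq_right,
      (Submodule.starProjection_eq_self_iff).2 (T.starProjection_apply_mem v)]
  have hQQ : ∀ v, ⟪Q v, Q v⟫ = ⟪v, Q v⟫ := fun v => by
    rw [hQ, Submodule.inner_starProjection_left_eq_right,
      (Submodule.starProjection_eq_self_iff).2 (T₀.starProjection_apply_mem v)]
  have hcomp : ∀ v, Q v = ∑ k, ⟪(t k : E), v⟫ • (t k : E) := by
    intro v
    have h3 := t.sum_repr' (T₀.orthogonalProjectionOnto v)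
    have h4 : Q v = ((T₀.orthogonalProjectionOnto v : T₀) : E) := rfl
    rw [h4, ← h3]
    simp only [Submodule.coe_sum, Submodule.coe_smul, Submodule.coe_inner]
    refine Finset.sum_congr rfl fun k _ => ?_
    congr 1
    have h5 : ⟪(t k : E), T₀.starProjection v⟫ = ⟪(t k : E), v⟫ := by
      rw [← Submodule.inner_starProjection_left_eq_right,
        (Submodule.starProjection_eq_self_iff).2 (t k).2]
    simpa using h5
  have hterm : ∀ v, ‖(P - Q) v‖ ^ 2 = ⟪v, P v⟫ + ⟪v, Q v⟫
      - 2 * ∑ k, ⟪v, (t k : E)⟫ * ⟪P v, (t k : E)⟫ := by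
    intro v
    have h3 : ⟪P v, Q v⟫ = ∑ k, ⟪v, (t k : E)⟫ * ⟪P v, (t k : E)⟫ := by
      rw [hcomp, inner_sum]
      refine Finset.sum_congr rfl fun k _ => ?_
      rw [inner_smul_right, real_inner_comm v]
    rw [_root_.sub_apply, ← real_inner_self_eq_norm_sq, inner_sub_sub_self]
    simp only [real_inner_comm (P v) (Q v)]
    rw [hPP, hQQ, h3]; ring
  have hcard : (Fintype.card κ : ℝ) = m := by
    rw [← hT₀, ← Module.finrank_eq_card_basis t.toBasis]
  have hk : ∀ k, ‖(t k : E) - P (t k : E)‖ ^ 2 = 1 - ⟪(t k : E), P (t k : E)⟫ := by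
    intro k
    have hn : ‖(t k : E)‖ = 1 := t.orthonormal.1 k
    rw [← real_inner_self_eq_norm_sq, inner_sub_sub_self]
    simp only [real_inner_comm (t k : E) (P (t k : E))]
    rw [hPP, real_inner_self_eq_norm_sq, hn, real_inner_comm]; ring
  have hsum : ∑ i, ‖(P - Q) (b i)‖ ^ 2 = 2 * ∑ k, ‖(t k : E) - P (t k : E)‖ ^ 2 := by
    simp only [hterm, hk]
    rw [Finset.sum_sub_distrib, Finset.sum_add_distrib, hP, hQ, sum_inner_proj, sum_inner_proj,
      hT, hT₀, ← Finset.mul_sum, Finset.sum_comm, Finset.sum_sub_distrib, Finset.sum_const,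
      Finset.card_univ, nsmul_eq_mul, mul_one, hcard]
    have h4 : ∀ k, ∑ i, ⟪b i, (t k : E)⟫ * ⟪T.starProjection (b i), (t k : E)⟫
        = ⟪(t k : E), T.starProjection (t k : E)⟫ := fun k => by
      have h5 : ∀ i, ⟪b i, (t k : E)⟫ * ⟪T.starProjection (b i), (t k : E)⟫
        = ⟪(t k : E), b i⟫ * ⟪b i, T.starProjection (t k : E)⟫ := fun i => by
        rw [Submodule.inner_starProjection_left_eq_right, real_inner_comm (b i)]
      simp only [h5]
      exact b.sum_inner_mul_inner _ _
    simp only [h4]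
    ring
  rw [hsum] at h1
  linarith

/-- compactness of the set of `m`-planes -/
lemma exists_limit_plane {m : ℕ} (T : ℕ → Submodule ℝ E) (hT : ∀ j, Module.finrank ℝ (T j) = m) :
    ∃ T₀ : Submodule ℝ E, Module.finrank ℝ T₀ = m ∧ ∃ φ : ℕ → ℕ, StrictMono φ ∧
      Tendsto (fun j => (T (φ j)).starProjection) atTop (𝓝 T₀.starProjection) := by
  have hprop : ProperSpace (E →L[ℝ] E) := FiniteDimensional.proper ℝ _
  have hmem : ∀ j, (T j).starProjection ∈ closedBall (0 : E →L[ℝ] E) 1 := fun j => by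
    rw [mem_closedBall, dist_zero_right]; exact (T j).starProjection_norm_le
  obtain ⟨A, -, φ, hφ, hlim⟩ := tendsto_subseq_of_bounded (isBounded_closedBall) hmem
  have hA1 : IsStarProjection A := by
    refine ⟨?_, ?_⟩
    · have h1 : Tendsto (fun j => (T (φ j)).starProjection * (T (φ j)).starProjection) atTop
          (𝓝 (A * A)) := hlim.mul hlim
      have h2 : ∀ j, (T (φ j)).starProjection * (T (φ j)).starProjection
          = (T (φ j)).starProjection := fun j =>
        (isStarProjection_starProjection (U := T (φ j))).1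
      simp only [h2] at h1
      exact tendsto_nhds_unique h1 hlim
    · have h1 : Tendsto (fun j => star ((T (φ j)).starProjection)) atTop (𝓝 (star A)) :=
        hlim.star
      have h2 : ∀ j, star ((T (φ j)).starProjection) = (T (φ j)).starProjection := fun j =>
        (isStarProjection_starProjection (U := T (φ j))).2
      simp only [h2] at h1
      exact tendsto_nhds_unique h1 hlim
  obtain ⟨K, _, hK⟩ := isStarProjection_iff_eq_starProjection.1 hA1
  refine ⟨K, ?_, φ, hφ, ?_⟩
  · set b := stdOrthonormalBasis ℝ E with hb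
    have h1 : Tendsto (fun j => ∑ k, ⟪b k, (T (φ j)).starProjection (b k)⟫) atTop
        (𝓝 (∑ k, ⟪b k, A (b k)⟫)) := by
      refine tendsto_finsetSum _ fun k _ => ?_
      refine Tendsto.inner tendsto_const_nhds ?_
      have := ((ContinuousLinearMap.apply ℝ E (b k)).continuous.tendsto A).comp hlim
      exact this
    have h2 : ∀ j, ∑ k, ⟪b k, (T (φ j)).starProjection (b k)⟫ = (m : ℝ) := fun j => by
      rw [sum_inner_proj, hT]
    simp only [h2] at h1
    have h3 := tendsto_nhds_unique h1 tendsto_const_nhds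
    rw [hK] at h3
    have h4 := sum_inner_proj K b
    have h5 : (Module.finrank ℝ K : ℝ) = m := h4.symm.trans h3
    exact_mod_cast h5
  · rw [← hK]; exact hlim

/-- Spectral alternative for a symmetric positive operator `S`: either there is an `m`-plane on
which `S` is small, or `S` is bounded below transversally to a plane of smaller dimension. -/
lemma spectral_alt {m : ℕ} (hm : 1 ≤ m) {S : E →L[ℝ] E} (hS : ∀ v w, ⟪S v, w⟫ = ⟪v, S w⟫)
    (hpos : ∀ v, 0 ≤ ⟪S v, v⟫) {τ : ℝ} (hτ : 0 < τ) :
    (∃ T : Submodule ℝ E, Module.finrank ℝ T = m ∧ ∃ t : OrthonormalBasis (Fin m) ℝ T,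
      ∀ k, ⟪S (t k : E), (t k : E)⟫ < τ) ∨
    (∃ L : Submodule ℝ E, Module.finrank ℝ L ≤ m - 1 ∧
      ∀ w, τ * ‖w - L.starProjection w‖ ^ 2 ≤ ⟪S w, w⟫) := by
  classical
  have hsym : (S : E →ₗ[ℝ] E).IsSymmetric := fun v w => hS v w
  set b := hsym.eigenvectorBasis rfl with hb
  set lam := hsym.eigenvalues rfl with hlam
  have hSb : ∀ i, S (b i) = lam i • b i := fun i => hsym.apply_eigenvectorBasis rfl i
  have hlami : ∀ i, ⟪S (b i), b i⟫ = lam i := fun i => by
    rw [hSb, inner_smul_left, real_inner_self_eq_norm_sq, b.orthonormal.1 i]; simp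
  have hlam0 : ∀ i, 0 ≤ lam i := fun i => by rw [← hlami]; exact hpos _
  set J := Finset.univ.filter fun i => lam i < τ with hJ
  rcases le_or_gt m J.card with hcard | hcard
  · left
    obtain ⟨J', hJ', hJ'card⟩ := Finset.exists_subset_card_eq hcard
    have e : Fin m ≃ J' := (J'.equivFinOfCardEq hJ'card).symm
    set T := Submodule.span ℝ ((J'.image b : Finset E) : Set E) with hTdef
    set t0 := OrthonormalBasis.span b.orthonormal J' with ht0
    have hfin : Module.finrank ℝ T = m := by
      rw [Module.finrank_eq_card_basis t0.toBasis, Fintype.card_coe, hJ'card]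
    refine ⟨T, hfin, t0.reindex e.symm, fun k => ?_⟩
    rw [OrthonormalBasis.reindex_apply]
    have h1 : ((t0 (e.symm.symm k) : T) : E) = b (e.symm.symm k : J') :=
      OrthonormalBasis.span_apply b.orthonormal J' _
    rw [h1, hlami]
    have h2 := hJ' (e.symm.symm k).2
    exact (Finset.mem_filter.1 h2).2
  · right
    set L := Submodule.span ℝ ((J.image b : Finset E) : Set E) with hLdef
    refine ⟨L, ?_, fun w => ?_⟩
    · have h1 : Module.finrank ℝ L ≤ (J.image b).card := finrank_span_finset_le_card _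
      have h2 : (J.image b).card ≤ J.card := Finset.card_image_le
      omega
    · -- the comparison vector
      set u := ∑ i ∈ J, ⟪b i, w⟫ • b i with hu
      have huL : u ∈ L := by
        refine Submodule.sum_mem _ fun i hi => Submodule.smul_mem _ _ (Submodule.subset_span ?_)
        simpa using ⟨i, hi, rfl⟩
      have hle : ‖w - L.starProjection w‖ ≤ ‖w - u‖ := by
        have h1 := Submodule.starProjection_minimal (U := L) w
        rw [h1]
        exact ciInf_le ⟨0, by rintro _ ⟨x, rfl⟩; exact norm_nonneg _⟩ (⟨u, huL⟩ : L)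
      have hwu : w - u = ∑ i ∈ Jᶜ, ⟪b i, w⟫ • b i := by
        have h1 : w = ∑ i ∈ J, ⟪b i, w⟫ • b i + ∑ i ∈ Jᶜ, ⟪b i, w⟫ • b i := by
          rw [Finset.sum_add_sum_compl J, b.sum_repr' w]
        rw [← hu] at h1
        rw [sub_eq_iff_eq_add, add_comm]
        exact h1
      have hnorm : ‖w - u‖ ^ 2 = ∑ i ∈ Jᶜ, ⟪b i, w⟫ ^ 2 := by
        rw [hwu, ← real_inner_self_eq_norm_sq, b.orthonormal.inner_sum]
        refine Finset.sum_congr rfl fun i _ => ?_
        simp [sq]
      have hform : ⟪S w, w⟫ = ∑ i, lam i * ⟪b i, w⟫ ^ 2 := by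
        have h1 : S w = ∑ i, (lam i * ⟪b i, w⟫) • b i := by
          conv_lhs => rw [← b.sum_repr' w]
          rw [map_sum]
          refine Finset.sum_congr rfl fun i _ => ?_
          rw [map_smul, hSb, smul_smul, mul_comm]
        rw [h1, sum_inner]
        refine Finset.sum_congr rfl fun i _ => ?_
        rw [inner_smul_left]; simp; ring
      rw [hform]
      calc τ * ‖w - L.starProjection w‖ ^ 2 ≤ τ * ‖w - u‖ ^ 2 := by gcongr
        _ = ∑ i ∈ Jᶜ, τ * ⟪b i, w⟫ ^ 2 := by rw [hnorm, Finset.mul_sum]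
        _ ≤ ∑ i ∈ Jᶜ, lam i * ⟪b i, w⟫ ^ 2 := by
            refine Finset.sum_le_sum fun i hi => ?_
            have : τ ≤ lam i := by
              by_contra hcon
              rw [not_le] at hcon
              exact (Finset.mem_compl.1 hi) (Finset.mem_filter.2 ⟨Finset.mem_univ _, hcon⟩)
            gcongr
        _ ≤ ∑ i, lam i * ⟪b i, w⟫ ^ 2 :=
            Finset.sum_le_sum_of_subset_of_nonneg (Finset.subset_univ _) fun i _ _ =>
              mul_nonneg (hlam0 i) (sq_nonneg _)

end Vale.Agent.P214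
end
end

section

section

/-! Quantitative stratification: points which are not plane-like form a set of dimension at most
`m - 1`. -/

open Set Filter Topology MeasureTheory Metric
open scoped RealInnerProductSpace ENNReal

namespace Vale.Agent.P214

set_option linter.unusedSectionVars false

variable {E : Type*} [NormedAddCommGroup E] [InnerProductSpace ℝ E] [FiniteDimensional ℝ E]
  [MeasurableSpace E] [BorelSpace E]

variable {x y : E} {r : ℝ} {m : ℕ} {O : Set E} {ν : Measure E} {P : E → E →L[ℝ] E}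

/-- the averaged normal operator -/
noncomputable def nop (ν : Measure E) (P : E → E →L[ℝ] E) (x : E) (r : ℝ) : E →L[ℝ] E :=
  ∫ z in ball x r, (ContinuousLinearMap.id ℝ E - P z) ∂ν

lemma LocStat.inner_nop [IsFiniteMeasure ν] (h : LocStat m O ν P) (x : E) (r : ℝ) (v w : E) :
    ⟪nop ν P x r v, w⟫ = ∫ z in ball x r, ⟪v - P z v, w⟫ ∂ν := by
  have hint : IntegrableOn (fun z => ContinuousLinearMap.id ℝ E - P z) (ball x r) ν :=
    ((integrable_const _).sub h.integrable).integrableOn
  unfold nop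
  rw [ContinuousLinearMap.integral_apply hint, real_inner_comm]
  have hint2 : IntegrableOn (fun z => (ContinuousLinearMap.id ℝ E - P z) v) (ball x r) ν :=
    ((ContinuousLinearMap.apply ℝ E v).integrable_comp hint :)
  rw [← integral_inner hint2]
  refine integral_congr_ae (Eventually.of_forall fun z => ?_)
  simp only [_root_.sub_apply, ContinuousLinearMap.id_apply]
  rw [real_inner_comm]

lemma LocStat.nop_form [IsFiniteMeasure ν] (h : LocStat m O ν P) (x : E) (r : ℝ) (w : E) :
    ⟪nop ν P x r w, w⟫ = ∫ z in ball x r, ‖w - P z w‖ ^ 2 ∂ν := by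
  rw [h.inner_nop]
  refine integral_congr_ae ?_
  filter_upwards [ae_restrict_of_ae h.proj] with z hz
  obtain ⟨T, -, hT⟩ := hz
  rw [hT, ← real_inner_self_eq_norm_sq, inner_sub_right (w - T.starProjection w)]
  have h1 : ⟪w - T.starProjection w, T.starProjection w⟫ = 0 :=
    Submodule.starProjection_inner_eq_zero w _ (T.starProjection_apply_mem w)
  rw [h1, sub_zero]

lemma LocStat.nop_symm [IsFiniteMeasure ν] (h : LocStat m O ν P) (x : E) (r : ℝ) (v w : E) :
    ⟪nop ν P x r v, w⟫ = ⟪v, nop ν P x r w⟫ := by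
  rw [h.inner_nop, ← real_inner_comm v, h.inner_nop]
  refine integral_congr_ae ?_
  filter_upwards [ae_restrict_of_ae h.proj] with z hz
  obtain ⟨T, -, hT⟩ := hz
  rw [hT, inner_sub_left, inner_sub_left, Submodule.inner_starProjection_left_eq_right,
    real_inner_comm w v, real_inner_comm (T.starProjection w)]

lemma LocStat.integrableOn_normal [IsFiniteMeasure ν] (h : LocStat m O ν P) (w : E) (A : Set E) :
    IntegrableOn (fun z => ‖w - P z w‖ ^ 2) A ν := by
  have hM : AEStronglyMeasurable (fun z => ‖w - P z w‖ ^ 2) ν :=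
    ((aestronglyMeasurable_const.sub (aesm_clm_apply h.meas aestronglyMeasurable_const)).norm).pow 2
  refine Integrable.integrableOn ?_
  refine (integrable_const ((2 * ‖w‖) ^ 2)).mono' hM ?_
  filter_upwards [h.norm_le] with z hz
  rw [Real.norm_of_nonneg (by positivity)]
  have h1 : ‖w - P z w‖ ≤ 2 * ‖w‖ := by
    calc ‖w - P z w‖ ≤ ‖w‖ + ‖P z w‖ := norm_sub_le _ _
      _ ≤ ‖w‖ + 1 * ‖w‖ := by
          gcongr; exact (P z).le_of_opNorm_le hz w
      _ = 2 * ‖w‖ := by ring
  exact pow_le_pow_left₀ (norm_nonneg _) h1 2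

/-- cone splitting, integral form -/
lemma LocStat.form_le [IsFiniteMeasure ν] (h : LocStat m O ν P) (hr : 0 < r)
    (hx : closedBall x (8 * r) ⊆ O) (hy : closedBall y (8 * r) ⊆ O) {η : ℝ}
    (hdx : ratio m ν x (8 * r) - ratio m ν x (4 * r) ≤ η)
    (hdy : ratio m ν y (8 * r) - ratio m ν y (4 * r) ≤ η) (hxy : dist y x ≤ r) :
    ⟪nop ν P x r (y - x), y - x⟫ ≤ 4 * ((8 * r) ^ (m + 2) * η) := by
  have e1 : 2 * (4 * r) = 8 * r := by ring
  have e2 : 4 * r / 2 = 2 * r := by ring
  have e3 : (8 * r) ^ (m + 3) / (8 * r) = (8 * r) ^ (m + 2) := by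
    rw [pow_succ (8 * r) (m + 2)]; field_simp
  have hDx := h.deficit (x := x) (r := 4 * r) (by linarith) (by rw [e1]; exact hx)
  have hDy := h.deficit (x := y) (r := 4 * r) (by linarith) (by rw [e1]; exact hy)
  rw [e1, e2, e3] at hDx hDy
  have hDx' : ∫ z in closedBall x (2 * r), ‖(z - x) - P z (z - x)‖ ^ 2 ∂ν
      ≤ (8 * r) ^ (m + 2) * η := hDx.trans (by gcongr)
  have hDy' : ∫ z in closedBall y (2 * r), ‖(z - y) - P z (z - y)‖ ^ 2 ∂ν
      ≤ (8 * r) ^ (m + 2) * η := hDy.trans (by gcongr)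
  rw [h.nop_form]
  set w := y - x with hw
  set G := ball x r with hG
  have hGx : G ⊆ closedBall x (2 * r) := fun z hz => by
    rw [hG, mem_ball] at hz; rw [mem_closedBall]; linarith
  have hGy : G ⊆ closedBall y (2 * r) := fun z hz => by
    rw [hG, mem_ball] at hz; rw [mem_closedBall]
    calc dist z y ≤ dist z x + dist x y := dist_triangle _ _ _
      _ ≤ r + r := by rw [dist_comm x y]; gcongr
      _ = 2 * r := by ring
  have hIx := h.integrableOn_tilt x x (2 * r)
  have hIy := h.integrableOn_tilt y y (2 * r)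
  have h1 : ∫ z in G, ‖w - P z w‖ ^ 2 ∂ν
      ≤ ∫ z in G, (2 * ‖(z - x) - P z (z - x)‖ ^ 2 + 2 * ‖(z - y) - P z (z - y)‖ ^ 2) ∂ν := by
    refine setIntegral_mono_on (h.integrableOn_normal w G)
      (((hIx.mono_set hGx).const_mul 2).add ((hIy.mono_set hGy).const_mul 2))
      measurableSet_ball fun z _ => ?_
    have h2 : w - P z w = ((z - x) - P z (z - x)) - ((z - y) - P z (z - y)) := by
      have : w = (z - x) - (z - y) := by rw [hw]; abel
      rw [this, map_sub]; abel
    rw [h2]
    set a := (z - x) - P z (z - x)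
    set b := (z - y) - P z (z - y)
    have h3 : ‖a - b‖ ≤ ‖a‖ + ‖b‖ := norm_sub_le _ _
    have h4 : ‖a - b‖ ^ 2 ≤ (‖a‖ + ‖b‖) ^ 2 := pow_le_pow_left₀ (norm_nonneg _) h3 2
    nlinarith [sq_nonneg (‖a‖ - ‖b‖)]
  refine h1.trans ?_
  rw [integral_add ((hIx.mono_set hGx).const_mul 2) ((hIy.mono_set hGy).const_mul 2),
    integral_const_mul, integral_const_mul]
  have h3 : ∫ z in G, ‖(z - x) - P z (z - x)‖ ^ 2 ∂ν
      ≤ ∫ z in closedBall x (2 * r), ‖(z - x) - P z (z - x)‖ ^ 2 ∂ν :=
    setIntegral_mono_set hIx (Eventually.of_forall fun z => by simp only [Pi.zero_apply]; positivity)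
      (Eventually.of_forall hGx)
  have h4 : ∫ z in G, ‖(z - y) - P z (z - y)‖ ^ 2 ∂ν
      ≤ ∫ z in closedBall y (2 * r), ‖(z - y) - P z (z - y)‖ ^ 2 ∂ν :=
    setIntegral_mono_set hIy (Eventually.of_forall fun z => by simp only [Pi.zero_apply]; positivity)
      (Eventually.of_forall hGy)
  linarith

/-- spread of the tangent planes at scale `r` -/
def Spread (m : ℕ) (ν : Measure E) (P : E → E →L[ℝ] E) (κ : ℝ) (x : E) (r : ℝ) : Prop :=
  ∀ T : Submodule ℝ E, Module.finrank ℝ T = m →
    κ * r ^ m ≤ ∫ z in ball x r, ‖P z - T.starProjection‖ ^ 2 ∂ν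

/-- **Splitting alternative**: at a scale where the tangent planes are spread, the points with
small deficit lie close to a plane of dimension at most `m - 1`. -/
lemma LocStat.flat_of_spread [IsFiniteMeasure ν] (h : LocStat m O ν P) (hm : 1 ≤ m) (hr : 0 < r)
    {κ : ℝ} (hκ : 0 < κ) (hsp : Spread m ν P κ x r) :
    ∃ L : Submodule ℝ E, Module.finrank ℝ L ≤ m - 1 ∧
      ∀ w, κ / (4 * m) * r ^ m * ‖w - L.starProjection w‖ ^ 2 ≤ ⟪nop ν P x r w, w⟫ := by
  have hmR : (0:ℝ) < m := by exact_mod_cast hm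
  rcases spectral_alt hm (h.nop_symm x r)
    (fun v => by
      rw [h.nop_form]; exact integral_nonneg fun z => by positivity)
    (τ := κ / (4 * m) * r ^ m) (by positivity) with ⟨T, hT, t, ht⟩ | hL
  · exfalso
    have h1 := hsp T hT
    have hint : ∀ k : Fin m, IntegrableOn (fun z => ‖(t k : E) - P z (t k : E)‖ ^ 2) (ball x r) ν :=
      fun k => h.integrableOn_normal _ _
    have h2 : ∫ z in ball x r, ‖P z - T.starProjection‖ ^ 2 ∂ν
        ≤ ∫ z in ball x r, 2 * ∑ k, ‖(t k : E) - P z (t k : E)‖ ^ 2 ∂ν := by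
      refine integral_mono_of_nonneg (Eventually.of_forall fun z => by
        simp only [Pi.zero_apply]; positivity)
        ((integrable_finsetSum _ fun k _ => hint k).const_mul 2) ?_
      filter_upwards [ae_restrict_of_ae h.proj] with z hz
      obtain ⟨T', hT', hPT'⟩ := hz
      have h3 := half_norm_sq_le' hT' hT t
      rw [← hPT'] at h3
      show ‖P z - T.starProjection‖ ^ 2 ≤ 2 * ∑ k, ‖(t k : E) - P z (t k : E)‖ ^ 2
      linarith
    rw [integral_const_mul, integral_finsetSum _ fun k _ => hint k] at h2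
    have h3 : ∑ k, ∫ z in ball x r, ‖(t k : E) - P z (t k : E)‖ ^ 2 ∂ν
        ≤ ∑ _k : Fin m, κ / (4 * m) * r ^ m :=
      Finset.sum_le_sum fun k _ => by
        have := ht k
        rw [h.nop_form] at this
        exact this.le
    rw [Finset.sum_const, Finset.card_univ, Fintype.card_fin, nsmul_eq_mul] at h3
    have h4 : (m : ℝ) * (κ / (4 * m) * r ^ m) = κ / 4 * r ^ m := by field_simp
    rw [h4] at h3
    have h5 : 0 < κ * r ^ m := by positivity
    nlinarith
  · exact hL

/-- the dimension bound for points with spread tangent planes -/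
theorem LocStat.dimH_strat [IsFiniteMeasure ν] (h : LocStat m O ν P) (hm : 1 ≤ m)
    {A : Set E} {r₀ : ℝ} (hr₀ : 0 < r₀) (hball : ∀ x ∈ A, closedBall x (8 * r₀) ⊆ O)
    (hA : ∀ x ∈ A, ∃ κ > 0, ∃ r₁ > 0, ∀ r, 0 < r → r ≤ r₁ → Spread m ν P κ x r) :
    dimH A ≤ ((m - 1 : ℕ) : ℝ≥0∞) := by
  classical
  have hmR : (0:ℝ) < m := by exact_mod_cast hm
  have hcov : A ⊆ ⋃ k : ℕ, {x ∈ A | ∀ r, 0 < r → r ≤ 1 / ((k:ℝ) + 1) →
      Spread m ν P (1 / ((k:ℝ) + 1)) x r} := by
    intro x hx
    obtain ⟨κ, hκ, r₁, hr₁, hsp⟩ := hA x hx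
    obtain ⟨k, hk⟩ := exists_nat_one_div_lt (lt_min hκ hr₁)
    refine mem_iUnion.2 ⟨k, hx, fun r hr hrk T hT => ?_⟩
    refine le_trans ?_ (hsp r hr (hrk.trans (hk.le.trans (min_le_right _ _))) T hT)
    gcongr
    exact hk.le.trans (min_le_left _ _)
  refine (dimH_mono hcov).trans ?_
  rw [dimH_iUnion]
  refine iSup_le fun k => ?_
  set κ : ℝ := 1 / ((k:ℝ) + 1) with hκdef
  have hκ : 0 < κ := by positivity
  refine dimH_le_of_flat _ (m - 1) fun rho hrho hrho1 => ?_
  -- choice of η
  set η := rho ^ 2 * (κ / (4 * m)) / (4 * 8 ^ (m + 2)) with hη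
  have hη0 : 0 < η := by positivity
  set r₂ := min r₀ κ with hr₂
  have hr₂0 : 0 < r₂ := lt_min hr₀ hκ
  refine ⟨fun j => {x ∈ {x ∈ A | ∀ r, 0 < r → r ≤ κ → Spread m ν P κ x r} |
    ∀ s, 0 < s → s ≤ r₂ / (j + 1) → ratio m ν x (8 * s) - ratio m ν x (4 * s) ≤ η}, ?_,
    fun j => ⟨r₂ / (j + 1), by positivity, ?_⟩⟩
  · intro x hx
    rw [mem_iUnion]
    set S := (fun s => ratio m ν x s) '' Ioc 0 (8 * r₀) with hS
    have hSne : S.Nonempty := ⟨_, 8 * r₀, ⟨by linarith, le_rfl⟩, rfl⟩
    have hSbd : BddBelow S := ⟨0, by rintro _ ⟨s, hs, rfl⟩; exact ratio_nonneg hs.1⟩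
    obtain ⟨_, ⟨s₁, hs₁, rfl⟩, hs₁'⟩ := exists_lt_of_csInf_lt hSne
      (by linarith : sInf S < sInf S + η)
    obtain ⟨j, hj⟩ := exists_nat_gt (r₀ / (s₁ / 8))
    refine ⟨j, hx, fun s hs hsj => ?_⟩
    have hs₁0 : 0 < s₁ := hs₁.1
    have hj0 : r₂ / ((j:ℝ) + 1) ≤ r₀ / ((j:ℝ) + 1) := by
      gcongr; exact min_le_left _ _
    have hj1 : r₀ / ((j:ℝ) + 1) ≤ s₁ / 8 := by
      rw [div_le_iff₀ (by positivity)]
      rw [div_lt_iff₀ (by positivity)] at hj
      nlinarith
    have h8s : 8 * s ≤ s₁ := by linarith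
    have h1 : ratio m ν x (8 * s) ≤ ratio m ν x s₁ :=
      h.ratio_mono (by linarith) h8s
        ((closedBall_subset_closedBall hs₁.2).trans (hball x hx.1))
    have h2 : sInf S ≤ ratio m ν x (4 * s) :=
      csInf_le hSbd ⟨4 * s, ⟨by linarith, by linarith [hs₁.2]⟩, rfl⟩
    linarith
  · rintro x ⟨⟨hxA, hxsp⟩, hx⟩ r hr hrj
    have hj1 : r₂ / ((j:ℝ) + 1) ≤ r₂ := div_le_self hr₂0.le (by
      have : (0:ℝ) ≤ j := Nat.cast_nonneg j
      linarith)
    have hrr : r ≤ r₀ := hrj.trans (hj1.trans (min_le_left _ _))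
    have hrκ : r ≤ κ := hrj.trans (hj1.trans (min_le_right _ _))
    obtain ⟨L, hL, hLw⟩ := h.flat_of_spread hm hr hκ (hxsp r hr hrκ)
    refine ⟨L, hL, ?_⟩
    rintro y ⟨⟨hyA, -⟩, hy⟩ hxy
    have hbx : closedBall x (8 * r) ⊆ O :=
      (closedBall_subset_closedBall (by linarith)).trans (hball x hxA)
    have hby : closedBall y (8 * r) ⊆ O :=
      (closedBall_subset_closedBall (by linarith)).trans (hball y hyA)
    have h1 := (hLw (y - x)).trans (h.form_le hr hbx hby (hx r hr hrj) (hy r hr hrj) hxy)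
    set d := ‖(y - x) - L.starProjection (y - x)‖ with hd
    have h2 : κ / (4 * m) * r ^ m * d ^ 2 ≤ κ / (4 * m) * r ^ m * (rho * r) ^ 2 := by
      refine h1.trans (le_of_eq ?_)
      rw [hη, mul_pow (8:ℝ) r, pow_add r m 2, mul_pow]
      field_simp
    have h3 : 0 < κ / (4 * m) * r ^ m := by positivity
    have h4 : d ^ 2 ≤ (rho * r) ^ 2 := le_of_mul_le_mul_left h2 h3
    exact (pow_le_pow_iff_left₀ (norm_nonneg _) (by positivity) two_ne_zero).1 h4

end Vale.Agent.P214
end
end

section

section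

/-! Sets of measure zero with a lower density bound are Hausdorff null. -/

open Set Filter Topology MeasureTheory Metric
open scoped ENNReal NNReal

namespace Vale.Agent.P214

set_option linter.unusedSectionVars false

variable {E : Type*} [NormedAddCommGroup E] [InnerProductSpace ℝ E] [FiniteDimensional ℝ E]
  [MeasurableSpace E] [BorelSpace E]

lemma ediam_closedBall_le' (y : E) {t : ℝ} (ht : 0 ≤ t) :
    Metric.ediam (closedBall y t) ≤ ENNReal.ofReal (2 * t) := by
  rw [← Metric.closedEBall_ofReal ht]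
  refine Metric.ediam_closedEBall_le.trans (le_of_eq ?_)
  rw [ENNReal.ofReal_mul (by norm_num)]
  norm_num

lemma hausdorff_null_uniform (μ : Measure E) [IsFiniteMeasure μ] {A : Set E} {m : ℕ} {c : ℝ}
    (hc : 0 < c) (hA : μ A = 0) {r0 : ℝ} (hr0 : 0 < r0)
    (h : ∀ x ∈ A, ∀ r, 0 < r → r < r0 → c * r ^ m ≤ μ.real (closedBall x r)) :
    μH[m] A = 0 := by
  -- coverings at every scale
  have key : ∀ n : ℕ, ∃ (u : Set E) (ρ : E → ℝ), u.Countable ∧
      (∀ y ∈ u, 0 < ρ y ∧ ρ y ≤ 1 / (n + 1)) ∧ A ⊆ ⋃ y ∈ u, closedBall y (5 * ρ y) ∧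
      ∑' y : u, ENNReal.ofReal ((ρ y) ^ m) ≤ ENNReal.ofReal (1 / c * (1 / (n + 1))) := by
    intro n
    have hn : (0:ℝ) < 1 / (n + 1) := by positivity
    obtain ⟨W, hAW, hWo, hW⟩ := A.exists_isOpen_lt_of_lt (μ := μ) (ENNReal.ofReal (1 / (n + 1)))
      (by rw [hA]; exact ENNReal.ofReal_pos.2 hn)
    have hex : ∀ x : E, ∃ ρ : ℝ, x ∈ A → 0 < ρ ∧ ρ ≤ 1 / (n + 1) ∧ ρ < r0 ∧ closedBall x ρ ⊆ W := by
      intro x
      by_cases hx : x ∈ A
      · obtain ⟨s, hs, hsW⟩ := nhds_basis_closedBall.mem_iff.1 (hWo.mem_nhds (hAW hx))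
        refine ⟨min s (min (1 / (n + 1)) (r0 / 2)), fun _ => ⟨?_, ?_, ?_, ?_⟩⟩
        · exact lt_min hs (lt_min hn (by linarith))
        · exact (min_le_right _ _).trans (min_le_left _ _)
        · exact lt_of_le_of_lt ((min_le_right _ _).trans (min_le_right _ _)) (by linarith)
        · exact (closedBall_subset_closedBall (min_le_left _ _)).trans hsW
      · exact ⟨0, fun h => absurd h hx⟩
    choose ρ hρ using hex
    obtain ⟨u, huA, hdisj, hcov⟩ := Vitali.exists_disjoint_subfamily_covering_enlargement_closedBall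
      A (fun x => x) ρ (1 / (n + 1)) (fun a ha => (hρ a ha).2.1) 5 (by norm_num)
    have hucount : u.Countable := by
      refine hdisj.countable_of_nonempty_interior fun y hy => ?_
      exact (nonempty_ball.2 (hρ y (huA hy)).1).mono ball_subset_interior_closedBall
    refine ⟨u, ρ, hucount, fun y hy => ⟨(hρ y (huA hy)).1, (hρ y (huA hy)).2.1⟩, ?_, ?_⟩
    · intro a ha
      obtain ⟨b, hb, hab⟩ := hcov a ha
      exact mem_biUnion hb (hab (mem_closedBall_self (hρ a ha).1.le))
    · have h1 : ∀ y : u, ENNReal.ofReal ((ρ y) ^ m)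
          ≤ ENNReal.ofReal (1 / c) * μ (closedBall (y : E) (ρ y)) := by
        intro y
        have hy := hρ y (huA y.2)
        have h2 := h y (huA y.2) (ρ y) hy.1 hy.2.2.1
        have h3 : (ρ y) ^ m ≤ 1 / c * μ.real (closedBall (y : E) (ρ y)) := by
          rw [one_div, ← div_eq_inv_mul, le_div_iff₀ hc]; linarith
        calc ENNReal.ofReal ((ρ y) ^ m)
            ≤ ENNReal.ofReal (1 / c * μ.real (closedBall (y : E) (ρ y))) :=
              ENNReal.ofReal_le_ofReal h3
          _ = _ := by rw [ENNReal.ofReal_mul (by positivity), ofReal_measureReal]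
      calc ∑' y : u, ENNReal.ofReal ((ρ y) ^ m)
          ≤ ∑' y : u, ENNReal.ofReal (1 / c) * μ (closedBall (y : E) (ρ y)) :=
            ENNReal.tsum_le_tsum h1
        _ = ENNReal.ofReal (1 / c) * ∑' y : u, μ (closedBall (y : E) (ρ y)) :=
            ENNReal.tsum_mul_left
        _ = ENNReal.ofReal (1 / c) * μ (⋃ y ∈ u, closedBall y (ρ y)) := by
            rw [measure_biUnion hucount hdisj fun y _ => measurableSet_closedBall]
        _ ≤ ENNReal.ofReal (1 / c) * μ W := by
            gcongr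
            exact iUnion₂_subset fun y hy => (hρ y (huA hy)).2.2.2
        _ ≤ ENNReal.ofReal (1 / c) * ENNReal.ofReal (1 / (n + 1)) := by gcongr
        _ = _ := by rw [← ENNReal.ofReal_mul (by positivity)]
  choose u ρ hucount hρ hcov hsum using key
  have hcountable : ∀ n, Countable (u n) := fun n => (hucount n).to_subtype
  have hlim1 : Tendsto (fun n : ℕ => (1:ℝ) / (n + 1)) atTop (𝓝 0) :=
    tendsto_one_div_add_atTop_nhds_zero_nat
  have hlim2 : Tendsto (fun n : ℕ => ENNReal.ofReal (10 * (1 / (n + 1)))) atTop (𝓝 0) := by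
    have h1 := (hlim1.const_mul 10)
    rw [mul_zero] at h1
    have h2 := (ENNReal.continuous_ofReal.tendsto 0).comp h1
    have h3 : ENNReal.ofReal 0 = 0 := ENNReal.ofReal_zero
    rw [h3] at h2
    exact h2
  have hmain := Measure.hausdorffMeasure_le_liminf_tsum (ι := fun n : ℕ => u n) (m : ℝ) A
    (l := atTop) (fun n : ℕ => ENNReal.ofReal (10 * (1 / (n + 1)))) hlim2
    (fun n y => closedBall (y : E) (5 * ρ n y)) ?_ ?_
  · refine le_antisymm (hmain.trans ?_) bot_le
    have hup : ∀ n, ∑' y : u n, Metric.ediam (closedBall (y : E) (5 * ρ n y)) ^ (m : ℝ)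
        ≤ ENNReal.ofReal (10 ^ m * (1 / c * (1 / (n + 1)))) := by
      intro n
      have h1 : ∀ y : u n, Metric.ediam (closedBall (y : E) (5 * ρ n y)) ^ (m : ℝ)
          ≤ ENNReal.ofReal (10 ^ m) * ENNReal.ofReal ((ρ n y) ^ m) := by
        intro y
        have hy := hρ n y y.2
        calc Metric.ediam (closedBall (y : E) (5 * ρ n y)) ^ (m : ℝ)
            ≤ ENNReal.ofReal (2 * (5 * ρ n y)) ^ (m : ℝ) := by
              gcongr
              exact ediam_closedBall_le' _ (by linarith [hy.1])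
          _ = ENNReal.ofReal ((2 * (5 * ρ n y)) ^ m) := by
              rw [ENNReal.rpow_natCast, ENNReal.ofReal_pow (by linarith [hy.1])]
          _ = _ := by
              rw [← ENNReal.ofReal_mul (by positivity)]
              congr 1
              rw [← mul_pow]; ring
      calc _ ≤ ∑' y : u n, ENNReal.ofReal (10 ^ m) * ENNReal.ofReal ((ρ n y) ^ m) :=
            ENNReal.tsum_le_tsum h1
        _ = ENNReal.ofReal (10 ^ m) * ∑' y : u n, ENNReal.ofReal ((ρ n y) ^ m) :=
            ENNReal.tsum_mul_left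
        _ ≤ ENNReal.ofReal (10 ^ m) * ENNReal.ofReal (1 / c * (1 / (n + 1))) := by
            gcongr
            exact hsum n
        _ = _ := by rw [← ENNReal.ofReal_mul (by positivity)]
    have hlim3 : Tendsto (fun n : ℕ => ENNReal.ofReal (10 ^ m * (1 / c * (1 / (n + 1))))) atTop
        (𝓝 0) := by
      have h1 := ((hlim1.const_mul (1 / c)).const_mul (10 ^ m))
      rw [mul_zero, mul_zero] at h1
      have h2 := (ENNReal.continuous_ofReal.tendsto 0).comp h1
      have h3 : ENNReal.ofReal 0 = 0 := ENNReal.ofReal_zero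
      rw [h3] at h2
      exact h2
    have hlim4 : Tendsto (fun n : ℕ => ∑' y : u n,
        Metric.ediam (closedBall (y : E) (5 * ρ n y)) ^ (m : ℝ)) atTop (𝓝 0) :=
      tendsto_of_tendsto_of_tendsto_of_le_of_le tendsto_const_nhds hlim3 (fun _ => bot_le) hup
    exact le_of_eq hlim4.liminf_eq
  · refine Eventually.of_forall fun n y => ?_
    have hy := hρ n y y.2
    refine (ediam_closedBall_le' _ (by linarith [hy.1])).trans (ENNReal.ofReal_le_ofReal ?_)
    linarith [hy.2]
  · refine Eventually.of_forall fun n => ?_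
    refine (hcov n).trans ?_
    rw [biUnion_eq_iUnion]

lemma hausdorff_null_of_density (μ : Measure E) [IsFiniteMeasure μ] {A : Set E} {m : ℕ} {c : ℝ}
    (hc : 0 < c) (hA : μ A = 0)
    (h : ∀ x ∈ A, ∃ r0 > 0, ∀ r, 0 < r → r < r0 → c * r ^ m ≤ μ.real (closedBall x r)) :
    μH[m] A = 0 := by
  have hcov : A ⊆ ⋃ j : ℕ, {x ∈ A | ∀ r, 0 < r → r < 1 / ((j : ℝ) + 1) →
      c * r ^ m ≤ μ.real (closedBall x r)} := by
    intro x hx
    obtain ⟨r0, hr0, hr⟩ := h x hx
    obtain ⟨j, hj⟩ := exists_nat_one_div_lt hr0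
    exact mem_iUnion.2 ⟨j, hx, fun r h1 h2 => hr r h1 (h2.trans hj)⟩
  refine measure_mono_null hcov (measure_iUnion_null fun j => ?_)
  refine hausdorff_null_uniform μ hc (measure_mono_null (fun x hx => hx.1) hA)
    (r0 := 1 / ((j : ℝ) + 1)) (by positivity) fun x hx => hx.2

end Vale.Agent.P214
end
end

section

section

/-! If the bad mass vanishes near `x` then the support is flat near `x`. -/

open Set Filter Topology MeasureTheory Metric
open scoped RealInnerProductSpace

namespace Vale.Agent.P214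

set_option linter.unusedSectionVars false

variable {E : Type*} [NormedAddCommGroup E] [InnerProductSpace ℝ E] [FiniteDimensional ℝ E]
  [MeasurableSpace E] [BorelSpace E]

variable {x y : E} {r : ℝ} {m : ℕ} {O : Set E} {ν : Measure E} {P : E → E →L[ℝ] E}

/-- the kernel tends to the indicator of the hyperplane -/
lemma tendsto_slab (e : E) (t : ℝ) (z : E) :
    Tendsto (fun s : ℝ => slab e t s z) (𝓝[>] 0)
      (𝓝 ({z : E | ⟪e, z⟫ = t}.indicator (fun _ => (1:ℝ)) z)) := by
  by_cases hz : ⟪e, z⟫ = t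
  · have hz' : z ∈ {z : E | ⟪e, z⟫ = t} := hz
    rw [indicator_of_mem hz']
    refine tendsto_const_nhds.congr fun s => ?_
    unfold slab kap
    rw [hz, sub_self, zero_div]; norm_num
  · have hz' : z ∉ {z : E | ⟪e, z⟫ = t} := hz
    rw [indicator_of_notMem hz']
    have hd : 0 < |⟪e, z⟫ - t| := abs_pos.2 (sub_ne_zero.2 hz)
    have h1 : Tendsto (fun s : ℝ => s⁻¹) (𝓝[>] 0) atTop := tendsto_inv_nhdsGT_zero
    have h2 : Tendsto (fun s : ℝ => (⟪e, z⟫ - t) ^ 2 * (s⁻¹) ^ 2) (𝓝[>] 0) atTop := by
      refine Tendsto.const_mul_atTop (by positivity) ?_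
      exact (tendsto_pow_atTop (by norm_num)).comp h1
    have h3 : Tendsto (fun s : ℝ => 1 + (⟪e, z⟫ - t) ^ 2 * (s⁻¹) ^ 2) (𝓝[>] 0) atTop :=
      tendsto_atTop_add_const_left _ _ h2
    refine (tendsto_inv_atTop_zero.comp h3).congr fun s => ?_
    unfold slab kap
    simp only [Function.comp]
    congr 1
    rw [div_eq_mul_inv]; ring

/-- **Hyperplane slice lower bound.** -/
lemma LocStat.slice_lower [IsFiniteMeasure ν] (h : LocStat m O ν P) {c : ℝ}
    (hd : DensLow m O ν c) (hc : 0 < c) (hy : y ∈ ν.support) (hr : 0 < r)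
    (hball : closedBall y r ⊆ O)
    {Q : E →L[ℝ] E} {e : E} (he : ‖e‖ = 1) (heQ : ∀ v, ⟪e, Q v⟫ = 0)
    (hb : ν (bad P Q ∩ ball y r) = 0) :
    c / 2 * r ^ m ≤ ν.real (ball y r ∩ {z | ⟪e, z⟫ = ⟪e, y⟫}) := by
  have hset : MeasurableSet {z : E | ⟪e, z⟫ = ⟪e, y⟫} :=
    (isClosed_eq (by fun_prop) continuous_const).measurableSet
  have hlim : Tendsto (fun s : ℝ => ∫ z in ball y r, slab e ⟪e, y⟫ s z ∂ν) (𝓝[>] 0)
      (𝓝 (∫ z in ball y r, {z : E | ⟪e, z⟫ = ⟪e, y⟫}.indicator (fun _ => (1:ℝ)) z ∂ν)) := by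
    refine tendsto_integral_filter_of_dominated_convergence (fun _ => (1:ℝ)) ?_ ?_ ?_ ?_
    · exact Eventually.of_forall fun s =>
        (contDiff_slab e _ s).continuous.aestronglyMeasurable
    · refine Eventually.of_forall fun s => Eventually.of_forall fun z => ?_
      rw [Real.norm_of_nonneg (slab_nonneg _ _ _ _)]
      exact slab_le_one _ _ _ _
    · exact integrable_const _
    · exact Eventually.of_forall fun z => tendsto_slab e _ z
  have hval : ∫ z in ball y r, {z : E | ⟪e, z⟫ = ⟪e, y⟫}.indicator (fun _ => (1:ℝ)) z ∂ν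
      = ν.real (ball y r ∩ {z | ⟪e, z⟫ = ⟪e, y⟫}) := by
    rw [setIntegral_indicator hset, setIntegral_const]
    simp
  rw [← hval]
  refine ge_of_tendsto hlim ?_
  have h4 : ∀ᶠ s in 𝓝[>] (0:ℝ), s ∈ Ioc (0:ℝ) r := Ioc_mem_nhdsGT hr
  filter_upwards [h4] with s hs
  refine h.slab_lower hd hy hr hball he heQ hs.1 hs.2 ?_
  have : ν.real (bad P Q ∩ ball y r) = 0 := by simp [Measure.real, hb]
  rw [this]; simp; positivity

lemma LocStat.eventually_inner_eq [IsFiniteMeasure ν] (h : LocStat m O ν P) {c : ℝ}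
    (hd : DensLow m O ν c) (hc : 0 < c) {R : ℝ} (hR : 0 < R) (hball : closedBall x R ⊆ O)
    {Q : E →L[ℝ] E} (hb : ν (bad P Q ∩ ball x R) = 0)
    {e : E} (he : ‖e‖ = 1) (heQ : ∀ v, ⟪e, Q v⟫ = 0) :
    ∀ᶠ y in 𝓝 x, y ∈ ν.support → ⟪e, y - x⟫ = 0 := by
  -- heights with a heavy slice
  set A : ℝ → Set E := fun t => ball x R ∩ {z | ⟪e, z⟫ = t} with hA
  have hAm : ∀ t, MeasurableSet (A t) := fun t =>
    isOpen_ball.measurableSet.inter (isClosed_eq (by fun_prop) continuous_const).measurableSet
  have hAd : Pairwise (Function.onFun Disjoint A) := by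
    intro s t hst
    rw [Function.onFun, Set.disjoint_left]
    rintro z ⟨-, hz⟩ ⟨-, hz'⟩
    exact hst (hz.symm.trans hz')
  set ε : ENNReal := ENNReal.ofReal (c / 2 * (R / 2) ^ m) with hε
  have hεpos : 0 < ε := ENNReal.ofReal_pos.2 (by positivity)
  have hfin : {t | ε ≤ ν (A t)}.Finite :=
    Measure.finite_const_le_meas_of_disjoint_iUnion ν hεpos hAm hAd (measure_ne_top _ _)
  have hheavy : ∀ y ∈ ν.support, dist y x < R / 2 → ⟪e, y⟫ ∈ {t | ε ≤ ν (A t)} := by
    intro y hy hyx
    have hsub : ball y (R / 2) ⊆ ball x R := ball_subset_ball' (by linarith)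
    have hsub' : closedBall y (R / 2) ⊆ closedBall x R := closedBall_subset_closedBall' (by linarith)
    have h1 := h.slice_lower hd hc hy (by linarith : 0 < R / 2) (hsub'.trans hball) he heQ
      (measure_mono_null (inter_subset_inter_right _ hsub) hb)
    have h2 : c / 2 * (R / 2) ^ m ≤ ν.real (A ⟪e, y⟫) :=
      h1.trans (measureReal_mono (inter_subset_inter_left _ hsub))
    show ε ≤ ν (A ⟪e, y⟫)
    rw [hε]
    exact ENNReal.ofReal_le_of_le_toReal h2
  -- isolate the height of `x`
  have hclosed : IsClosed ({t | ε ≤ ν (A t)} \ {⟪e, x⟫}) := (hfin.subset sdiff_subset).isClosed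
  have hnhds : ({t | ε ≤ ν (A t)} \ {⟪e, x⟫})ᶜ ∈ 𝓝 ⟪e, x⟫ :=
    hclosed.isOpen_compl.mem_nhds (by simp)
  have hcont : Tendsto (fun y : E => ⟪e, y⟫) (𝓝 x) (𝓝 ⟪e, x⟫) :=
    (by fun_prop : Continuous fun y : E => ⟪e, y⟫).tendsto x
  filter_upwards [hcont hnhds, ball_mem_nhds x (by linarith : 0 < R / 2)] with y hy1 hy2 hy
  have h3 := hheavy y hy hy2
  by_contra hne
  refine hy1 ⟨h3, ?_⟩
  intro h4
  have h5 : ⟪e, y⟫ = ⟪e, x⟫ := h4
  exact hne (by rw [inner_sub_right, h5, sub_self])

/-- **Flatness of the support.** -/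
lemma LocStat.flat_support [IsFiniteMeasure ν] (h : LocStat m O ν P) {c : ℝ} (hc : 0 < c)
    (hd : DensLow m O ν c) {R : ℝ} (hR : 0 < R) (hball : closedBall x R ⊆ O)
    {T₀ : Submodule ℝ E} (hb : ν (bad P T₀.starProjection ∩ ball x R) = 0) :
    ∃ ρ > 0, ρ ≤ R ∧ ∀ y ∈ ν.support, dist y x < ρ → y - x ∈ T₀ := by
  let b := stdOrthonormalBasis ℝ T₀ᗮ
  have h1 : ∀ᶠ y in 𝓝 x, ∀ k, y ∈ ν.support → ⟪((b k : T₀ᗮ) : E), y - x⟫ = 0 := by
    refine eventually_all.2 fun k => ?_
    refine h.eventually_inner_eq hd hc hR hball hb ?_ ?_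
    · exact b.norm_eq_one k
    · intro v
      exact Submodule.inner_left_of_mem_orthogonal (T₀.starProjection_apply_mem v) (b k).2
  obtain ⟨ρ, hρ, h2⟩ := Metric.eventually_nhds_iff.1 h1
  refine ⟨min ρ R, lt_min hρ hR, min_le_right _ _, fun y hy hyx => ?_⟩
  have h3 := h2 (hyx.trans_le (min_le_left _ _))
  rw [← Submodule.orthogonal_orthogonal T₀, Submodule.mem_orthogonal]
  intro u hu
  have h4 := b.sum_repr' (⟨u, hu⟩ : T₀ᗮ)
  have h5 : u = ∑ k, ⟪b k, (⟨u, hu⟩ : T₀ᗮ)⟫ • ((b k : T₀ᗮ) : E) := by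
    have := congrArg (Subtype.val) h4
    simpa using this.symm
  rw [h5, sum_inner]
  refine Finset.sum_eq_zero fun k _ => ?_
  rw [inner_smul_left, h3 k hy, mul_zero]

end Vale.Agent.P214
end
end

section

section

open MeasureTheory Set Filter Topology
open scoped ENNReal NNReal ContDiff Convolution

namespace Vale.Agent.P214

variable {F : Type*} [NormedAddCommGroup F] [InnerProductSpace ℝ F] [FiniteDimensional ℝ F]
  [MeasurableSpace F] [BorelSpace F]

/-- Derivative of a mollification at a point whose small ball lies in the region where the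
weak derivative vanishes. -/
lemma fderiv_mollified_eq_zero (mu : Measure F) [mu.IsAddHaarMeasure] {f g : F → ℝ} {z : F}
    {rho : ℝ} (hg : LocallyIntegrable g mu) (hfg : ∀ p ∈ Metric.ball z rho, g p = f p)
    (h : ∀ phi : F → ℝ, ContDiff ℝ ∞ phi → HasCompactSupport phi →
      tsupport phi ⊆ Metric.ball z rho →
      ∀ v : F, ∫ p, fderiv ℝ phi p v * f p ∂mu = 0)
    (b : ContDiffBump (0 : F)) {x : F} (hx : dist x z + b.rOut < rho) :
    HasFDerivAt (fun y => (b.normed mu ⋆[ContinuousLinearMap.lsmul ℝ ℝ, mu] g) y)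
      (0 : F →L[ℝ] ℝ) x := by
  have h1 := HasCompactSupport.hasFDerivAt_convolution_left (𝕜 := ℝ) (μ := mu) (g := g)
    (ContinuousLinearMap.lsmul ℝ ℝ) (f := b.normed mu) b.hasCompactSupport_normed
    (b.contDiff_normed (n := 1)) hg x
  have h2 : ((fderiv ℝ (b.normed mu)) ⋆[(ContinuousLinearMap.lsmul ℝ ℝ).precompL F, mu] g) x
      = (0 : F →L[ℝ] ℝ) := by
    ext v
    -- the reflected bump
    set phi : F → ℝ := fun p => b.normed mu (x - p) with hphi
    have hphis : ContDiff ℝ ∞ phi := by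
      have : ContDiff ℝ ∞ (b.normed mu) := b.contDiff_normed
      exact this.comp (contDiff_const.sub contDiff_id)
    have hsupp : tsupport phi ⊆ Metric.closedBall x b.rOut := by
      apply closure_minimal _ Metric.isClosed_closedBall
      intro p hp
      rw [Function.mem_support] at hp
      have hp2 : x - p ∈ Function.support (b.normed mu) := hp
      rw [b.support_normed_eq, Metric.mem_ball, dist_zero_right] at hp2
      rw [Metric.mem_closedBall, dist_comm, dist_eq_norm]
      exact hp2.le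
    have hcomp : HasCompactSupport phi :=
      HasCompactSupport.of_support_subset_isCompact (isCompact_closedBall x b.rOut)
        ((subset_tsupport _).trans hsupp)
    have hsub : tsupport phi ⊆ Metric.ball z rho := by
      intro p hp
      have := hsupp hp
      rw [Metric.mem_closedBall] at this
      rw [Metric.mem_ball]
      calc dist p z ≤ dist p x + dist x z := dist_triangle _ _ _
        _ < rho := by linarith
    have h3 := h phi hphis hcomp hsub v
    have hfd : ∀ p, fderiv ℝ phi p v = - fderiv ℝ (b.normed mu) (x - p) v := by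
      intro p
      have hd : HasFDerivAt (b.normed mu) (fderiv ℝ (b.normed mu) (x - p)) (x - p) :=
        ((b.contDiff_normed (n := 1)).differentiable (by norm_num) _).hasFDerivAt
      have hd2 : HasFDerivAt (fun q : F => x - q) (-(ContinuousLinearMap.id ℝ F)) p := by
        simpa using (hasFDerivAt_id p).const_sub x
      have hd3 := hd.comp p hd2
      have : fderiv ℝ phi p = (fderiv ℝ (b.normed mu) (x - p)).comp
          (-(ContinuousLinearMap.id ℝ F)) := hd3.fderiv
      rw [this]
      simp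
    have hint : ConvolutionExistsAt (fderiv ℝ (b.normed mu)) g x
        ((ContinuousLinearMap.lsmul ℝ ℝ).precompL F) mu := by
      apply HasCompactSupport.convolutionExists_left
      · exact b.hasCompactSupport_normed.fderiv (𝕜 := ℝ)
      · exact (b.contDiff_normed (n := 1)).continuous_fderiv (by norm_num)
      · exact hg
    have h4 : (((fderiv ℝ (b.normed mu)) ⋆[(ContinuousLinearMap.lsmul ℝ ℝ).precompL F, mu] g) x) v
        = ∫ t, fderiv ℝ (b.normed mu) t v * g (x - t) ∂mu := by
      rw [convolution_def, ContinuousLinearMap.integral_apply hint]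
      congr 1
    rw [h4]
    have h5 : ∫ t, fderiv ℝ (b.normed mu) t v * g (x - t) ∂mu
        = ∫ p, fderiv ℝ (b.normed mu) (x - p) v * g p ∂mu := by
      rw [← integral_sub_left_eq_self (fun t => fderiv ℝ (b.normed mu) t v * g (x - t)) mu x]
      congr 1
      ext p
      rw [sub_sub_cancel]
    rw [h5]
    have h6 : ∀ p, fderiv ℝ (b.normed mu) (x - p) v * g p = -(fderiv ℝ phi p v * f p) := by
      intro p
      rw [hfd p]
      by_cases hp : p ∈ Metric.ball z rho
      · rw [hfg p hp]; ring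
      · have hp2 : p ∉ tsupport phi := fun hh => hp (hsub hh)
        have hp3 : fderiv ℝ phi p = 0 := by
          have := fderiv_of_notMem_tsupport (𝕜 := ℝ) hp2
          exact this
        have hp4 : fderiv ℝ (b.normed mu) (x - p) v = 0 := by
          have := hfd p
          rw [hp3] at this
          simpa using this.symm
        rw [hp4]; ring
    simp_rw [h6]
    rw [integral_neg, h3]
    simp
  rw [h2] at h1
  exact h1

/-- **Constancy**: an integrable function with vanishing weak gradient on a ball is a.e. constant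
on the ball. -/
theorem ae_const_of_weak_fderiv_eq_zero (mu : Measure F) [mu.IsAddHaarMeasure] {f : F → ℝ} {z : F}
    {rho : ℝ} (hf : IntegrableOn f (Metric.ball z rho) mu)
    (h : ∀ phi : F → ℝ, ContDiff ℝ ∞ phi → HasCompactSupport phi →
      tsupport phi ⊆ Metric.ball z rho →
      ∀ v : F, ∫ p, fderiv ℝ phi p v * f p ∂mu = 0) :
    ∃ c : ℝ, ∀ᵐ p ∂(mu.restrict (Metric.ball z rho)), f p = c := by
  classical
  rcases le_or_gt rho 0 with hrho | hrho
  · refine ⟨0, ?_⟩
    rw [Metric.ball_eq_empty.2 hrho]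
    simp
  set g : F → ℝ := (Metric.ball z rho).indicator f with hgdef
  have hgint : Integrable g mu := (integrable_indicator_iff measurableSet_ball).2 hf
  have hg : LocallyIntegrable g mu := hgint.locallyIntegrable
  have hfg : ∀ p ∈ Metric.ball z rho, g p = f p := fun p hp => indicator_of_mem hp f
  let b : ℕ → ContDiffBump (0 : F) := fun n =>
    ⟨1 / ((n : ℝ) + 1), 2 / ((n : ℝ) + 1), by positivity, by gcongr; norm_num⟩
  have hb : Tendsto (fun n => (b n).rOut) atTop (𝓝 0) := by
    have : Tendsto (fun n : ℕ => 2 * (1 / ((n : ℝ) + 1))) atTop (𝓝 (2 * 0)) :=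
      tendsto_one_div_add_atTop_nhds_zero_nat.const_mul 2
    rw [mul_zero] at this
    refine this.congr (fun n => ?_)
    simp only [b]
    ring
  have hb2 : ∀ᶠ n in atTop, (b n).rOut ≤ 2 * (b n).rIn := by
    refine Eventually.of_forall (fun n => ?_)
    simp only [b]
    apply le_of_eq
    ring
  have hae := ContDiffBump.ae_convolution_tendsto_right_of_locallyIntegrable (μ := mu) hb hb2 hg
  set G : ℕ → F → ℝ := fun n y => ((b n).normed mu ⋆[ContinuousLinearMap.lsmul ℝ ℝ, mu] g) y
    with hG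
  -- constancy of `G n` on slightly smaller balls
  have hconst : ∀ x ∈ Metric.ball z rho, ∀ y ∈ Metric.ball z rho,
      ∀ᶠ n in atTop, G n x = G n y := by
    intro x hx y hy
    rw [Metric.mem_ball] at hx hy
    have h1 : ∀ᶠ n in atTop, max (dist x z) (dist y z) < rho - (b n).rOut := by
      have : Tendsto (fun n => rho - (b n).rOut) atTop (𝓝 (rho - 0)) := hb.const_sub rho
      apply this.eventually_const_lt
      simp [hx, hy]
    filter_upwards [h1] with n hn
    have hd : ∀ w ∈ Metric.ball z (rho - (b n).rOut), HasFDerivWithinAt (G n) (0 : F →L[ℝ] ℝ)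
        (Metric.ball z (rho - (b n).rOut)) w := by
      intro w hw
      rw [Metric.mem_ball] at hw
      exact (fderiv_mollified_eq_zero mu hg hfg h (b n) (by linarith)).hasFDerivWithinAt
    have hle := (convex_ball z (rho - (b n).rOut)).norm_image_sub_le_of_norm_hasFDerivWithin_le
      (C := 0) hd (fun w _ => by simp) (x := y) (y := x)
      (by rw [Metric.mem_ball]; exact (le_max_right _ _).trans_lt hn)
      (by rw [Metric.mem_ball]; exact (le_max_left _ _).trans_lt hn)
    rw [zero_mul] at hle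
    exact sub_eq_zero.1 (norm_le_zero_iff.1 hle)
  -- pick a good point
  have hae2 : ∀ᵐ p ∂(mu.restrict (Metric.ball z rho)),
      p ∈ Metric.ball z rho ∧ Tendsto (fun n => G n p) atTop (𝓝 (g p)) := by
    filter_upwards [ae_restrict_of_ae hae, ae_restrict_mem measurableSet_ball] with p hp1 hp2
    exact ⟨hp2, hp1⟩
  have hne : (mu.restrict (Metric.ball z rho)) ≠ 0 := by
    intro h0
    have : mu (Metric.ball z rho) = 0 := by
      rw [← Measure.restrict_apply_self, h0]; simp
    exact (Metric.measure_ball_pos mu z hrho).ne' this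
  have : (ae (mu.restrict (Metric.ball z rho))).NeBot := ae_neBot.2 hne
  obtain ⟨p0, hp0, hp0t⟩ := hae2.exists
  refine ⟨f p0, ?_⟩
  filter_upwards [hae2] with p hp
  obtain ⟨hpb, hpt⟩ := hp
  have heq := hconst p hpb p0 hp0
  have hlim : g p = g p0 := tendsto_nhds_unique (hpt.congr' heq) hp0t
  rw [← hfg p hpb, ← hfg p0 hp0]
  exact hlim

end Vale.Agent.P214
end
end

section

section

/-! From integral varifolds to local stationarity data. -/

open Set Filter Topology MeasureTheory Metric
open scoped RealInnerProductSpace ENNReal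

namespace Vale.Agent.P214

set_option linter.unusedSectionVars false

variable {E : Type*} [NormedAddCommGroup E] [InnerProductSpace ℝ E] [FiniteDimensional ℝ E]
  [MeasurableSpace E] [BorelSpace E]

variable {m : ℕ} {U : Set E} {V : IntegralVarifold m U}

lemma divAlong_smul (T : Submodule ℝ E) {f : E → ℝ} (hf : ContDiff ℝ 1 f)
    (v y : E) : divAlong T (fun z => f z • v) y = fderiv ℝ f y (proj T v) := by
  have h1 : HasFDerivAt f (fderiv ℝ f y) y := (hf.differentiable (by norm_num) y).hasFDerivAt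
  have h2 : fderiv ℝ (fun z => f z • v) y = (fderiv ℝ f y).smulRight v :=
    (h1.smul_const v).fderiv
  unfold divAlong
  rw [h2]
  have h3 : ((proj T).comp ((fderiv ℝ f y).smulRight v)).toLinearMap
      = (fderiv ℝ f y).toLinearMap.smulRight (proj T v) := by
    ext w; simp
  rw [h3, LinearMap.trace_smulRight]
  rfl

lemma IntegralVarifold.weight_eq (V : IntegralVarifold m U) :
    V.weight = weightOf m V.carrier V.mult := rfl

/-- the local stationarity data of a stationary varifold -/
lemma IntegralVarifold.locStat (V : IntegralVarifold m U) (hst : V.IsStationary)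
    {x : E} {R : ℝ} (hR : closedBall x R ⊆ U) :
    LocStat m (ball x R) (V.weight.restrict (closedBall x R)) (fun y => proj (V.tangent y)) where
  isOpen := isOpen_ball
  meas := V.tangent_meas.restrict
  proj := by
    refine ae_restrict_of_ae ?_
    filter_upwards [V.tangent_spec] with y hy
    exact ⟨V.tangent y, hy.1, rfl⟩
  stat := by
    intro f v hf hc hs
    have hX : IsTestField U (fun z => f z • v) := by
      refine ⟨hf.smul contDiff_const, hc.smul_right, ?_⟩
      refine (closure_mono ?_).trans (hs.trans (ball_subset_closedBall.trans hR))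
      exact fun z hz hf0 => hz (by simp [hf0])
    have h1 := hst _ hX
    simp only [divAlong_smul _ hf] at h1
    rw [← h1]
    refine setIntegral_eq_integral_of_forall_compl_eq_zero fun y hy => ?_
    have h2 : y ∉ tsupport f := fun h => hy (ball_subset_closedBall (hs h))
    have h3 : fderiv ℝ f y = 0 := by
      by_contra hne
      exact h2 (support_fderiv_subset ℝ hne)
    rw [h3]; rfl

lemma IntegralVarifold.finite_restrict (V : IntegralVarifold m U)
    {x : E} {R : ℝ} (hR : closedBall x R ⊆ U) :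
    IsFiniteMeasure (V.weight.restrict (closedBall x R)) :=
  ⟨by
    rw [Measure.restrict_apply_univ]
    exact V.locFinite _ hR (isCompact_closedBall x R)⟩

/-- the constant `∫_{R^m} prof(|y|^2) dH^m` -/
noncomputable def cg (m : ℕ) : ℝ := ∫ y : EuclideanSpace ℝ (Fin m), prof (‖y‖ ^ 2) ∂μH[m]

lemma cg_pos (m : ℕ) : 0 < cg m := by
  unfold cg
  have hH : (μH[m] : Measure (EuclideanSpace ℝ (Fin m))).IsAddHaarMeasure := by
    have h1 : ((Module.finrank ℝ (EuclideanSpace ℝ (Fin m)) : ℕ) : ℝ) = m := by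
      simp
    rw [← h1]
    infer_instance
  have hcont : Continuous fun y : EuclideanSpace ℝ (Fin m) => prof (‖y‖ ^ 2) :=
    continuous_prof.comp (by fun_prop)
  refine hcont.integral_pos_of_hasCompactSupport_nonneg_nonzero ?_ ?_ (x := 0) ?_
  · refine HasCompactSupport.intro (isCompact_closedBall (0 : EuclideanSpace ℝ (Fin m)) 1) ?_
    intro y hy
    rw [mem_closedBall, dist_zero_right, not_le] at hy
    exact prof_of_one_le (by nlinarith)
  · intro y; exact prof_nonneg _
  · rw [norm_zero]; unfold prof; norm_num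

/-- the profile integral over an `m`-plane does not depend on the plane -/
lemma integral_plane {T : Submodule ℝ E} (hT : Module.finrank ℝ T = m) :
    ∫ y in (T : Set E), prof (‖y‖ ^ 2) ∂μH[m] = cg m := by
  let b := (stdOrthonormalBasis ℝ T).reindex (finCongr hT)
  let i : EuclideanSpace ℝ (Fin m) → E := fun p => ((b.repr.symm p : T) : E)
  have hi : Isometry i := (isometry_subtype_coe).comp b.repr.symm.isometry
  have hrange : range i = (T : Set E) := by
    ext y
    constructor
    · rintro ⟨p, rfl⟩; exact (b.repr.symm p).2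
    · intro hy
      exact ⟨b.repr ⟨y, hy⟩, by simp [i]⟩
  have h1 := hi.map_hausdorffMeasure (d := (m : ℝ)) (Or.inl (Nat.cast_nonneg m))
  rw [← hrange, ← h1]
  have hcont : Continuous fun y : E => prof (‖y‖ ^ 2) :=
    continuous_prof.comp (by fun_prop)
  rw [integral_map hi.continuous.measurable.aemeasurable hcont.aestronglyMeasurable]
  unfold cg
  refine integral_congr_ae (Eventually.of_forall fun p => ?_)
  have : ‖i p‖ = ‖p‖ := by
    have h2 : ‖(b.repr.symm p : T)‖ = ‖p‖ := b.repr.symm.norm_map p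
    exact h2
  simp only [this]

lemma IntegralVarifold.ae_mem_carrier (V : IntegralVarifold m U) :
    ∀ᵐ y ∂V.weight, y ∈ V.carrier := by
  have h1 : ∀ᵐ y ∂((μH[m] : Measure E).restrict V.carrier), y ∈ V.carrier :=
    ae_restrict_mem₀ V.carrier_meas
  exact (withDensity_absolutelyContinuous _ _).ae_le h1

/-- the smoothed density is at least `cg` almost everywhere -/
lemma IntegralVarifold.densLow (V : IntegralVarifold m U)
    {x : E} {R : ℝ} :
    DensLow m (ball x R) (V.weight.restrict (closedBall x R)) (cg m) := by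
  refine ae_restrict_of_ae ?_
  filter_upwards [V.tangent_spec, V.ae_mem_carrier] with y hy hyc hyO c' hc'
  obtain ⟨hfin, hlim⟩ := hy
  have hcont : Continuous fun y : E => prof (‖y‖ ^ 2) :=
    continuous_prof.comp (by fun_prop)
  have hsupp : HasCompactSupport fun y : E => prof (‖y‖ ^ 2) := by
    refine HasCompactSupport.intro (isCompact_closedBall (0 : E) 1) ?_
    intro y hy
    rw [mem_closedBall, dist_zero_right, not_le] at hy
    exact prof_of_one_le (by nlinarith)
  have h1 := hlim _ hcont hsupp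
  rw [integral_plane hfin] at h1
  have hmult : (1:ℝ) ≤ V.mult y := by exact_mod_cast V.mult_pos y hyc
  have hlt : c' < V.mult y * cg m := by
    have := cg_pos m
    nlinarith
  have h2 := h1.eventually (lt_mem_nhds hlt)
  -- radii for which the ball stays inside
  have hpos : 0 < R - dist y x := by rw [mem_ball] at hyO; linarith
  have h3 : ∀ᶠ r in 𝓝[>] (0:ℝ), r ∈ Ioc (0:ℝ) (R - dist y x) := Ioc_mem_nhdsGT hpos
  refine Eventually.frequently ?_
  filter_upwards [h2, h3] with r hr hr3
  refine hr.le.trans (le_of_eq ?_)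
  unfold ratio
  congr 1
  rw [← V.weight_eq]
  have h4 : ∫ z, cut y r z ∂(V.weight.restrict (closedBall x R)) = ∫ z, cut y r z ∂V.weight := by
    refine setIntegral_eq_integral_of_forall_compl_eq_zero fun z hz => ?_
    refine cut_eq_zero hr3.1 ?_
    rw [mem_closedBall, not_le] at hz
    have h5 : dist z x ≤ dist z y + dist y x := dist_triangle _ _ _
    rw [← dist_eq_norm]
    linarith [hr3.2]
  rw [h4]
  refine integral_congr_ae (Eventually.of_forall fun z => ?_)
  show prof (‖r⁻¹ • (z - y)‖ ^ 2) = cut y r z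
  unfold cut
  rw [norm_smul, norm_inv, Real.norm_of_nonneg hr3.1.le, mul_pow, inv_pow]
  congr 1
  ring

end Vale.Agent.P214
end
end

section

section

/-! A varifold with flat support and constant tangent plane near a point is regular there. -/

open Set Filter Topology MeasureTheory Metric
open scoped RealInnerProductSpace ENNReal ContDiff

namespace Vale.Agent.P214

set_option linter.unusedSectionVars false

variable {E : Type*} [NormedAddCommGroup E] [InnerProductSpace ℝ E] [FiniteDimensional ℝ E]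
  [MeasurableSpace E] [BorelSpace E]

variable {m : ℕ} {U : Set E} {V : IntegralVarifold m U}

/-- the density function of a weight -/
noncomputable def dens (V : IntegralVarifold m U) : E → ℝ≥0∞ :=
  V.carrier.indicator fun y => (V.mult y : ℝ≥0∞)

lemma aemeasurable_dens (V : IntegralVarifold m U) :
    AEMeasurable (dens V) (μH[m] : Measure E) := by
  unfold dens
  rw [aemeasurable_indicator_iff₀ V.carrier_meas]
  exact (Measurable.of_discrete (f := fun k : ℕ => (k : ℝ≥0∞))).comp_aemeasurable V.mult_meas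

lemma weight_eq_withDensity (V : IntegralVarifold m U) :
    V.weight = (μH[m] : Measure E).withDensity (dens V) := by
  obtain ⟨t, -, ht, hte⟩ := V.carrier_meas.exists_measurable_superset_ae_eq
  unfold IntegralVarifold.weight weightOf dens
  rw [← Measure.restrict_congr_set hte, ← withDensity_indicator ht]
  exact withDensity_congr_ae (indicator_ae_eq_of_ae_eq_set hte)

lemma dens_lt_top (y : E) : dens V y < ⊤ := by
  unfold dens
  by_cases hy : y ∈ V.carrier
  · rw [indicator_of_mem hy]; exact ENNReal.natCast_lt_top _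
  · rw [indicator_of_notMem hy]; exact ENNReal.zero_lt_top

lemma exists_nat_dens (y : E) : ∃ q : ℕ, (dens V y).toReal = q := by
  unfold dens
  by_cases hy : y ∈ V.carrier
  · rw [indicator_of_mem hy]; exact ⟨V.mult y, by simp⟩
  · rw [indicator_of_notMem hy]; exact ⟨0, by simp⟩

/-- the part of `W` outside the support is null -/
lemma weight_diff_spt_null {W : Set E} (hW : W ⊆ U) : V.weight (W \ V.spt) = 0 := by
  refine measure_null_of_locally_null _ fun y hy => ?_
  have h1 : ¬ ∀ N ∈ 𝓝 y, 0 < V.weight N := fun h => hy.2 ⟨hW hy.1, h⟩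
  push Not at h1
  obtain ⟨N, hN, hN0⟩ := h1
  exact ⟨N, mem_nhdsWithin_of_mem_nhds hN, le_antisymm hN0 bot_le⟩

/-- the affine plane through `x` parallel to `T₀` -/
def aff (x : E) (T₀ : Submodule ℝ E) : Set E := {y | y - x ∈ T₀}

lemma isClosed_aff (x : E) (T₀ : Submodule ℝ E) : IsClosed (aff x T₀) := by
  have h1 : IsClosed (T₀ : Set E) := T₀.closed_of_finiteDimensional
  exact h1.preimage (by fun_prop : Continuous fun y : E => y - x)

/-- the tangent space of an open piece of an affine plane -/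
lemma tanSpace_aff {x p : E} {T₀ : Submodule ℝ E} {W : Set E}
    (hW : W ∈ 𝓝 p) (hp : p ∈ aff x T₀) : tanSpace (aff x T₀ ∩ W) p = T₀ := by
  unfold tanSpace
  rw [tangentConeAt_inter_nhds hW]
  refine le_antisymm ?_ ?_
  · refine Submodule.span_le.2 fun v hv => ?_
    obtain ⟨c, d, -, hd, hcd⟩ := mem_tangentConeAt_iff_exists_seq.1 hv
    have h1 : IsClosed (T₀ : Set E) := T₀.closed_of_finiteDimensional
    refine h1.mem_of_tendsto hcd ?_
    filter_upwards [hd] with k hk
    have h2 : p + d k - x ∈ T₀ := hk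
    have h3 : d k = (p + d k - x) - (p - x) := by abel
    have h4 : d k ∈ T₀ := by rw [h3]; exact T₀.sub_mem h2 hp
    exact T₀.smul_mem _ h4
  · intro v hv
    have h1 : segment ℝ p (p + v) ⊆ aff x T₀ := by
      intro z hz
      rw [segment_eq_image'] at hz
      obtain ⟨t, -, rfl⟩ := hz
      show p + t • (p + v - p) - x ∈ T₀
      have h2 : p + t • (p + v - p) - x = (p - x) + t • v := by
        rw [add_sub_cancel_left]; abel
      rw [h2]
      exact T₀.add_mem hp (T₀.smul_mem _ hv)
    have h3 := mem_tangentConeAt_of_segment_subset h1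
    rw [add_sub_cancel_left] at h3
    exact Submodule.subset_span h3

/-- an open piece of an affine plane is a smooth submanifold -/
lemma isSmoothSubmanifold_aff {x : E} {T₀ : Submodule ℝ E}
    (hT : Module.finrank ℝ T₀ = m) {W : Set E} (hW : IsOpen W) :
    IsSmoothSubmanifold m (aff x T₀ ∩ W) := by
  intro p hp
  let Φ : OpenPartialHomeomorph E E :=
    (Homeomorph.addRight (-x)).toOpenPartialHomeomorph.restrOpen W hW
  have hsrc : Φ.source = W := by simp [Φ]
  have happ : ∀ y, Φ y = y + -x := fun y => rfl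
  have hsymm : ∀ y, Φ.symm y = y + - -x := fun y => rfl
  refine ⟨Φ, by rw [hsrc]; exact hp.2, ?_, ?_, T₀, hT, ?_⟩
  · have : ContDiff ℝ (⊤ : ℕ∞) (fun y : E => y + -x) := contDiff_id.add contDiff_const
    exact this.contDiffOn
  · have : ContDiff ℝ (⊤ : ℕ∞) (fun y : E => y + - -x) := contDiff_id.add contDiff_const
    exact this.contDiffOn
  · rw [hsrc]
    ext z
    constructor
    · rintro ⟨y, ⟨⟨hy1, hy2⟩, -⟩, rfl⟩
      refine ⟨?_, ?_⟩
      · show y + -x ∈ T₀
        rw [← sub_eq_add_neg]; exact hy1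
      · exact Φ.map_source (by rw [hsrc]; exact hy2)
    · rintro ⟨hz1, hz2⟩
      have h1 : Φ.symm z ∈ Φ.source := Φ.map_target hz2
      rw [hsrc] at h1
      refine ⟨Φ.symm z, ⟨⟨?_, h1⟩, h1⟩, Φ.right_inv hz2⟩
      show z + - -x - x ∈ T₀
      rw [neg_neg, add_sub_cancel_right]; exact hz1

/-- isometric linear parametrisation of a plane, with a left inverse -/
lemma exists_param {T₀ : Submodule ℝ E} (hT : Module.finrank ℝ T₀ = m) :
    ∃ (ι : EuclideanSpace ℝ (Fin m) →ₗᵢ[ℝ] E)
      (π : E →L[ℝ] EuclideanSpace ℝ (Fin m)),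
      range ι = (T₀ : Set E) ∧ ∀ p, π (ι p) = p := by
  let b := (stdOrthonormalBasis ℝ T₀).reindex (finCongr hT)
  let ι : EuclideanSpace ℝ (Fin m) →ₗᵢ[ℝ] E :=
    T₀.subtypeₗᵢ.comp b.repr.symm.toLinearIsometry
  refine ⟨ι, ContinuousLinearMap.adjoint ι.toContinuousLinearMap, ?_, ?_⟩
  · ext y
    constructor
    · rintro ⟨p, rfl⟩; exact (b.repr.symm p).2
    · intro hy
      exact ⟨b.repr ⟨y, hy⟩, by simp [ι]⟩
  · intro p
    refine ext_inner_right ℝ fun q => ?_
    rw [ContinuousLinearMap.adjoint_inner_left]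
    exact ι.inner_map_map p q

/-- **Constancy.** -/
lemma exists_nat_weight (V : IntegralVarifold m U) (hst : V.IsStationary)
    {x : E} {T₀ : Submodule ℝ E} (hT : Module.finrank ℝ T₀ = m)
    {ρ : ℝ} (hρ : 0 < ρ) (hball : closedBall x ρ ⊆ U)
    (hb : ∀ᵐ y ∂V.weight, y ∈ ball x ρ → V.tangent y = T₀)
    (hflat : ∀ y ∈ V.spt, dist y x < ρ → y - x ∈ T₀) :
    ∃ q : ℕ, V.weight.restrict (ball x ρ)
      = (q : ℝ≥0∞) • (μH[m] : Measure E).restrict (aff x T₀ ∩ ball x ρ) := by
  obtain ⟨ι, π, hι, hπ⟩ := exists_param (E := E) hT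
  set W := ball x ρ with hWdef
  set i : EuclideanSpace ℝ (Fin m) → E := fun p => x + ι p with hi
  have hiso : Isometry i := (isometry_add_left x).comp ι.isometry
  have hemb : MeasurableEmbedding i := hiso.isClosedEmbedding.measurableEmbedding
  have hrange : range i = aff x T₀ := by
    ext y
    constructor
    · rintro ⟨p, rfl⟩
      show x + ι p - x ∈ T₀
      rw [add_sub_cancel_left, ← SetLike.mem_coe, ← hι]
      exact mem_range_self p
    · intro hy
      have hy' : y - x ∈ range ι := by rw [hι]; exact hy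
      obtain ⟨p, hp⟩ := hy'
      exact ⟨p, by simp [hi, hp]⟩
  have hpre : i ⁻¹' W = ball 0 ρ := by
    ext p
    simp [hi, hWdef, mem_ball, dist_eq_norm]
  set μF : Measure (EuclideanSpace ℝ (Fin m)) := μH[m] with hμF
  have hHaar : μF.IsAddHaarMeasure := by
    have h1 : ((Module.finrank ℝ (EuclideanSpace ℝ (Fin m)) : ℕ) : ℝ) = m := by simp
    rw [hμF, ← h1]
    infer_instance
  have hmap : μF.map i = (μH[m] : Measure E).restrict (aff x T₀) := by
    rw [← hrange]
    exact hiso.map_hausdorffMeasure (d := (m : ℝ)) (Or.inl (Nat.cast_nonneg m))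
  have haffm : MeasurableSet (aff x T₀) := (isClosed_aff x T₀).measurableSet
  set ν : Measure E := (μF.restrict (ball 0 ρ)).map i with hν
  have hνeq : ν = (μH[m] : Measure E).restrict (aff x T₀ ∩ W) := by
    rw [hν, ← hpre, ← Measure.restrict_map hiso.continuous.measurable measurableSet_ball, hmap,
      Measure.restrict_restrict measurableSet_ball, inter_comm]
  have hW0 : V.weight (W \ aff x T₀) = 0 := by
    refine measure_mono_null ?_ (weight_diff_spt_null (V := V) (ball_subset_closedBall.trans hball))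
    rintro y ⟨hy1, hy2⟩
    exact ⟨hy1, fun h => hy2 (hflat y h hy1)⟩
  have hres : V.weight.restrict W = ν.withDensity (dens V) := by
    have h1 : V.weight.restrict W = V.weight.restrict (aff x T₀ ∩ W) := by
      refine Measure.restrict_congr_set ?_
      have h2 : aff x T₀ ∩ W = W \ (W \ aff x T₀) := by
        ext y; simp only [mem_inter_iff, Set.mem_sdiff, not_and, not_not]; tauto
      rw [h2]
      exact (sdiff_null_ae_eq_self hW0).symm
    rw [h1, hνeq, weight_eq_withDensity, restrict_withDensity (haffm.inter measurableSet_ball)]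
  -- the density along the parametrisation
  set f : EuclideanSpace ℝ (Fin m) → ℝ := fun p => (dens V (i p)).toReal with hf
  have hdν : AEMeasurable (dens V) ν := by
    rw [hνeq]; exact (aemeasurable_dens V).restrict
  have hdi : AEMeasurable (fun p => dens V (i p)) (μF.restrict (ball 0 ρ)) :=
    hdν.comp_measurable hiso.continuous.measurable
  have hfin : ∫⁻ p in ball 0 ρ, dens V (i p) ∂μF ≠ ⊤ := by
    rw [← hemb.lintegral_map (dens V), ← hν, ← setLIntegral_univ, ← withDensity_apply _ MeasurableSet.univ,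
      ← hres, Measure.restrict_apply_univ]
    exact ((measure_mono ball_subset_closedBall).trans_lt
      (V.locFinite _ hball (isCompact_closedBall x ρ))).ne
  have hfint : IntegrableOn f (ball 0 ρ) μF := integrable_toReal_of_lintegral_ne_top hdi hfin
  have htest : ∀ φ : EuclideanSpace ℝ (Fin m) → ℝ, ContDiff ℝ ∞ φ → HasCompactSupport φ →
      tsupport φ ⊆ ball 0 ρ → ∀ v, ∫ p, fderiv ℝ φ p v * f p ∂μF = 0 := by
    intro φ hφ hφc hφs v
    obtain ⟨r', hr', hsub⟩ := exists_pos_lt_subset_ball hρ (isClosed_tsupport φ) hφs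
    let η : ContDiffBump x := ⟨r', (r' + ρ) / 2, hr'.1, by linarith [hr'.2]⟩
    set Φ : E → ℝ := fun y => φ (π (y - x)) * η y with hΦ
    have hφ1 : ContDiff ℝ 1 φ := hφ.of_le (by exact_mod_cast le_top)
    have hΨ : ContDiff ℝ 1 fun y : E => φ (π (y - x)) :=
      hφ1.comp (π.contDiff.comp (contDiff_id.sub contDiff_const))
    have hΦ1 : ContDiff ℝ 1 Φ := hΨ.mul η.contDiff
    have hΦc : HasCompactSupport Φ := η.hasCompactSupport.mul_left
    have hΦs : tsupport Φ ⊆ W := by
      have h1 : tsupport Φ ⊆ tsupport η := closure_mono (Function.support_mul_subset_right _ _)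
      refine h1.trans ?_
      rw [η.tsupport_eq]
      refine closedBall_subset_ball ?_
      show (r' + ρ) / 2 < ρ
      linarith [hr'.2]
    have hX : IsTestField U (fun z => Φ z • ι v) := by
      refine ⟨hΦ1.smul contDiff_const, hΦc.smul_right, ?_⟩
      refine (closure_mono ?_).trans (hΦs.trans (ball_subset_closedBall.trans hball))
      exact fun z hz hf0 => hz (by simp [hf0])
    have h1 := hst _ hX
    simp only [divAlong_smul _ hΦ1] at h1
    have hoff : ∀ y, y ∉ W → fderiv ℝ Φ y = 0 := fun y hy => by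
      by_contra hne
      exact hy (hΦs (support_fderiv_subset ℝ hne))
    have hιv : ι v ∈ T₀ := by rw [← SetLike.mem_coe, ← hι]; exact mem_range_self v
    have h2 : ∫ y, fderiv ℝ Φ y (ι v) ∂(V.weight.restrict W) = 0 := by
      rw [← h1, ← setIntegral_eq_integral_of_forall_compl_eq_zero (s := W)
        (f := fun y => fderiv ℝ Φ y (proj (V.tangent y) (ι v)))
        (fun y hy => by rw [hoff y hy]; rfl)]
      refine integral_congr_ae ?_
      filter_upwards [ae_restrict_of_ae hb, ae_restrict_mem measurableSet_ball] with y hy hyW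
      rw [hy hyW]
      have : proj T₀ (ι v) = ι v := (Submodule.starProjection_eq_self_iff).2 hιv
      rw [this]
    rw [hres, integral_withDensity_eq_integral_toReal_smul₀ hdν
      (Eventually.of_forall dens_lt_top), hν, hemb.integral_map] at h2
    have hder : ∀ p, fderiv ℝ Φ (i p) (ι v) = fderiv ℝ φ p v := by
      intro p
      have hcont : Continuous fun y : E => π (y - x) := by fun_prop
      have hpi : π (i p - x) = p := by simp only [hi, add_sub_cancel_left, hπ]
      by_cases hp : p ∈ tsupport φ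
      · have hpb : i p ∈ ball x r' := by
          have := hsub hp
          rw [mem_ball, dist_eq_norm, sub_zero] at this
          rw [mem_ball, dist_eq_norm]
          simpa [hi] using this
        have h3 : Φ =ᶠ[𝓝 (i p)] fun y => φ (π (y - x)) := by
          filter_upwards [isOpen_ball.mem_nhds hpb] with y hy
          have : η y = 1 := η.one_of_mem_closedBall (ball_subset_closedBall hy)
          simp only [hΦ, this, mul_one]
        rw [h3.fderiv_eq]
        have h4 : HasFDerivAt (fun y : E => φ (π (y - x)))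
            ((fderiv ℝ φ (π (i p - x))).comp π) (i p) := by
          have h5 : HasFDerivAt φ (fderiv ℝ φ (π (i p - x))) (π (i p - x)) :=
            (hφ1.differentiable (by norm_num) _).hasFDerivAt
          have h6 : HasFDerivAt (fun y : E => π (y - x)) π (i p) := by
            have h7 : HasFDerivAt (fun y : E => y - x) (ContinuousLinearMap.id ℝ _) (i p) :=
              (hasFDerivAt_id _).sub_const x
            have h8 := π.hasFDerivAt.comp (i p) h7
            rw [ContinuousLinearMap.comp_id] at h8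
            exact h8
          exact h5.comp (i p) h6
        rw [h4.fderiv, hpi]
        simp [hπ]
      · have h3 : Φ =ᶠ[𝓝 (i p)] fun _ => (0:ℝ) := by
          have h4 : ∀ᶠ q in 𝓝 (π (i p - x)), φ q = 0 := by
            rw [hpi]; exact notMem_tsupport_iff_eventuallyEq.1 hp
          have h5 := hcont.continuousAt.eventually h4
          filter_upwards [h5] with y hy
          simp only [hΦ, hy, zero_mul]
        rw [h3.fderiv_eq, fderiv_of_notMem_tsupport (𝕜 := ℝ) hp]
        simp
    rw [← h2, ← setIntegral_eq_integral_of_forall_compl_eq_zero (s := ball 0 ρ)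
        (f := fun p => fderiv ℝ φ p v * f p) ?_]
    · refine integral_congr_ae (Eventually.of_forall fun p => ?_)
      simp only [hder p, smul_eq_mul, hf]
      ring
    · intro p hp
      have : fderiv ℝ φ p = 0 := by
        by_contra hne
        exact hp (hφs (support_fderiv_subset ℝ hne))
      simp [this]
  obtain ⟨c, hc⟩ := ae_const_of_weak_fderiv_eq_zero μF hfint htest
  have hne : μF.restrict (ball 0 ρ) ≠ 0 := by
    intro h0
    have h1 : μF (ball 0 ρ) = 0 := by
      rw [← Measure.restrict_apply_self, h0]; simp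
    exact (measure_ball_pos μF 0 hρ).ne' h1
  have : (ae (μF.restrict (ball 0 ρ))).NeBot := ae_neBot.2 hne
  obtain ⟨p0, hp0⟩ := hc.exists
  obtain ⟨q, hq⟩ := exists_nat_dens (V := V) (i p0)
  have hcq : c = q := by rw [← hp0, ← hq]
  refine ⟨q, ?_⟩
  have hdq : dens V =ᵐ[ν] fun _ => (q : ℝ≥0∞) := by
    rw [hν]
    refine hemb.ae_map_iff.2 ?_
    filter_upwards [hc] with p hp
    have h1 : (dens V (i p)).toReal = ((q : ℝ≥0∞)).toReal := by
      rw [ENNReal.toReal_natCast, ← hcq]; exact hp
    exact (ENNReal.toReal_eq_toReal_iff' (dens_lt_top _).ne (ENNReal.natCast_ne_top _)).1 h1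
  rw [hres, withDensity_congr_ae hdq, withDensity_const, hνeq]

/-- **Regularity** from flatness. -/
theorem IntegralVarifold.regular_of_flat (_hU : IsOpen U) (V : IntegralVarifold m U)
    (hst : V.IsStationary) {x : E} (hx : x ∈ V.spt) {T₀ : Submodule ℝ E}
    (hT : Module.finrank ℝ T₀ = m) {ρ : ℝ} (hρ : 0 < ρ) (hball : ball x ρ ⊆ U)
    (hb : ∀ᵐ y ∂V.weight, y ∈ ball x ρ → V.tangent y = T₀)
    (hflat : ∀ y ∈ V.spt, dist y x < ρ → y - x ∈ T₀) : V.IsRegular x := by
  have hρ2 : 0 < ρ / 2 := by linarith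
  have hball' : closedBall x (ρ / 2) ⊆ U := (closedBall_subset_ball (by linarith)).trans hball
  have hsub : ball x (ρ / 2) ⊆ ball x ρ := ball_subset_ball (by linarith)
  have hb' : ∀ᵐ y ∂V.weight, y ∈ ball x (ρ / 2) → V.tangent y = T₀ := by
    filter_upwards [hb] with y hy hy2
    exact hy (hsub hy2)
  obtain ⟨q, hq⟩ := exists_nat_weight V hst hT hρ2 hball' hb'
    (fun y hy hyx => hflat y hy (by linarith))
  set W := ball x (ρ / 2) with hW
  have hWU : W ⊆ U := hsub.trans hball
  have hxW : x ∈ W := mem_ball_self hρ2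
  -- the multiplicity is positive
  have hq1 : 1 ≤ q := by
    by_contra hlt
    have hq0 : q = 0 := by omega
    have h1 := hx.2 W (ball_mem_nhds x hρ2)
    rw [hq0, Nat.cast_zero, zero_smul] at hq
    rw [← Measure.restrict_apply_self, hq] at h1
    simp at h1
  -- the support
  have hspt : V.spt ∩ W = aff x T₀ ∩ W := by
    ext y
    constructor
    · rintro ⟨hy, hyW⟩
      exact ⟨hflat y hy (by have := mem_ball.1 hyW; linarith), hyW⟩
    · rintro ⟨hy, hyW⟩
      refine ⟨⟨hWU hyW, fun N hN => ?_⟩, hyW⟩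
      obtain ⟨ε, hε, hεN⟩ := Metric.mem_nhds_iff.1 (inter_mem hN (isOpen_ball.mem_nhds hyW))
      have h1 : V.weight (ball y ε) = (q : ℝ≥0∞) * (μH[m] : Measure E) (ball y ε ∩ aff x T₀) := by
        have h2 : V.weight (ball y ε) = V.weight.restrict W (ball y ε) := by
          rw [Measure.restrict_apply measurableSet_ball,
            inter_eq_left.2 (hεN.trans inter_subset_right)]
        rw [h2, hq, Measure.smul_apply, Measure.restrict_apply measurableSet_ball, smul_eq_mul]
        congr 2
        ext z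
        constructor
        · rintro ⟨hz1, hz2, -⟩; exact ⟨hz1, hz2⟩
        · rintro ⟨hz1, hz2⟩; exact ⟨hz1, hz2, (hεN hz1).2⟩
      have h3 : 0 < (μH[m] : Measure E) (ball y ε ∩ aff x T₀) := by
        obtain ⟨ι, π, hι, hπ⟩ := exists_param (E := E) hT
        set i : EuclideanSpace ℝ (Fin m) → E := fun p => y + ι p with hi
        have hiso : Isometry i := (isometry_add_left y).comp ι.isometry
        have h4 := hiso.map_hausdorffMeasure (d := (m : ℝ)) (Or.inl (Nat.cast_nonneg m))
        have h5 : ball y ε ∩ range i ⊆ ball y ε ∩ aff x T₀ := by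
          rintro z ⟨hz1, p, rfl⟩
          refine ⟨hz1, ?_⟩
          show y + ι p - x ∈ T₀
          have h6 : y + ι p - x = (y - x) + ι p := by abel
          rw [h6]
          refine T₀.add_mem hy ?_
          rw [← SetLike.mem_coe, ← hι]; exact mem_range_self p
        refine lt_of_lt_of_le ?_ (measure_mono h5)
        rw [← Measure.restrict_apply measurableSet_ball, ← h4,
          Measure.map_apply hiso.continuous.measurable measurableSet_ball]
        have h7 : i ⁻¹' ball y ε = ball 0 ε := by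
          ext p
          simp [hi, mem_ball, dist_eq_norm]
        rw [h7]
        have hHaar : (μH[m] : Measure (EuclideanSpace ℝ (Fin m))).IsAddHaarMeasure := by
          have h1 : ((Module.finrank ℝ (EuclideanSpace ℝ (Fin m)) : ℕ) : ℝ) = m := by simp
          rw [← h1]
          infer_instance
        exact measure_ball_pos _ 0 hε
      have h8 : 0 < V.weight (ball y ε) := by
        rw [h1]
        refine ENNReal.mul_pos ?_ h3.ne'
        exact_mod_cast (by omega : q ≠ 0)
      exact h8.trans_le (measure_mono (hεN.trans inter_subset_left))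
  refine ⟨W, aff x T₀ ∩ W, q, isOpen_ball, hxW, hWU, hspt,
    isSmoothSubmanifold_aff hT isOpen_ball, ?_, hq1, hq⟩
  -- minimality
  intro X hX
  have hXU : IsTestField U X := ⟨hX.1, hX.2.1, hX.2.2.trans hWU⟩
  have h1 := hst X hXU
  have hoff : ∀ y, y ∉ W → fderiv ℝ X y = 0 := fun y hy => by
    by_contra hne
    exact hy (hX.2.2 (support_fderiv_subset ℝ hne))
  have hoff' : ∀ y, y ∉ W → ∀ T : Submodule ℝ E, divAlong T X y = 0 := fun y hy T => by
    unfold divAlong
    rw [hoff y hy]; simp
  have hSm : MeasurableSet (aff x T₀ ∩ W) :=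
    (isClosed_aff x T₀).measurableSet.inter measurableSet_ball
  have h2 : ∫ p in aff x T₀ ∩ W, divAlong (tanSpace (aff x T₀ ∩ W) p) X p ∂μH[m]
      = ∫ p in aff x T₀ ∩ W, divAlong T₀ X p ∂μH[m] := by
    refine setIntegral_congr_fun hSm fun p hp => ?_
    rw [tanSpace_aff (isOpen_ball.mem_nhds hp.2) hp.1]
  have h3 : ∫ y, divAlong T₀ X y ∂(V.weight.restrict W) = 0 := by
    rw [← h1, ← setIntegral_eq_integral_of_forall_compl_eq_zero (s := W)
        (f := fun y => divAlong (V.tangent y) X y)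
        (fun y hy => hoff' y hy _)]
    refine integral_congr_ae ?_
    filter_upwards [ae_restrict_of_ae hb', ae_restrict_mem measurableSet_ball] with y hy hyW
    rw [hy hyW]
  rw [hq, integral_smul_measure, ENNReal.toReal_natCast, smul_eq_mul] at h3
  rw [h2]
  have hqR : (q : ℝ) ≠ 0 := by exact_mod_cast (by omega : q ≠ 0)
  exact (mul_eq_zero.1 h3).resolve_left hqR

end Vale.Agent.P214
end
end

section

section

/-! Assembly. -/

open Set Filter Topology MeasureTheory Metric
open scoped RealInnerProductSpace ENNReal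

namespace Vale.Agent.P214

set_option linter.unusedSectionVars false

variable {E : Type*} [NormedAddCommGroup E] [InnerProductSpace ℝ E] [FiniteDimensional ℝ E]
  [MeasurableSpace E] [BorelSpace E]

variable {m : ℕ} {U : Set E}

lemma IntegralVarifold.mem_support (V : IntegralVarifold m U) {x y : E} {R : ℝ}
    (hy : y ∈ V.spt) (hyx : y ∈ ball x R) :
    y ∈ (V.weight.restrict (closedBall x R)).support := by
  rw [Measure.mem_support_iff_forall]
  intro W hW
  have h1 : 0 < V.weight (W ∩ ball x R) :=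
    hy.2 _ (inter_mem hW (isOpen_ball.mem_nhds hyx))
  refine h1.trans_le ?_
  rw [Measure.restrict_apply' measurableSet_closedBall]
  exact measure_mono (inter_subset_inter_right _ ball_subset_closedBall)

/-- vanishing of the bad mass gives regularity -/
lemma IntegralVarifold.regular_of_bad_null (hU : IsOpen U) (V : IntegralVarifold m U)
    (hst : V.IsStationary) {x : E} (hx : x ∈ V.spt) {T₀ : Submodule ℝ E}
    (hT : Module.finrank ℝ T₀ = m) {ρ : ℝ} (hρ : 0 < ρ)
    (hb : V.weight (bad (fun y => proj (V.tangent y)) T₀.starProjection ∩ ball x ρ) = 0) :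
    V.IsRegular x := by
  obtain ⟨R, hR0, hR⟩ : ∃ R > 0, closedBall x R ⊆ U :=
    nhds_basis_closedBall.mem_iff.1 (hU.mem_nhds hx.1)
  have hfin := V.finite_restrict hR
  have hls := V.locStat hst hR
  have hdl := V.densLow (x := x) (R := R)
  set s := min (R / 2) ρ with hs
  have hs0 : 0 < s := lt_min (by linarith) hρ
  have hsR : s ≤ R / 2 := min_le_left _ _
  obtain ⟨ρ', hρ'0, hρ's, hflat⟩ := hls.flat_support (cg_pos m) hdl hs0
    (closedBall_subset_ball (by linarith)) (T₀ := T₀) (by
      refine le_antisymm ((Measure.restrict_apply_le _ _).trans ?_) bot_le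
      refine (measure_mono (inter_subset_inter_right _ (ball_subset_ball (min_le_right _ _)))).trans ?_
      exact hb.le)
  refine V.regular_of_flat hU hst hx hT hρ'0
    ((ball_subset_closedBall.trans (closedBall_subset_closedBall (by linarith))).trans hR) ?_ ?_
  · have h1 : ∀ᵐ y ∂V.weight, y ∉ bad (fun y => proj (V.tangent y)) T₀.starProjection ∩ ball x ρ :=
      measure_eq_zero_iff_ae_notMem.1 hb
    filter_upwards [h1] with y hy hyb
    have h2 : y ∈ ball x ρ := ball_subset_ball (hρ's.trans (min_le_right _ _)) hyb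
    have h3 : y ∉ bad (fun y => proj (V.tangent y)) T₀.starProjection := fun h => hy ⟨h, h2⟩
    have h4 : (V.tangent y).starProjection = T₀.starProjection := by
      by_contra hne; exact h3 hne
    exact Submodule.starProjection_inj.1 h4
  · intro y hy hyx
    exact hflat y (V.mem_support hy (mem_ball.2 (by linarith))) hyx

/-- the uniform threshold on the region near `x₁` -/
noncomputable def thr (V : IntegralVarifold m U) (x₁ : E) (R r₁ δ : ℝ) : ℝ :=
  kapp m (Module.finrank ℝ E - m) (cg m) (δ ^ 2 / 2)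
    (4 ^ (m + 1) * (V.weight.restrict (closedBall x₁ R)).real univ / r₁ ^ m)

lemma thr_pos (V : IntegralVarifold m U) (x₁ : E) {R r₁ δ : ℝ} (hδ : 0 < δ)
    (hr₁ : 0 < r₁) : 0 < thr V x₁ R r₁ δ := by
  unfold thr
  exact kapp_pos (cg_pos m) (by positivity) (by positivity)

/-- small bad mass at one scale gives regularity -/
lemma IntegralVarifold.regular_of_small (hU : IsOpen U) (V : IntegralVarifold m U)
    (hst : V.IsStationary) {x₁ x : E} {R r₁ r δ : ℝ} (hR : closedBall x₁ R ⊆ U)
    (hx : x ∈ V.spt) (hball : closedBall x (2 * r₁) ⊆ ball x₁ R)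
    (hr : 0 < r) (hr₁ : 4 * r ≤ r₁) {T₀ : Submodule ℝ E}
    (hT₀ : Module.finrank ℝ T₀ = m) (hδ : 0 < δ)
    (hgap : ∀ᵐ z ∂(V.weight.restrict (closedBall x₁ R)),
      z ∈ bad (fun y => proj (V.tangent y)) T₀.starProjection →
        δ ≤ ‖proj (V.tangent z) - T₀.starProjection‖)
    (hb : (V.weight.restrict (closedBall x₁ R)).real
      (bad (fun y => proj (V.tangent y)) T₀.starProjection ∩ ball x (4 * r))
      ≤ thr V x₁ R r₁ δ * (2 * r) ^ m) : V.IsRegular x := by
  have hfin := V.finite_restrict hR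
  have hls := V.locStat hst hR
  have hdl := V.densLow (x := x₁) (R := R)
  have h1 := hls.eps_reg (cg_pos m) hdl hball hr hr₁ hT₀ hδ hgap hb
  refine V.regular_of_bad_null hU hst hx hT₀ (ρ := 2 * r) (by linarith) ?_
  rw [Measure.restrict_apply' measurableSet_closedBall] at h1
  rwa [inter_eq_left.2] at h1
  intro z hz
  refine ball_subset_closedBall (hball ?_)
  exact closedBall_subset_closedBall (by linarith) (ball_subset_closedBall hz.2)

/-- a support point with an isolated blow-up plane is regular -/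
lemma IntegralVarifold.regular_of_blowup (hU : IsOpen U) (V : IntegralVarifold m U)
    (hst : V.IsStationary) {x : E} (hx : x ∈ V.spt) {T : Submodule ℝ E}
    (hT : V.IsBlowupPlane x T) (hiso : V.IsolatedAt x T) : V.IsRegular x := by
  obtain ⟨hTm, hbl⟩ := hT
  obtain ⟨r, hr, δ, hδ, hnull⟩ := hiso
  obtain ⟨R, hR0, hR⟩ : ∃ R > 0, closedBall x R ⊆ U :=
    nhds_basis_closedBall.mem_iff.1 (hU.mem_nhds hx.1)
  set R' := min (r / 2) R with hR'
  have hR'0 : 0 < R' := lt_min (by linarith) hR0
  have hR'r : R' ≤ r / 2 := min_le_left _ _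
  have hR'U : closedBall x R' ⊆ U := (closedBall_subset_closedBall (min_le_right _ _)).trans hR
  have hfin := V.finite_restrict hR'U
  have hls := V.locStat hst hR'U
  set r₁ := R' / 4 with hr₁
  have hr₁0 : 0 < r₁ := by positivity
  have hthr := thr_pos V x (R := R') hδ hr₁0
  have h1 := hbl (δ ^ 2 * (thr V x R' r₁ δ / 2 ^ m)) (by positivity)
  have h2 : ∀ᶠ s in 𝓝[>] (0:ℝ), s ∈ Ioc (0:ℝ) r₁ := Ioc_mem_nhdsGT hr₁0
  obtain ⟨s, hs, hs0, hsr⟩ := (h1.and_eventually h2).exists
  have hgap0 : ∀ᵐ z ∂(V.weight.restrict (closedBall x R')),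
      z ∈ bad (fun y => proj (V.tangent y)) T.starProjection →
      δ ≤ ‖proj (V.tangent z) - T.starProjection‖ := by
    rw [ae_restrict_iff' measurableSet_closedBall]
    filter_upwards [hnull] with z hz hzb hzbad
    refine hz (closedBall_subset_ball (by linarith) hzb) ?_
    intro heq
    exact hzbad (by show proj (V.tangent z) = _; rw [heq]; rfl)
  refine V.regular_of_small hU hst (x₁ := x) (R := R') (r₁ := r₁) (r := s / 4) hR'U hx
    (closedBall_subset_ball (by rw [hr₁]; linarith)) (by positivity) (by linarith)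
    hTm hδ hgap0 ?_
  have h4 : 4 * (s / 4) = s := by ring
  have h8 : 2 * (s / 4) = s / 2 := by ring
  rw [h4, h8, div_pow]
  set ν := V.weight.restrict (closedBall x R') with hν
  set B := bad (fun y => proj (V.tangent y)) T.starProjection with hB
  have hBm : NullMeasurableSet B ν := nullMeasurableSet_bad hls.meas _
  have hGm : NullMeasurableSet (B ∩ ball x s) ν := hBm.inter measurableSet_ball.nullMeasurableSet
  have h5 : δ ^ 2 * ν.real (B ∩ ball x s)
      ≤ ∫ y in ball x s, ‖proj (V.tangent y) - T.starProjection‖ ^ 2 ∂ν := by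
    calc δ ^ 2 * ν.real (B ∩ ball x s) = ∫ _y in B ∩ ball x s, δ ^ 2 ∂ν := by
          rw [setIntegral_const, smul_eq_mul, mul_comm]
      _ ≤ ∫ y in B ∩ ball x s, ‖proj (V.tangent y) - T.starProjection‖ ^ 2 ∂ν := by
          refine integral_mono_ae (integrable_const _) (hls.integrableOn_tiltsq _ _) ?_
          filter_upwards [ae_restrict_mem₀ hGm, ae_restrict_of_ae hgap0] with y hy hy2
          have := hy2 hy.1
          exact pow_le_pow_left₀ hδ.le this 2
      _ ≤ _ := setIntegral_mono_set (hls.integrableOn_tiltsq _ _)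
            (Eventually.of_forall fun y => by simp only [Pi.zero_apply]; positivity)
            (Eventually.of_forall inter_subset_right)
  have h6 : ∫ y in ball x s, ‖proj (V.tangent y) - T.starProjection‖ ^ 2 ∂ν
      = ∫ y in ball x s, ‖proj (V.tangent y) - proj T‖ ^ 2 ∂V.weight := by
    rw [hν, Measure.restrict_restrict measurableSet_ball, inter_eq_left.2
      ((ball_subset_closedBall).trans (closedBall_subset_closedBall (by linarith)))]
    rfl
  rw [h6] at h5
  have h7 : δ ^ 2 * ν.real (B ∩ ball x s) ≤ δ ^ 2 * (thr V x R' r₁ δ / 2 ^ m * s ^ m) := by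
    calc _ ≤ _ := h5
      _ ≤ _ := hs
      _ = _ := by ring
  have h9 := le_of_mul_le_mul_left h7 (by positivity)
  refine h9.trans (le_of_eq ?_)
  ring

/-- almost everywhere the tangent plane is a blow-up plane -/
lemma IntegralVarifold.ae_blowup (hU : IsOpen U) (V : IntegralVarifold m U)
    (hst : V.IsStationary) :
    ∀ᵐ x ∂V.weight, x ∈ V.spt ∧ V.IsBlowupPlane x (V.tangent x) := by
  have hU' : V.weight Uᶜ = 0 := by
    have h1 : ∀ᵐ y ∂V.weight, y ∈ U := by
      filter_upwards [V.ae_mem_carrier] with y hy using V.carrier_subset hy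
    exact h1
  rw [ae_iff]
  set B := {a | ¬(a ∈ V.spt ∧ V.IsBlowupPlane a (V.tangent a))} with hB
  have hBU : V.weight (B ∩ U) = 0 := by
    refine measure_null_of_locally_null _ fun x₁ hx₁ => ?_
    obtain ⟨R, hR0, hR⟩ : ∃ R > 0, closedBall x₁ R ⊆ U :=
      nhds_basis_closedBall.mem_iff.1 (hU.mem_nhds hx₁.2)
    refine ⟨B ∩ ball x₁ R, ?_, ?_⟩
    · exact mem_nhdsWithin.2 ⟨ball x₁ R, isOpen_ball, mem_ball_self hR0,
        fun z hz => ⟨hz.2.1, hz.1⟩⟩
    have hfin := V.finite_restrict hR
    have hls := V.locStat hst hR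
    have hae : ∀ᵐ x ∂(V.weight.restrict (closedBall x₁ R)), x ∈ ball x₁ R →
        (x ∈ V.spt ∧ V.IsBlowupPlane x (V.tangent x)) := by
      filter_upwards [hls.approx_cont, Measure.support_mem_ae
        (μ := V.weight.restrict (closedBall x₁ R)),
        ae_restrict_of_ae V.tangent_spec] with x hx hxs hxt hxb
      have hxU : x ∈ U := hR (ball_subset_closedBall hxb)
      refine ⟨⟨hxU, fun W hW => ?_⟩, hxt.1, fun ε hε => ?_⟩
      · have := (Measure.mem_support_iff_forall x).1 hxs W hW
        exact this.trans_le (Measure.restrict_apply_le _ _)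
      · refine Eventually.frequently ?_
        have hpos : 0 < R - dist x x₁ := by rw [mem_ball] at hxb; linarith
        have h2 : ∀ᶠ s in 𝓝[>] (0:ℝ), s ∈ Ioc (0:ℝ) (R - dist x x₁) := Ioc_mem_nhdsGT hpos
        filter_upwards [hx hxb ε hε, h2] with s hs hs2
        refine le_trans (le_of_eq ?_) hs
        rw [Measure.restrict_restrict measurableSet_ball, inter_eq_left.2]
        exact ball_subset_closedBall.trans (closedBall_subset_closedBall' (by linarith [hs2.2]))
    rw [ae_restrict_iff' measurableSet_closedBall] at hae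
    have h9 : ∀ᵐ x ∂V.weight, x ∉ B ∩ ball x₁ R := by
      filter_upwards [hae] with x hx hxB
      exact hxB.1 (hx (ball_subset_closedBall hxB.2) hxB.2)
    exact measure_eq_zero_iff_ae_notMem.2 h9
  refine measure_mono_null (t := (B ∩ U) ∪ Uᶜ) (fun z hz => ?_) (measure_union_null hBU hU')
  by_cases hzU : z ∈ U
  · exact Or.inl ⟨hz, hzU⟩
  · exact Or.inr hzU

/-- points where the tangent planes are not uniformly spread have a blow-up plane -/
lemma IntegralVarifold.exists_blowup (V : IntegralVarifold m U) (hst : V.IsStationary)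
    {x₁ x : E} {R : ℝ} (hR : closedBall x₁ R ⊆ U) (hx : x ∈ ball x₁ R)
    (hns : ¬ ∃ κ > 0, ∃ r₁ > 0, ∀ r, 0 < r → r ≤ r₁ →
      Spread m (V.weight.restrict (closedBall x₁ R)) (fun y => proj (V.tangent y)) κ x r) :
    ∃ T, V.IsBlowupPlane x T := by
  have hfin := V.finite_restrict hR
  have hls := V.locStat hst hR
  set ν := V.weight.restrict (closedBall x₁ R) with hν
  -- a sequence of planes
  have hseq : ∀ j : ℕ, ∃ (T : Submodule ℝ E) (r : ℝ), Module.finrank ℝ T = m ∧ 0 < r ∧
      r ≤ 1 / ((j:ℝ) + 1) ∧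
      ∫ z in ball x r, ‖proj (V.tangent z) - T.starProjection‖ ^ 2 ∂ν < 1 / ((j:ℝ) + 1) * r ^ m := by
    intro j
    by_contra hcon
    push Not at hcon
    refine hns ⟨1 / ((j:ℝ) + 1), by positivity, 1 / ((j:ℝ) + 1), by positivity,
      fun r hr hr1 T hT => hcon T r hT hr hr1⟩
  choose T r hTm hr0 hr1 hTr using hseq
  obtain ⟨T₀, hT₀, φ, hφ, hlim⟩ := exists_limit_plane T hTm
  refine ⟨T₀, hT₀, fun ε hε => ?_⟩
  rw [(nhdsGT_basis (0:ℝ)).frequently_iff]
  intro a ha
  -- mass bound
  have hpos : 0 < R - dist x x₁ := by rw [mem_ball] at hx; linarith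
  set r₁ := (R - dist x x₁) / 2 with hr₁
  have hr₁0 : 0 < r₁ := by positivity
  have hball : closedBall x r₁ ⊆ ball x₁ R := closedBall_subset_ball' (by linarith)
  set M := 4 ^ (m + 1) * ν.real univ / r₁ ^ m + 1 with hM
  have hM0 : 0 < M := by positivity
  -- limits
  have hlim1 : Tendsto (fun j : ℕ => (1:ℝ) / ((φ j : ℝ) + 1)) atTop (𝓝 0) :=
    tendsto_one_div_add_atTop_nhds_zero_nat.comp hφ.tendsto_atTop
  have hlim2 : Tendsto (fun j => ‖(T (φ j)).starProjection - T₀.starProjection‖ ^ 2) atTop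
      (𝓝 0) := by
    have h1 := ((hlim.sub_const T₀.starProjection).norm).pow 2
    simpa using h1
  have e1 := hlim1.eventually (gt_mem_nhds (show (0:ℝ) < min a (min (r₁ / 4) (ε / 4)) by positivity))
  have e2 := hlim2.eventually (gt_mem_nhds (show (0:ℝ) < ε / (4 * M) by positivity))
  obtain ⟨j, hj1, hj2⟩ := (e1.and e2).exists
  set k := φ j with hk
  have hja : 1 / ((k:ℝ) + 1) < a := hj1.trans_le (min_le_left _ _)
  have hjr : 1 / ((k:ℝ) + 1) < r₁ / 4 := hj1.trans_le ((min_le_right _ _).trans (min_le_left _ _))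
  have hjε : 1 / ((k:ℝ) + 1) < ε / 4 := hj1.trans_le ((min_le_right _ _).trans (min_le_right _ _))
  refine ⟨r k, ⟨hr0 k, (hr1 k).trans_lt hja⟩, ?_⟩
  have hrk := hr0 k
  have hrk1 := hr1 k
  have hsub : ball x (r k) ⊆ closedBall x₁ R := by
    refine ball_subset_closedBall.trans (closedBall_subset_closedBall' ?_)
    linarith
  have e3 : ∫ y in ball x (r k), ‖proj (V.tangent y) - proj T₀‖ ^ 2 ∂V.weight
      = ∫ y in ball x (r k), ‖proj (V.tangent y) - T₀.starProjection‖ ^ 2 ∂ν := by
    rw [hν, Measure.restrict_restrict measurableSet_ball, inter_eq_left.2 hsub]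
    rfl
  rw [e3]
  have hmass : ν.real (ball x (r k)) ≤ M * (r k) ^ m := by
    have h5 := hls.mass_bound (x := x) hrk (by linarith : 4 * r k ≤ r₁) hball
    have h6 : ν.real (ball x (r k)) ≤ ν.real (ball x (2 * r k)) :=
      measureReal_mono (ball_subset_ball (by linarith))
    have h7 : 0 ≤ (r k) ^ m := by positivity
    rw [hM]; nlinarith
  set q := ‖(T k).starProjection - T₀.starProjection‖ ^ 2 with hq
  have hq0 : 0 ≤ q := by positivity
  calc ∫ y in ball x (r k), ‖proj (V.tangent y) - T₀.starProjection‖ ^ 2 ∂ν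
      ≤ ∫ y in ball x (r k), (2 * ‖proj (V.tangent y) - (T k).starProjection‖ ^ 2 + 2 * q) ∂ν := by
        refine setIntegral_mono_on (hls.integrableOn_tiltsq _ _)
          (((hls.integrableOn_tiltsq _ _).const_mul 2).add (integrable_const _))
          measurableSet_ball fun y _ => ?_
        set a := proj (V.tangent y) - (T k).starProjection
        set b := (T k).starProjection - T₀.starProjection
        have h1 : proj (V.tangent y) - T₀.starProjection = a + b := by
          show _ = (proj (V.tangent y) - (T k).starProjection)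
            + ((T k).starProjection - T₀.starProjection)
          abel
        rw [h1]
        have h3 : ‖a + b‖ ≤ ‖a‖ + ‖b‖ := norm_add_le _ _
        have h4 : ‖a + b‖ ^ 2 ≤ (‖a‖ + ‖b‖) ^ 2 := pow_le_pow_left₀ (norm_nonneg _) h3 2
        have h5 : q = ‖b‖ ^ 2 := rfl
        nlinarith [sq_nonneg (‖a‖ - ‖b‖)]
    _ = 2 * (∫ y in ball x (r k), ‖proj (V.tangent y) - (T k).starProjection‖ ^ 2 ∂ν)
          + 2 * q * ν.real (ball x (r k)) := by
        rw [integral_add ((hls.integrableOn_tiltsq _ _).const_mul 2) (integrable_const _),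
          integral_const_mul, setIntegral_const, smul_eq_mul]
        ring
    _ ≤ 2 * (1 / ((k:ℝ) + 1) * (r k) ^ m) + 2 * q * (M * (r k) ^ m) := by
        have := (hTr k).le
        gcongr
    _ ≤ 2 * (ε / 4 * (r k) ^ m) + 2 * (ε / (4 * M)) * (M * (r k) ^ m) := by
        gcongr
    _ = ε * (r k) ^ m := by field_simp; ring

/-- the local dimension bound -/
lemma IntegralVarifold.dimH_local (hm : 1 ≤ m) (hU : IsOpen U) (V : IntegralVarifold m U)
    (hst : V.IsStationary) {x₁ : E} (hx₁ : x₁ ∈ U) :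
    ∃ t ∈ 𝓝 x₁, dimH ({x ∈ V.sing | ∀ T, V.IsBlowupPlane x T → V.IsolatedAt x T} ∩ t)
      ≤ ((m - 1 : ℕ) : ℝ≥0∞) := by
  obtain ⟨R, hR0, hR⟩ : ∃ R > 0, closedBall x₁ R ⊆ U :=
    nhds_basis_closedBall.mem_iff.1 (hU.mem_nhds hx₁)
  have hfin := V.finite_restrict hR
  have hls := V.locStat hst hR
  refine ⟨ball x₁ (R / 4), ball_mem_nhds _ (by positivity), ?_⟩
  refine hls.dimH_strat hm (r₀ := R / 16) (by positivity) ?_ ?_
  · rintro x ⟨hx, hxb⟩
    rw [mem_ball] at hxb
    exact closedBall_subset_ball' (by linarith)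
  · rintro x ⟨hx, hxb⟩
    by_contra hns
    obtain ⟨T, hT⟩ := V.exists_blowup hst hR (ball_subset_ball (by linarith) hxb) hns
    exact hx.1.2 (V.regular_of_blowup hU hst hx.1.1 hT (hx.2 T hT))

/-- the dimension bound -/
theorem IntegralVarifold.dimH_sing (hm : 1 ≤ m) (hU : IsOpen U) (V : IntegralVarifold m U)
    (hst : V.IsStationary) :
    dimH {x ∈ V.sing | ∀ T, V.IsBlowupPlane x T → V.IsolatedAt x T} ≤ ((m - 1 : ℕ) : ℝ≥0∞) := by
  by_contra hcon
  rw [not_le] at hcon
  obtain ⟨x, hx, hxt⟩ := exists_mem_nhdsWithin_lt_dimH_of_lt_dimH hcon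
  obtain ⟨t, ht, htd⟩ := V.dimH_local hm hU hst hx.1.1.1
  have h1 := hxt ({x ∈ V.sing | ∀ T, V.IsBlowupPlane x T → V.IsolatedAt x T} ∩ t)
    (inter_mem self_mem_nhdsWithin (mem_nhdsWithin_of_mem_nhds ht))
  exact absurd (h1.trans_le htd) (lt_irrefl _)

/-- a locally finite Gauss image is discrete -/
lemma IntegralVarifold.isolatedAt_of_finiteGauss (V : IntegralVarifold m U) {x : E}
    (hF : V.FiniteGauss x) (T : Submodule ℝ E) : V.IsolatedAt x T := by
  classical
  obtain ⟨r, hr, F, hFfin, hF⟩ := hF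
  obtain ⟨δ, hδ, hgap⟩ : ∃ δ > 0, ∀ T' ∈ F, T' ≠ T → δ ≤ ‖proj T' - proj T‖ := by
    set D := hFfin.toFinset.filter fun T' => T' ≠ T with hD
    rcases D.eq_empty_or_nonempty with h0 | hne
    · refine ⟨1, one_pos, fun T' h1 hne => ?_⟩
      have : T' ∈ D := Finset.mem_filter.2 ⟨hFfin.mem_toFinset.2 h1, hne⟩
      rw [h0] at this; simp at this
    · obtain ⟨p, hp, hmin⟩ := D.exists_min_image (fun T' => ‖proj T' - proj T‖) hne
      refine ⟨‖proj p - proj T‖, ?_, fun T' h1 hne => ?_⟩
      · rw [gt_iff_lt, norm_pos_iff, sub_ne_zero]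
        intro heq
        exact (Finset.mem_filter.1 hp).2 (Submodule.starProjection_inj.1 heq)
      · exact hmin T' (Finset.mem_filter.2 ⟨hFfin.mem_toFinset.2 h1, hne⟩)
  refine ⟨r, hr, δ, hδ, ?_⟩
  filter_upwards [hF] with y hy hyb hne
  exact hgap _ (hy hyb) hne

/-- null sets of the weight in the carrier are Hausdorff null -/
lemma IntegralVarifold.hausdorff_null_of_weight (V : IntegralVarifold m U) {A : Set E}
    (hA : A ⊆ V.carrier) (h0 : V.weight A = 0) : μH[m] A = 0 := by
  have h1 : ((μH[m] : Measure E).restrict V.carrier) A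
      ≤ V.weight A := by
    rw [V.weight_eq]
    unfold weightOf
    refine (?_ : (μH[m] : Measure E).restrict V.carrier ≤ _) A
    conv_lhs => rw [← withDensity_one (μ := (μH[m] : Measure E).restrict V.carrier)]
    refine withDensity_mono ?_
    filter_upwards [ae_restrict_mem₀ V.carrier_meas] with y hy
    simp only [Pi.one_apply]
    exact_mod_cast V.mult_pos y hy
  rw [h0] at h1
  have h2 := le_antisymm h1 bot_le
  rwa [Measure.restrict_eq_self _ hA] at h2

theorem IntegralVarifold.hausdorff_sing (hU : IsOpen U) (V : IntegralVarifold m U)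
    (hst : V.IsStationary) :
    μH[m] {x ∈ V.sing | ¬ (x ∈ V.carrier ∧ ¬ V.IsolatedAt x (V.tangent x))} = 0 := by
  have hsplit : {x ∈ V.sing | ¬ (x ∈ V.carrier ∧ ¬ V.IsolatedAt x (V.tangent x))}
      ⊆ (V.spt \ V.carrier) ∪
        {x ∈ V.carrier | ¬(x ∈ V.spt ∧ V.IsBlowupPlane x (V.tangent x))} := by
    rintro x ⟨hx, hn⟩
    by_cases hc : x ∈ V.carrier
    · refine Or.inr ⟨hc, fun h => ?_⟩
      by_cases hi : V.IsolatedAt x (V.tangent x)
      · exact hx.2 (V.regular_of_blowup hU hst hx.1 h.2 hi)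
      · exact hn ⟨hc, hi⟩
    · exact Or.inl ⟨hx.1, hc⟩
  refine measure_mono_null hsplit (measure_union_null ?_ ?_)
  · refine measure_null_of_locally_null _ fun x₁ hx₁ => ?_
    obtain ⟨R, hR0, hR⟩ : ∃ R > 0, closedBall x₁ R ⊆ U :=
      nhds_basis_closedBall.mem_iff.1 (hU.mem_nhds hx₁.1.1)
    have hfin := V.finite_restrict hR
    have hls := V.locStat hst hR
    have hdl := V.densLow (x := x₁) (R := R)
    refine ⟨(V.spt \ V.carrier) ∩ ball x₁ R, inter_mem self_mem_nhdsWithin
      (mem_nhdsWithin_of_mem_nhds (ball_mem_nhds _ hR0)), ?_⟩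
    refine hausdorff_null_of_density (V.weight.restrict (closedBall x₁ R)) (cg_pos m) ?_ ?_
    · refine le_antisymm ((Measure.restrict_apply_le _ _).trans ?_) bot_le
      refine (measure_mono (fun z hz => hz.1.2 : _ ⊆ V.carrierᶜ)).trans ?_
      have := V.ae_mem_carrier
      exact le_of_eq this
    · rintro x ⟨⟨hxs, hxc⟩, hxb⟩
      rw [mem_ball] at hxb
      refine ⟨R - dist x x₁, by linarith, fun r hr hr1 => ?_⟩
      refine (hls.ball_lower hdl (V.mem_support hxs (mem_ball.2 hxb)) hr ?_).trans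
        (measureReal_mono ball_subset_closedBall)
      exact closedBall_subset_ball' (by linarith)
  · refine V.hausdorff_null_of_weight (fun z hz => hz.1) ?_
    have h1 := V.ae_blowup hU hst
    rw [ae_iff] at h1
    exact measure_mono_null (fun z hz => hz.2) h1

end Vale.Agent.P214
end
end
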